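import Vale.Agent.P128.Regularity.Defs

/-!
# P128 regularity: stars, graphs in rotated squares, branches (elementary facts)
-/

open MeasureTheory Set Metric Filter
open scoped Topology Real RealInnerProductSpace

noncomputable section

namespace Vale.Agent.P128.Regularity

/-! ## Stars -/

/-- The direction of the `k`-th ray of `starSet n x d`. -/
def starDir (n : ℕ) (d : ℂ) (k : Fin n) : ℂ :=
  d * Complex.exp (((2 * π * (k : ℕ) / n : ℝ) : ℂ) * Complex.I)

lemma mem_starSet {n : ℕ} {x d w : ℂ} :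
    w ∈ starSet n x d ↔ ∃ k : Fin n, ∃ a : ℝ, 0 ≤ a ∧ w = x + a • starDir n d k := by
  simp only [starSet, starDir, mem_iUnion, mem_image, mem_Ici, eq_comm (a := w)]

lemma norm_starDir {n : ℕ} {d : ℂ} (hd : ‖d‖ = 1) (k : Fin n) : ‖starDir n d k‖ = 1 := by
  rw [starDir, norm_mul, Complex.norm_exp_ofReal_mul_I, hd, one_mul]

lemma real_inner_eq (a b : ℂ) : ⟪a, b⟫ = a.re * b.re + a.im * b.im := by
  rw [Complex.inner]
  simp [mul_comm]

lemma norm_I_mul (d : ℂ) : ‖Complex.I * d‖ = ‖d‖ := by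
  rw [norm_mul, Complex.norm_I, one_mul]

lemma inner_starDir {n : ℕ} (hn : n = 1 ∨ n = 3) {d : ℂ} (hd : ‖d‖ = 1) {j k : Fin n}
    (h : j ≠ k) : ⟪starDir n d j, starDir n d k⟫ = -(1 / 2) := by
  rcases hn with rfl | rfl
  · exact absurd (Subsingleton.elim j k) h
  have hd2 : d.re * d.re + d.im * d.im = 1 := by
    rw [← Complex.normSq_apply, Complex.normSq_eq_norm_sq, hd, one_pow]
  have hd' : ‖d‖ ^ 2 = 1 := by rw [hd, one_pow]
  have key : ∀ α β : ℝ, ⟪d * Complex.exp (α * Complex.I), d * Complex.exp (β * Complex.I)⟫ =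
      Real.cos (α - β) := fun α β => by
    simp only [real_inner_eq, Complex.mul_re, Complex.mul_im, Complex.exp_ofReal_mul_I_re,
      Complex.exp_ofReal_mul_I_im, Real.cos_sub]
    linear_combination (Real.cos α * Real.cos β + Real.sin α * Real.sin β) * hd2
  rw [starDir, starDir, key]
  have h1 : Real.cos (2 * π / 3) = -(1 / 2) := by
    rw [show 2 * π / 3 = π - π / 3 by ring, Real.cos_pi_sub, Real.cos_pi_div_three]
  have h2 : Real.cos (4 * π / 3) = -(1 / 2) := by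
    rw [show 4 * π / 3 = π / 3 + π by ring, Real.cos_add_pi, Real.cos_pi_div_three]
  have hcos : ∀ e : ℝ, e = 2 * π / 3 ∨ e = -(2 * π / 3) ∨ e = 4 * π / 3 ∨ e = -(4 * π / 3) →
      Real.cos e = -(1 / 2) := by
    rintro e (rfl | rfl | rfl | rfl) <;> first | assumption | (rw [Real.cos_neg]; assumption)
  refine hcos _ ?_
  fin_cases j <;> fin_cases k
  all_goals first
    | exact absurd rfl h
    | (left; norm_num <;> linarith)
    | (right; left; norm_num <;> linarith)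
    | (right; right; left; norm_num <;> linarith)
    | (right; right; right; norm_num <;> linarith)

/-- Two points near different rays are apart. -/
lemma rays_apart {x u v p q : ℂ} {a b δ : ℝ} (ha : 0 ≤ a) (hb : 0 ≤ b) (hu : ‖u‖ = 1)
    (hv : ‖v‖ = 1) (huv : ⟪u, v⟫ = -(1 / 2)) (hp : ‖p - (x + a • u)‖ ≤ δ)
    (hq : ‖q - (x + b • v)‖ ≤ δ) :
    17 / 20 * (‖p - x‖ + ‖q - x‖) - 4 * δ ≤ ‖p - q‖ := by
  have h : ‖a • u - b • v‖ ^ 2 = a ^ 2 + a * b + b ^ 2 := by
    rw [norm_sub_sq_real, norm_smul, norm_smul, hu, hv, real_inner_smul_left,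
      real_inner_smul_right, huv, Real.norm_of_nonneg ha, Real.norm_of_nonneg hb]
    ring
  have h1 : 17 / 20 * (a + b) ≤ ‖a • u - b • v‖ := by
    nlinarith [norm_nonneg (a • u - b • v), sq_nonneg (a - b)]
  have e : a • u - b • v = (p - q) - (p - (x + a • u)) + (q - (x + b • v)) := by abel
  have h2 := norm_add_le ((p - q) - (p - (x + a • u))) (q - (x + b • v))
  rw [← e] at h2
  have h3 := norm_sub_le (p - q) (p - (x + a • u))
  have hn : ∀ (w : ℂ) (c : ℝ) (z : ℂ), 0 ≤ c → ‖w‖ = 1 → ‖z - x‖ ≤ c + ‖z - (x + c • w)‖ :=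
    fun w c z hc hw => by
      calc ‖z - x‖ = ‖c • w + (z - (x + c • w))‖ := by congr 1; abel
        _ ≤ ‖c • w‖ + ‖z - (x + c • w)‖ := norm_add_le _ _
        _ = _ := by rw [norm_smul, hw, Real.norm_of_nonneg hc, mul_one]
  linarith [hn u a p ha hu, hn v b q hb hv, norm_nonneg (p - (x + a • u))]

/-- A point near a ray has radial coordinate near its distance to the vertex. -/
lemma abs_ray_coord {x u p : ℂ} {a δ : ℝ} (ha : 0 ≤ a) (hu : ‖u‖ = 1)
    (hp : ‖p - (x + a • u)‖ ≤ δ) : |‖p - x‖ - a| ≤ δ := by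
  have h := abs_norm_sub_norm_le (p - x) (a • u)
  rw [norm_smul, hu, Real.norm_of_nonneg ha, mul_one, sub_sub] at h
  exact h.trans hp

/-! ## Frames -/

lemma frame_eq {d : ℂ} (hd : ‖d‖ = 1) (w : ℂ) :
    w = ⟪w, d⟫ • d + ⟪w, Complex.I * d⟫ • (Complex.I * d) := by
  have hd2 : d.re * d.re + d.im * d.im = 1 := by
    rw [← Complex.normSq_apply, Complex.normSq_eq_norm_sq, hd, one_pow]
  apply Complex.ext <;> simp [Complex.mul_re, Complex.mul_im]
  · linear_combination (-w.re) * hd2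
  · linear_combination (-w.im) * hd2

lemma inner_self_I_mul (d : ℂ) : ⟪d, Complex.I * d⟫ = 0 := by
  simp [Complex.mul_re, Complex.mul_im, mul_comm]

lemma inner_frame {d : ℂ} (hd : ‖d‖ = 1) (a b : ℝ) :
    ⟪a • d + b • (Complex.I * d), d⟫ = a ∧
      ⟪a • d + b • (Complex.I * d), Complex.I * d⟫ = b := by
  have h : ⟪Complex.I * d, d⟫ = 0 := by rw [real_inner_comm, inner_self_I_mul]
  constructor <;>
    rw [inner_add_left, real_inner_smul_left, real_inner_smul_left] <;>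
    simp only [h, inner_self_I_mul, real_inner_self_eq_norm_sq, norm_I_mul, hd] <;> ring

lemma norm_sq_frame {d : ℂ} (hd : ‖d‖ = 1) (a b : ℝ) :
    ‖a • d + b • (Complex.I * d)‖ ^ 2 = a ^ 2 + b ^ 2 := by
  rw [norm_add_sq_real, norm_smul, norm_smul, hd, norm_I_mul, hd, real_inner_smul_left,
    real_inner_smul_right, inner_self_I_mul]
  simp [sq_abs]

lemma sq_inner_add {d : ℂ} (hd : ‖d‖ = 1) (w : ℂ) :
    ⟪w, d⟫ ^ 2 + ⟪w, Complex.I * d⟫ ^ 2 = ‖w‖ ^ 2 := by
  rw [← norm_sq_frame hd ⟪w, d⟫ ⟪w, Complex.I * d⟫, ← frame_eq hd w]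

lemma inner_I_mul_I_mul (a b : ℂ) : ⟪Complex.I * a, Complex.I * b⟫ = ⟪a, b⟫ := by
  simp [Complex.mul_re, Complex.mul_im]

/-! ## Graphs -/

/-- The point of parameter `s` of a graph. -/
def graphPt (z d : ℂ) (f : ℝ → ℝ) (s : ℝ) : ℂ := z + (s • d + f s • (Complex.I * d))

/-- The tangent of a graph. -/
def graphTan (d : ℂ) (f' : ℝ → ℝ) (s : ℝ) : ℂ := d + f' s • (Complex.I * d)

namespace GraphAt

variable {K : Set ℂ} {z d : ℂ} {ρ β C : ℝ} {f f' : ℝ → ℝ}

lemma abs_f_le (h : GraphAt K z d ρ β C f f') {s : ℝ} (hs : s ∈ Icc (-ρ) ρ) :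
    |f s| ≤ |s| / 10 := by
  have := (convex_Icc (-ρ) ρ).norm_image_sub_le_of_norm_hasDerivWithin_le h.deriv
    (fun t ht => by rw [Real.norm_eq_abs]; exact h.small t ht)
    (x := 0) ⟨by linarith [h.pos], h.pos.le⟩ hs
  simpa [h.zero, Real.norm_eq_abs, div_eq_inv_mul] using this

lemma coords (h : GraphAt K z d ρ β C f f') (s : ℝ) :
    ⟪graphPt z d f s - z, d⟫ = s ∧ ⟪graphPt z d f s - z, Complex.I * d⟫ = f s := by
  simpa [graphPt] using inner_frame h.unit s (f s)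

lemma pt_zero (h : GraphAt K z d ρ β C f f') : graphPt z d f 0 = z := by
  simp [graphPt, h.zero]

lemma pt_mem (h : GraphAt K z d ρ β C f f') {s : ℝ} (hs : s ∈ Icc (-ρ) ρ) :
    graphPt z d f s ∈ K := by
  have hs' : |s| ≤ ρ := abs_le.2 hs
  refine (h.graph _ ?_ ?_).2 ?_ <;> simp only [(h.coords s).1, (h.coords s).2]
  · exact hs'
  · linarith [h.abs_f_le hs, abs_nonneg s]

lemma norm_pt_sub (h : GraphAt K z d ρ β C f f') {s : ℝ} (hs : s ∈ Icc (-ρ) ρ) :
    ‖graphPt z d f s - z‖ ≤ 101 / 100 * |s| := by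
  have h1 := h.abs_f_le hs
  have h2 := norm_sq_frame h.unit s (f s)
  rw [show graphPt z d f s - z = s • d + f s • (Complex.I * d) by simp [graphPt]]
  nlinarith [norm_nonneg (s • d + f s • (Complex.I * d)), abs_nonneg s, abs_nonneg (f s),
    sq_abs s, sq_abs (f s)]

lemma abs_coord_le (h : GraphAt K z d ρ β C f f') {w : ℂ} (hw : ‖w - z‖ ≤ ρ) :
    ⟪w - z, d⟫ ∈ Icc (-ρ) ρ := by
  have := abs_real_inner_le_norm (w - z) d
  rw [h.unit, mul_one] at this
  exact abs_le.1 (this.trans hw)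

lemma eq_pt (h : GraphAt K z d ρ β C f f') {w : ℂ} (hK : w ∈ K) (hw : ‖w - z‖ ≤ ρ) :
    w = graphPt z d f ⟪w - z, d⟫ := by
  have h1 := abs_real_inner_le_norm (w - z) (Complex.I * d)
  rw [norm_I_mul, h.unit, mul_one] at h1
  have h2 := (h.graph w (abs_le.2 (h.abs_coord_le hw)) (h1.trans hw)).1 hK
  rw [graphPt, ← h2, ← frame_eq h.unit (w - z), add_sub_cancel]

lemma tan_norm (h : GraphAt K z d ρ β C f f') {s : ℝ} (hs : s ∈ Icc (-ρ) ρ) :
    1 ≤ ‖graphTan d f' s‖ ∧ ‖graphTan d f' s‖ ≤ 101 / 100 := by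
  have h1 := norm_sq_frame h.unit 1 (f' s)
  rw [one_smul] at h1
  have h2 := h.small s hs
  unfold graphTan
  constructor <;> nlinarith [norm_nonneg (d + f' s • (Complex.I * d)), sq_abs (f' s),
    abs_nonneg (f' s)]

lemma hasDerivAt_pt (h : GraphAt K z d ρ β C f f') {s : ℝ} (hs : s ∈ Ioo (-ρ) ρ) :
    HasDerivAt (graphPt z d f) (graphTan d f' s) s := by
  have hf := (h.deriv s (Ioo_subset_Icc_self hs)).hasDerivAt (Icc_mem_nhds hs.1 hs.2)
  have := (((hasDerivAt_id s).smul_const d).add (hf.smul_const (Complex.I * d))).const_add z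
  rw [one_smul] at this
  exact this

lemma continuousOn_pt (h : GraphAt K z d ρ β C f f') :
    ContinuousOn (graphPt z d f) (Icc (-ρ) ρ) := by
  have hf : ContinuousOn f (Icc (-ρ) ρ) := fun t ht => (h.deriv t ht).continuousWithinAt
  unfold graphPt
  fun_prop

lemma continuousOn_tan (h : GraphAt K z d ρ β C f f') (hβ : 0 < β) :
    ContinuousOn (graphTan d f') (Icc (-ρ) ρ) := by
  have hf : ContinuousOn f' (Icc (-ρ) ρ) := fun t ht => by
    rw [ContinuousWithinAt, tendsto_iff_norm_sub_tendsto_zero]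
    have hc : Continuous fun s : ℝ => C * (|s - t| / ρ) ^ β := by
      have : Continuous fun s : ℝ => (|s - t| / ρ) ^ β :=
        Continuous.rpow_const (by fun_prop) fun _ => Or.inr hβ.le
      fun_prop
    refine squeeze_zero' (Eventually.of_forall fun _ => norm_nonneg _) ?_
      ((hc.tendsto' t 0 (by simp [Real.zero_rpow hβ.ne'])).mono_left nhdsWithin_le_nhds)
    filter_upwards [self_mem_nhdsWithin] with s hs
    exact h.holder s hs t ht
  unfold graphTan
  fun_prop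

lemma mono (h : GraphAt K z d ρ β C f f') {ρ' : ℝ} (h0 : 0 < ρ') (hle : ρ' ≤ ρ) (hβ : 0 ≤ β)
    (hC : 0 ≤ C) : GraphAt K z d ρ' β C f f' := by
  have hsub : Icc (-ρ') ρ' ⊆ Icc (-ρ) ρ := Icc_subset_Icc (neg_le_neg hle) hle
  refine ⟨h.unit, h0, h.zero, fun t ht => (h.deriv t (hsub ht)).mono hsub,
    fun t ht => h.small t (hsub ht), fun s hs t ht => (h.holder s (hsub hs) t (hsub ht)).trans ?_,
    fun w h1 h2 => h.graph w (h1.trans hle) (h2.trans hle)⟩
  have := h.pos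
  gcongr

/-- A point with a graph around it is an interior point of an arc. -/
theorem isInteriorPoint (h : GraphAt K z d ρ β C f f') :
    ∃ N : Set ℂ, IsOpen N ∧ z ∈ N ∧ N ⊆ ball z (2 * ρ) ∧ IsInteriorPoint K N z β := by
  set N : Set ℂ := {w | |⟪w - z, d⟫| < ρ ∧ |⟪w - z, Complex.I * d⟫| < ρ}
  have hρ := h.pos
  have hc : ∀ e : ℂ, Continuous fun w => |⟪w - z, e⟫| := fun e =>
    ((continuous_id.sub continuous_const).inner continuous_const).abs
  refine ⟨N, (isOpen_lt (hc d) continuous_const).inter (isOpen_lt (hc _) continuous_const),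
    by simp [N, hρ], fun w hw => ?_,
    fun t => graphPt z d f (ρ * t), fun t => ρ • graphTan d f' (ρ * t), ⟨by norm_num, ?_, ?_, ?_⟩,
    by simp [h.pt_zero], ?_⟩
  · rw [mem_ball, dist_eq_norm]
    have := sq_inner_add h.unit (w - z)
    nlinarith [norm_nonneg (w - z), hw.1, hw.2, abs_nonneg ⟪w - z, d⟫,
      abs_nonneg ⟪w - z, Complex.I * d⟫, sq_abs ⟪w - z, d⟫, sq_abs ⟪w - z, Complex.I * d⟫]
  · intro s _ t _ hst
    have := congrArg (fun w => ⟪w - z, d⟫) hst
    simp only [(h.coords _).1] at this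
    exact mul_left_cancel₀ hρ.ne' this
  · intro t ht
    have hm : MapsTo (fun t : ℝ => ρ * t) (Icc (-1) 1) (Icc (-ρ) ρ) := fun s hs =>
      ⟨by nlinarith [hs.1], by nlinarith [hs.2]⟩
    have hf := h.deriv (ρ * t) (hm ht)
    have hp : HasDerivWithinAt (graphPt z d f) (graphTan d f' (ρ * t)) (Icc (-ρ) ρ) (ρ * t) := by
      have := (((hasDerivWithinAt_id (ρ * t) _).smul_const d).add
        (hf.smul_const (Complex.I * d))).const_add z
      rw [one_smul] at this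
      exact this
    refine ⟨hp.scomp (h := fun t : ℝ => ρ * t) t
      (by simpa using (hasDerivWithinAt_id t (Icc (-1) 1)).const_mul ρ) hm, smul_ne_zero hρ.ne' ?_⟩
    intro h0
    have := (h.tan_norm (hm ht)).1
    rw [h0, norm_zero] at this
    linarith
  · refine ⟨ρ * C, fun s hs t ht => ?_⟩
    have hh := h.holder (ρ * s) ⟨by nlinarith [hs.1], by nlinarith [hs.2]⟩ (ρ * t)
      ⟨by nlinarith [ht.1], by nlinarith [ht.2]⟩
    rw [← mul_sub, abs_mul, abs_of_pos hρ, mul_div_cancel_left₀ _ hρ.ne'] at hh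
    rw [← smul_sub, norm_smul, Real.norm_of_nonneg hρ.le, mul_assoc]
    refine mul_le_mul_of_nonneg_left ?_ hρ.le
    rw [graphTan, graphTan, add_sub_add_left_eq_sub, ← sub_smul, norm_smul, norm_I_mul, h.unit,
      mul_one, Real.norm_eq_abs]
    exact hh
  · ext w
    constructor
    · rintro ⟨hK, h1, h2⟩
      obtain ⟨h1l, h1r⟩ := abs_lt.1 h1
      refine ⟨⟪w - z, d⟫ / ρ, ⟨by rw [lt_div_iff₀ hρ]; linarith, by rwa [div_lt_one hρ]⟩, ?_⟩
      simp only [mul_div_cancel₀ _ hρ.ne', graphPt]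
      rw [← (h.graph w h1.le h2.le).1 hK, ← frame_eq h.unit (w - z), add_sub_cancel]
    · rintro ⟨t, ht, rfl⟩
      have hs : ρ * t ∈ Ioo (-ρ) ρ := ⟨by nlinarith [ht.1], by nlinarith [ht.2]⟩
      refine ⟨h.pt_mem (Ioo_subset_Icc_self hs), ?_, ?_⟩ <;>
        simp only [(h.coords _).1, (h.coords _).2]
      · exact abs_lt.2 hs
      · linarith [h.abs_f_le (Ioo_subset_Icc_self hs), abs_lt.2 hs, abs_nonneg (ρ * t)]

end GraphAt

/-! ## Branches -/

namespace Branches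

variable {K : Set ℂ} {n : ℕ} {x : ℂ} {R : ℝ} {γ γ' : Fin n → ℝ → ℂ}

lemma mono (h : Branches K n x R γ γ') {R' : ℝ} (h0 : 0 < R') (hle : R' ≤ R) :
    Branches K n x R' γ γ' := by
  have hs : Ioo (0 : ℝ) R' ⊆ Ioo 0 R := Ioo_subset_Ioo le_rfl hle
  refine ⟨h0, h.mem, fun i t ht => h.radial i t (hs ht), fun i t ht => h.deriv i t (hs ht),
    fun i => (h.cont i).mono hs, ?_, fun i j hij t ht => h.apart i j hij t (hs ht)⟩
  ext w
  constructor
  · rintro ⟨hK, hw⟩
    have : w ∈ insert x (⋃ i, γ i '' Ioo (0 : ℝ) R) := h.cover ▸ ⟨hK, ball_subset_ball hle hw⟩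
    rcases this with rfl | hu
    · exact mem_insert _ _
    · obtain ⟨i, t, ht, rfl⟩ := mem_iUnion.1 hu
      rw [mem_ball, dist_eq_norm, h.radial i t ht] at hw
      exact mem_insert_of_mem _ (mem_iUnion.2 ⟨i, t, ⟨ht.1, hw⟩, rfl⟩)
  · rintro (rfl | hu)
    · exact ⟨h.mem, mem_ball_self h0⟩
    · obtain ⟨i, t, ht, rfl⟩ := mem_iUnion.1 hu
      have hm : γ i t ∈ K ∩ ball x R :=
        h.cover.symm ▸ mem_insert_of_mem _ (mem_iUnion.2 ⟨i, t, hs ht, rfl⟩)
      exact ⟨hm.1, by rw [mem_ball, dist_eq_norm, h.radial i t (hs ht)]; exact ht.2⟩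

lemma mem_curve (h : Branches K n x R γ γ') (i : Fin n) {t : ℝ} (ht : t ∈ Ioo (0 : ℝ) R) :
    γ i t ∈ K :=
  (h.cover.symm ▸ mem_insert_of_mem _ (mem_iUnion.2 ⟨i, t, ht, rfl⟩) :
    γ i t ∈ K ∩ ball x R).1

end Branches

end Vale.Agent.P128.Regularity
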