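import Vale.Agent.P128.Regularity.Spec
import Vale.Agent.P128.Regularity.Radial

/-!
# P128 regularity R13: the arcs of the problem from branches, decaying flatness and graphs

Decaying flatness and the Hölder bound of the graphs make a branch tangent to its radial direction
up to a power of the radius; so the direction and the derivative have limits at the centre and
the derivative is Hölder up to it.
-/

open MeasureTheory Set Metric Filter
open scoped Topology Real RealInnerProductSpace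

noncomputable section

namespace Vale.Agent.P128.Regularity

/-- The radial direction of the point `γ i t`. -/
def radDir {n : ℕ} (x : ℂ) (γ : Fin n → ℝ → ℂ) (i : Fin n) (t : ℝ) : ℂ := t⁻¹ • (γ i t - x)

/-- The data of R13 (with a small `κ`). -/
structure ArcData (K : Set ℂ) (n : ℕ) (x : ℂ) (R C β κ : ℝ) (γ γ' : Fin n → ℝ → ℂ) : Prop where
  hn : n = 1 ∨ n = 3
  branches : Branches K n x R γ γ'
  hC : 0 < C
  hβ : 0 < β
  hβ' : β ≤ 1
  hκ : 0 < κ
  hκ' : κ ≤ 1 / 8
  flat : ∀ r ∈ Ioc (0 : ℝ) R, Flat K n x r (C * (r / R) ^ β)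
  graph : ∀ z ∈ K ∩ ball x R, z ≠ x →
    ∃ (d : ℂ) (f f' : ℝ → ℝ), GraphAt K z d (κ * dist z x) β C f f'

namespace ArcData

variable {K : Set ℂ} {n : ℕ} {x : ℂ} {R C β κ : ℝ} {γ γ' : Fin n → ℝ → ℂ}
  (S : ArcData K n x R C β κ γ γ')
include S

lemma norm_radDir (i : Fin n) {t : ℝ} (ht : t ∈ Ioo 0 R) : ‖radDir x γ i t‖ = 1 := by
  rw [radDir, norm_smul, S.branches.radial i t ht, norm_inv, Real.norm_of_nonneg ht.1.le,
    inv_mul_cancel₀ ht.1.ne']

lemma inner_deriv (i : Fin n) {t : ℝ} (ht : t ∈ Ioo 0 R) : ⟪γ' i t, radDir x γ i t⟫ = 1 := by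
  have h1 := ((S.branches.deriv i t ht).1.sub_const x).norm_sq
  have h2 : HasDerivAt (fun τ => ‖γ i τ - x‖ ^ 2) (2 * t) t := by
    have h := hasDerivAt_pow 2 t
    norm_num at h
    refine h.congr_of_eventuallyEq ?_
    filter_upwards [Ioo_mem_nhds ht.1 ht.2] with τ hτ
    rw [S.branches.radial i τ hτ]
  have h3 := h1.unique h2
  rw [radDir, real_inner_smul_right, real_inner_comm, inv_mul_eq_div, div_eq_one_iff_eq ht.1.ne']
  linarith

lemma graph_at (i : Fin n) {t : ℝ} (ht : t ∈ Ioo 0 R) :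
    ∃ (d : ℂ) (f f' : ℝ → ℝ), GraphAt K (γ i t) d (κ * t) β C f f' := by
  have hr := S.branches.radial i t ht
  have hne : γ i t ≠ x := fun h => by
    rw [h, sub_self, norm_zero] at hr
    exact ht.1.ne hr
  simpa [dist_eq_norm, hr] using
    S.graph _ ⟨S.branches.mem_curve i ht, by rw [mem_ball, dist_eq_norm, hr]; exact ht.2⟩ hne

/-- In a graph, the derivative of a branch is the tangent, scaled. -/
lemma deriv_graph (i : Fin n) {t : ℝ} (ht : t ∈ Ioo 0 R) {z d : ℂ} {ρ : ℝ} {f f' : ℝ → ℝ}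
    (hg : GraphAt K z d ρ β C f f') (hz : ‖γ i t - z‖ < ρ) :
    γ' i t = ⟪graphTan d f' ⟪γ i t - z, d⟫, radDir x γ i t⟫⁻¹ • graphTan d f' ⟪γ i t - z, d⟫ ∧
      1 / 2 ≤ |⟪graphTan d f' ⟪γ i t - z, d⟫, radDir x γ i t⟫| := by
  obtain ⟨hd, hd2⟩ := S.branches.deriv i t ht
  set T := graphTan d f' ⟪γ i t - z, d⟫
  set c := ⟪γ' i t, d⟫
  have hs : HasDerivAt (fun τ => ⟪γ i τ - z, d⟫) c t := by
    refine ((hd.sub_const z).inner ℝ (hasDerivAt_const t d)).congr_deriv ?_
    rw [inner_zero_right, zero_add]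
  have h0 := abs_real_inner_le_norm (γ i t - z) d
  rw [hg.unit, mul_one] at h0
  have hp := (hg.hasDerivAt_pt (abs_lt.1 (h0.trans_lt hz))).scomp t hs
  have heq : γ i =ᶠ[𝓝 t] fun τ => graphPt z d f ⟪γ i τ - z, d⟫ := by
    filter_upwards [(hd.continuousAt.sub continuousAt_const).norm.eventually (gt_mem_nhds hz),
      Ioo_mem_nhds ht.1 ht.2] with τ h1 h2
    exact hg.eq_pt (S.branches.mem_curve i h2) h1.le
  have hT : γ' i t = c • T := hd.unique (hp.congr_of_eventuallyEq heq)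
  have h1 := S.inner_deriv i ht
  rw [hT, real_inner_smul_left] at h1
  refine ⟨hT.trans (by rw [eq_inv_of_mul_eq_one_left h1]), ?_⟩
  have hTn := (hg.tan_norm (hg.abs_coord_le hz.le)).1
  rw [hT, norm_smul, Real.norm_eq_abs] at hd2
  have hc : |c| ≤ 2 := le_trans (le_mul_of_one_le_right (abs_nonneg c) hTn) hd2
  have h3 : |c| * |⟪T, radDir x γ i t⟫| = 1 := by rw [← abs_mul, h1, abs_one]
  nlinarith [abs_nonneg ⟪T, radDir x γ i t⟫]

lemma dist_curve (i : Fin n) {s t : ℝ} (hs : 0 < s) (hst : s ≤ t) (ht : t < R) :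
    ‖γ i t - γ i s‖ ≤ 2 * (t - s) := by
  have h := (convex_Icc s t).norm_image_sub_le_of_norm_hasDerivWithin_le
    (fun τ hτ => (S.branches.deriv i τ ⟨hs.trans_le hτ.1, hτ.2.trans_lt ht⟩).1.hasDerivWithinAt)
    (fun τ hτ => (S.branches.deriv i τ ⟨hs.trans_le hτ.1, hτ.2.trans_lt ht⟩).2)
    (left_mem_Icc.2 hst) (right_mem_Icc.2 hst)
  rwa [Real.norm_of_nonneg (sub_nonneg.2 hst)] at h

/-- The star at scale `2 t`. -/
lemma star {t : ℝ} (h0 : 0 < t) (hR : 2 * t ≤ R) :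
    ∃ d : ℂ, ‖d‖ = 1 ∧ ∀ y ∈ K, ‖y - x‖ ≤ 2 * t → ∃ k : Fin n, ∃ a : ℝ, 0 ≤ a ∧
      ‖y - (x + a • starDir n d k)‖ ≤ 2 * C * (2 * t / R) ^ β * t := by
  obtain ⟨d, hd, h1, -⟩ := S.flat (2 * t) ⟨by linarith, hR⟩
  refine ⟨d, hd, fun y hy hyt => ?_⟩
  obtain ⟨w, hw, hwd⟩ := h1 y ⟨hy, by rw [mem_closedBall, dist_eq_norm]; exact hyt⟩
  obtain ⟨k, a, ha, rfl⟩ := mem_starSet.1 hw
  exact ⟨k, a, ha, by rw [← dist_eq_norm]; linarith⟩

omit S in
lemma dir_near {y u : ℂ} {t a δ : ℝ} (h0 : 0 < t) (ha : 0 ≤ a) (hu : ‖u‖ = 1)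
    (hy : ‖y - x‖ = t) (h : ‖y - (x + a • u)‖ ≤ δ * t) : ‖t⁻¹ • (y - x) - u‖ ≤ 2 * δ := by
  have hat : |t - a| ≤ δ * t := by
    have := abs_ray_coord ha hu h
    rwa [hy] at this
  rw [show t⁻¹ • (y - x) - u = t⁻¹ • ((y - (x + a • u)) - (t - a) • u) by
    simp only [smul_sub, smul_add, smul_smul, inv_mul_cancel₀ h0.ne', one_smul, sub_smul]
    abel]
  rw [norm_smul, norm_inv, Real.norm_of_nonneg h0.le, inv_mul_le_iff₀ h0]
  refine (norm_sub_le _ _).trans ?_
  rw [norm_smul, hu, mul_one, Real.norm_eq_abs]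
  linarith

omit S in
lemma inner_diff_le {a b c : ℂ} (d : ℂ) : |⟪a, b⟫ - ⟪c, d⟫| ≤ ‖a - c‖ * ‖b‖ + ‖c‖ * ‖b - d‖ := by
  rw [show ⟪a, b⟫ - ⟪c, d⟫ = ⟪a - c, b⟫ + ⟪c, b - d⟫ by
    rw [inner_sub_left, inner_sub_right]; ring]
  exact (abs_add_le _ _).trans (add_le_add (abs_real_inner_le_norm _ _)
    (abs_real_inner_le_norm _ _))

/-- Flatness and the Hölder bound make a branch tangent to its radial direction. -/
lemma tangency (i : Fin n) {t : ℝ} (h0 : 0 < t) (hR : 2 * t ≤ R)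
    (hδ : 2 * C * (2 * t / R) ^ β ≤ 1 / 100) :
    ‖γ' i t - radDir x γ i t‖ ≤
      (2 / κ + 2 * C + 5) * (2 * C * (2 * t / R) ^ β) ^ (β / 2) := by
  have hR0 := S.branches.pos
  have ht : t ∈ Ioo 0 R := ⟨h0, by linarith⟩
  obtain ⟨d, f, f', hg⟩ := S.graph_at i ht
  have hρ : 0 < κ * t := mul_pos S.hκ h0
  obtain ⟨e₀, he₀, hnear⟩ := S.star h0 hR
  set δ := 2 * C * (2 * t / R) ^ β
  have hδ0 : 0 < δ := mul_pos (by linarith [S.hC]) (Real.rpow_pos_of_pos (by positivity) _)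
  obtain ⟨hγ, hhalf⟩ := S.deriv_graph i ht hg (by rw [sub_self, norm_zero]; exact hρ)
  rw [sub_self, inner_zero_left] at hγ hhalf
  obtain ⟨k, a₀, ha₀, hk⟩ := hnear _ (S.branches.mem_curve i ht)
    (by rw [S.branches.radial i t ht]; linarith)
  set u := starDir n e₀ k
  have hu : ‖u‖ = 1 := norm_starDir he₀ k
  set e := radDir x γ i t
  have heu : ‖e - u‖ ≤ 2 * δ := dir_near h0 ha₀ hu (S.branches.radial i t ht) hk
  set h := κ * t * √δ with hh
  have hsq : √δ ≤ 1 := Real.sqrt_le_one.2 (by linarith)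
  have hh0 : 0 < h := mul_pos hρ (Real.sqrt_pos.2 hδ0)
  have hhρ : h ≤ κ * t := mul_le_of_le_one_right hρ.le hsq
  have hray : ∀ s, |s| = h →
      |⟪γ i t - x, Complex.I * u⟫ + s * ⟪d, Complex.I * u⟫ + f s * ⟪d, u⟫| ≤ δ * t := by
    intro s hs
    have hsI : s ∈ Icc (-(κ * t)) (κ * t) := abs_le.1 (hs ▸ hhρ)
    have hd1 := hg.norm_pt_sub hsI
    have hκt := mul_le_mul_of_nonneg_right S.hκ' h0.le
    have hup := norm_sub_le_norm_sub_add_norm_sub (graphPt (γ i t) d f s) (γ i t) x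
    have hlo := norm_sub_le_norm_sub_add_norm_sub (γ i t) (graphPt (γ i t) d f s) x
    rw [S.branches.radial i t ht] at hup hlo
    rw [norm_sub_rev (γ i t) (graphPt (γ i t) d f s)] at hlo
    obtain ⟨j, a, ha, hj⟩ := hnear _ (hg.pt_mem hsI) (by linarith)
    obtain rfl : j = k := by
      by_contra hjk
      have h1 := rays_apart ha ha₀ (norm_starDir he₀ j) hu (inner_starDir S.hn he₀ hjk) hj hk
      rw [S.branches.radial i t ht] at h1
      have := mul_le_mul_of_nonneg_right hδ h0.le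
      linarith
    have h1 := (abs_real_inner_le_norm (graphPt (γ i t) d f s - (x + a • u))
      (Complex.I * u)).trans (by rw [norm_I_mul, hu, mul_one])
    refine le_trans (le_of_eq (congrArg abs ?_)) (h1.trans hj)
    rw [show graphPt (γ i t) d f s - (x + a • u) =
        (γ i t - x) + s • d + f s • (Complex.I * d) - a • u by simp only [graphPt]; abel,
      inner_sub_left _ (a • u), inner_add_left, inner_add_left, real_inner_smul_left,
      real_inner_smul_left, real_inner_smul_left, inner_I_mul_I_mul, inner_self_I_mul]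
    ring
  have k1 := abs_le.1 (hray h (abs_of_pos hh0))
  have k2 := abs_le.1 (hray (-h) (by rw [abs_neg, abs_of_pos hh0]))
  have hmvt : |f h - f (-h) - f' 0 * (2 * h)| ≤ C * √δ ^ β * (2 * h) := by
    have hsub : Icc (-h) h ⊆ Icc (-(κ * t)) (κ * t) := Icc_subset_Icc (by linarith) hhρ
    have := (convex_Icc (-h) h).norm_image_sub_le_of_norm_hasDerivWithin_le
      (f := fun τ => f τ - f' 0 * τ) (f' := fun τ => f' τ - f' 0) (C := C * √δ ^ β)
      (fun τ hτ => (((hg.deriv τ (hsub hτ)).mono hsub).sub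
        ((hasDerivWithinAt_id τ _).const_mul (f' 0))).congr_deriv (by ring))
      (fun τ hτ => (hg.holder τ (hsub hτ) 0 ⟨by linarith, hρ.le⟩).trans (by
        refine mul_le_mul_of_nonneg_left (Real.rpow_le_rpow (by positivity) ?_ S.hβ.le) S.hC.le
        rw [sub_zero, div_le_iff₀ hρ, mul_comm]
        exact (abs_le.2 hτ).trans_eq hh))
      (left_mem_Icc.2 (by linarith)) (right_mem_Icc.2 (by linarith))
    rw [Real.norm_eq_abs, Real.norm_eq_abs, sub_neg_eq_add, abs_of_pos (by linarith : 0 < h + h),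
      ← two_mul h] at this
    rwa [show f h - f' 0 * h - (f (-h) - f' 0 * -h) = f h - f (-h) - f' 0 * (2 * h) by ring]
      at this
  set m := ⟪d, u⟫
  have hm : |m| ≤ 1 := (abs_real_inner_le_norm d u).trans (by rw [hg.unit, hu, one_mul])
  have hTu : |⟪graphTan d f' 0, Complex.I * u⟫| ≤ √δ / κ + C * √δ ^ β := by
    rw [graphTan, inner_add_left, real_inner_smul_left, inner_I_mul_I_mul]
    have g := abs_le.1 (show |(f h - f (-h) - f' 0 * (2 * h)) * m| ≤ C * √δ ^ β * (2 * h) by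
      rw [abs_mul]
      exact (mul_le_mul hmvt hm (abs_nonneg m) ((abs_nonneg _).trans hmvt)).trans_eq (mul_one _))
    have e1 : δ * t = √δ / κ * h := by
      rw [hh]
      field_simp [S.hκ.ne']
      rw [Real.sq_sqrt hδ0.le]
    rw [abs_le]
    constructor <;> refine le_of_mul_le_mul_left ?_ (mul_pos two_pos hh0) <;> linarith
  have hδle : ∀ b : ℝ, b ≤ 1 → δ ≤ δ ^ b := fun b hb => Real.self_le_rpow_of_le_one hδ0.le
    (le_trans hδ (by norm_num)) hb
  have hsqβ : √δ ^ β = δ ^ (β / 2) := by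
    rw [Real.sqrt_eq_rpow, ← Real.rpow_mul hδ0.le]; ring_nf
  have hs1 : √δ ≤ δ ^ (β / 2) := by
    rw [← hsqβ]; exact Real.self_le_rpow_of_le_one (Real.sqrt_nonneg _) hsq S.hβ'
  have hTe : |⟪graphTan d f' 0, Complex.I * e⟫| ≤ √δ / κ + C * √δ ^ β + 101 / 50 * δ := by
    have h1 := abs_real_inner_le_norm (graphTan d f' 0) (Complex.I * e - Complex.I * u)
    rw [inner_sub_right, ← mul_sub, norm_I_mul] at h1
    have h2 := mul_le_mul (hg.tan_norm ⟨by linarith, hρ.le⟩).2 heu (norm_nonneg _) (by norm_num)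
    have h3 := abs_sub_abs_le_abs_sub ⟪graphTan d f' 0, Complex.I * e⟫
      ⟪graphTan d f' 0, Complex.I * u⟫
    linarith
  set c := ⟪graphTan d f' 0, e⟫⁻¹
  have hc : |c| ≤ 2 := by
    rw [abs_inv]
    refine (inv_anti₀ (by norm_num) hhalf).trans (by norm_num)
  have hperp : γ' i t - e = (c * ⟪graphTan d f' 0, Complex.I * e⟫) • (Complex.I * e) := by
    conv_lhs => rw [frame_eq (S.norm_radDir i ht) (γ' i t)]
    rw [S.inner_deriv i ht, one_smul, add_sub_cancel_left, hγ, real_inner_smul_left]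
  rw [hperp, norm_smul, norm_I_mul, S.norm_radDir i ht, mul_one, Real.norm_eq_abs, abs_mul]
  calc |c| * |⟪graphTan d f' 0, Complex.I * e⟫|
      ≤ 2 * (√δ / κ + C * √δ ^ β + 101 / 50 * δ) :=
        mul_le_mul hc hTe (abs_nonneg _) zero_le_two
    _ ≤ 2 * (δ ^ (β / 2) / κ + C * δ ^ (β / 2) + 101 / 50 * δ ^ (β / 2)) := by
        rw [hsqβ]
        have := S.hκ
        gcongr
        exact hδle _ (by linarith [S.hβ'])
    _ ≤ _ := by
        rw [show ∀ X : ℝ, 2 * (X / κ + C * X + 101 / 50 * X) = (2 / κ + 2 * C + 101 / 25) * X from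
          fun X => by ring]
        gcongr
        norm_num

/-- A branch tangent to its radial direction up to a power has a limiting direction. -/
lemma limit_dir (i : Fin n) {T K₂ a : ℝ} (hT : 0 < T) (hTR : T < R) (hK : 0 ≤ K₂) (ha : 0 < a)
    (htan : ∀ t ∈ Ioc 0 T, ‖γ' i t - radDir x γ i t‖ ≤ K₂ * t ^ a) :
    ∃ v : ℂ, ∀ t ∈ Ioc 0 T, ‖radDir x γ i t - v‖ ≤ K₂ / a * t ^ a := by
  set e := radDir x γ i
  have hd : ∀ t ∈ Ioc 0 T, HasDerivAt e (t⁻¹ • (γ' i t - e t)) t := fun t ht => by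
    refine ((hasDerivAt_inv ht.1.ne').smul ((S.branches.deriv i t
      ⟨ht.1, ht.2.trans_lt hTR⟩).1.sub_const x)).congr_deriv ?_
    simp only [e, radDir, smul_sub, smul_smul, neg_smul]
    rw [← inv_pow, pow_two]
    abel
  have hinc : ∀ s ∈ Ioc 0 T, ∀ t ∈ Ioc 0 T, s ≤ t → ‖e t - e s‖ ≤ K₂ / a * t ^ a := by
    intro s hs t ht hst
    have hI : ∀ τ ∈ Icc s t, τ ∈ Ioc 0 T := fun τ hτ => ⟨hs.1.trans_le hτ.1, hτ.2.trans ht.2⟩
    have hB : ∀ τ ∈ Icc s t,
        HasDerivAt (fun τ => K₂ / a * (τ ^ a - s ^ a)) (K₂ * τ ^ (a - 1)) τ := fun τ hτ => by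
      refine (((Real.hasDerivAt_rpow_const (Or.inl (hI τ hτ).1.ne')).sub_const _).const_mul
        (K₂ / a)).congr_deriv ?_
      field_simp
    have := image_norm_le_of_norm_deriv_right_le_deriv_boundary' (f := fun τ => e τ - e s)
      (f' := fun τ => τ⁻¹ • (γ' i τ - e τ)) (B := fun τ => K₂ / a * (τ ^ a - s ^ a))
      (B' := fun τ => K₂ * τ ^ (a - 1))
      (fun τ hτ => ((hd τ (hI τ hτ)).continuousAt.sub continuousAt_const).continuousWithinAt)
      (fun τ hτ => ((hd τ (hI τ (Ico_subset_Icc_self hτ))).sub_const _).hasDerivWithinAt)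
      (by simp) (fun τ hτ => (hB τ hτ).continuousAt.continuousWithinAt)
      (fun τ hτ => (hB τ (Ico_subset_Icc_self hτ)).hasDerivWithinAt)
      (fun τ hτ => by
        have h1 := hI τ (Ico_subset_Icc_self hτ)
        rw [norm_smul, norm_inv, Real.norm_of_nonneg h1.1.le, Real.rpow_sub_one h1.1.ne',
          ← div_eq_inv_mul, mul_div_assoc']
        exact div_le_div_of_nonneg_right (htan τ h1) h1.1.le) (right_mem_Icc.2 hst)
    refine this.trans (mul_le_mul_of_nonneg_left ?_ (div_nonneg hK ha.le))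
    linarith [Real.rpow_nonneg hs.1.le a]
  set τ : ℕ → ℝ := fun m => T / (m + 1)
  have hτ : ∀ m, τ m ∈ Ioc 0 T := fun m =>
    ⟨by positivity, div_le_self hT.le (by linarith [(Nat.cast_nonneg m : (0 : ℝ) ≤ m)])⟩
  have hτ0 : Tendsto τ atTop (𝓝 0) := by
    simpa [τ, div_eq_mul_inv] using tendsto_one_div_add_atTop_nhds_zero_nat.const_mul T
  have hb : Tendsto (fun m => K₂ / a * τ m ^ a) atTop (𝓝 0) := by
    simpa [Real.zero_rpow ha.ne'] using
      (hτ0.rpow_const (Or.inr ha.le) : Tendsto _ _ _).const_mul (K₂ / a)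
  have hcau : CauchySeq fun m => e (τ m) := by
    refine cauchySeq_of_le_tendsto_0 (fun m => 2 * (K₂ / a * τ m ^ a)) (fun m l N hm hl => ?_)
      (by simpa using hb.const_mul 2)
    have hτle : ∀ k, N ≤ k → τ k ≤ τ N := fun k hk =>
      div_le_div_of_nonneg_left hT.le (by positivity) (by exact_mod_cast Nat.add_le_add_right hk 1)
    rw [dist_eq_norm]
    have h1 := hinc _ (hτ m) _ (hτ N) (hτle m hm)
    have h2 := hinc _ (hτ l) _ (hτ N) (hτle l hl)
    rw [norm_sub_rev] at h1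
    linarith [norm_sub_le_norm_sub_add_norm_sub (e (τ m)) (e (τ N)) (e (τ l))]
  obtain ⟨v, hv⟩ := cauchySeq_tendsto_of_complete hcau
  refine ⟨v, fun t ht => le_of_tendsto ((hv.const_sub (e t)).norm) ?_⟩
  filter_upwards [hτ0.eventually (gt_mem_nhds ht.1)] with m hm
  exact hinc _ (hτ m) _ ht hm.le

/-- The derivative of a branch is Hölder at the scale of its distance to the centre. -/
lemma holder_near (i : Fin n) {s t : ℝ} (hs : 0 < s) (hst : s ≤ t) (ht : t < R)
    (h : 4 * (t - s) ≤ κ * t) :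
    ‖γ' i t - γ' i s‖ ≤ (22 * C + 6) * ((t - s) / (κ * t)) ^ β := by
  have h0 : 0 < t := hs.trans_le hst
  have hρ : 0 < κ * t := mul_pos S.hκ h0
  obtain ⟨d, f, f', hg⟩ := S.graph_at i ⟨h0, ht⟩
  have hd := S.dist_curve i hs hst ht
  rw [norm_sub_rev] at hd
  obtain ⟨h1, h1'⟩ := S.deriv_graph i ⟨hs, hst.trans_lt ht⟩ hg (by linarith)
  obtain ⟨h2, h2'⟩ := S.deriv_graph i ⟨h0, ht⟩ hg (by rw [sub_self, norm_zero]; exact hρ)
  rw [sub_self, inner_zero_left] at h2 h2'
  set σ := ⟪γ i s - γ i t, d⟫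
  have hσ : |σ| ≤ 2 * (t - s) := by
    have := abs_real_inner_le_norm (γ i s - γ i t) d
    rw [hg.unit, mul_one] at this
    exact this.trans hd
  have hσI : σ ∈ Icc (-(κ * t)) (κ * t) := abs_le.1 (by linarith)
  set q := (t - s) / (κ * t)
  have hq0 : 0 ≤ q := div_nonneg (by linarith) hρ.le
  have hq1 : q ≤ 1 := (div_le_one hρ).2 (by linarith)
  have hqβ : q ≤ q ^ β := Real.self_le_rpow_of_le_one hq0 hq1 S.hβ'
  set T₀ := graphTan d f' 0
  set T₁ := graphTan d f' σ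
  set e₀ := radDir x γ i t
  set e₁ := radDir x γ i s
  have hΔT : ‖T₁ - T₀‖ ≤ 2 * C * q ^ β := by
    rw [show T₁ - T₀ = (f' σ - f' 0) • (Complex.I * d) by
      simp only [T₀, T₁, graphTan, sub_smul]; abel]
    rw [norm_smul, norm_I_mul, hg.unit, mul_one, Real.norm_eq_abs]
    refine (hg.holder σ hσI 0 ⟨by linarith, hρ.le⟩).trans ?_
    rw [sub_zero, show 2 * C * q ^ β = C * (2 * q ^ β) by ring]
    refine mul_le_mul_of_nonneg_left ?_ S.hC.le
    calc (|σ| / (κ * t)) ^ β ≤ (2 * q) ^ β := by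
          refine Real.rpow_le_rpow (div_nonneg (abs_nonneg _) hρ.le) ?_ S.hβ.le
          rw [mul_div_assoc']
          exact div_le_div_of_nonneg_right hσ hρ.le
      _ = 2 ^ β * q ^ β := Real.mul_rpow zero_le_two hq0
      _ ≤ 2 * q ^ β := mul_le_mul_of_nonneg_right
            (Real.rpow_le_self_of_one_le one_le_two S.hβ') (Real.rpow_nonneg hq0 _)
  have hΔe : ‖e₁ - e₀‖ ≤ q := by
    have key : e₁ - e₀ = t⁻¹ • ((γ i s - γ i t) + (t - s) • e₁) := by
      simp only [e₁, e₀, radDir, smul_add, smul_smul, smul_sub]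
      rw [show t⁻¹ * ((t - s) * s⁻¹) = s⁻¹ - t⁻¹ by field_simp, sub_smul, sub_smul]
      abel
    rw [key, norm_smul, norm_inv, Real.norm_of_nonneg h0.le, inv_mul_le_iff₀ h0]
    refine (norm_add_le _ _).trans ?_
    rw [norm_smul, S.norm_radDir i ⟨hs, hst.trans_lt ht⟩, mul_one,
      Real.norm_of_nonneg (sub_nonneg.2 hst)]
    have hκq : t * q = (t - s) / κ := by
      simp only [q]
      field_simp
    rw [hκq, le_div_iff₀ S.hκ]
    have := mul_le_mul (show ‖γ i s - γ i t‖ + (t - s) ≤ 3 * (t - s) by linarith) S.hκ' S.hκ.le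
      (by linarith)
    linarith
  have hn₀ : ‖T₀‖ ≤ 101 / 100 := (hg.tan_norm ⟨by linarith, hρ.le⟩).2
  have hΔi : |⟪T₁, e₁⟫ - ⟪T₀, e₀⟫| ≤ (2 * C + 101 / 100) * q ^ β := by
    refine (inner_diff_le e₀).trans ?_
    rw [S.norm_radDir i ⟨hs, hst.trans_lt ht⟩, mul_one, add_mul]
    exact add_le_add hΔT (mul_le_mul hn₀ (hΔe.trans hqβ) (norm_nonneg _) (by norm_num))
  rw [h2, h1]
  set a₀ := ⟪T₀, e₀⟫
  set a₁ := ⟪T₁, e₁⟫
  have ha₀ : a₀ ≠ 0 := fun h => by rw [h, abs_zero] at h2'; linarith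
  have ha₁ : a₁ ≠ 0 := fun h => by rw [h, abs_zero] at h1'; linarith
  rw [show a₀⁻¹ • T₀ - a₁⁻¹ • T₁ = (a₀⁻¹ - a₁⁻¹) • T₀ + a₁⁻¹ • (T₀ - T₁) by
    rw [sub_smul, smul_sub]; abel]
  refine (norm_add_le _ _).trans ?_
  rw [norm_smul, norm_smul, Real.norm_eq_abs, Real.norm_eq_abs, inv_sub_inv ha₀ ha₁, abs_div,
    abs_inv, norm_sub_rev T₀, abs_mul]
  have hinv : |a₁|⁻¹ ≤ 2 := (inv_anti₀ (by norm_num) h1').trans (by norm_num)
  have hfrac : |a₁ - a₀| / (|a₀| * |a₁|) ≤ 4 * ((2 * C + 101 / 100) * q ^ β) := by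
    rw [div_le_iff₀ (by positivity)]
    have := Real.rpow_nonneg hq0 β
    have := S.hC
    have hp : 1 ≤ 4 * (|a₀| * |a₁|) := by nlinarith
    have := mul_le_mul_of_nonneg_left hp
      (show 0 ≤ (2 * C + 101 / 100) * q ^ β by positivity)
    linarith
  have hq : 0 ≤ q ^ β := Real.rpow_nonneg hq0 β
  calc |a₁ - a₀| / (|a₀| * |a₁|) * ‖T₀‖ + |a₁|⁻¹ * ‖T₁ - T₀‖
      ≤ 4 * ((2 * C + 101 / 100) * q ^ β) * (101 / 100) + 2 * (2 * C * q ^ β) := by
        refine add_le_add (mul_le_mul hfrac hn₀ (norm_nonneg _) ?_)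
          (mul_le_mul hinv hΔT (norm_nonneg _) zero_le_two)
        have := S.hC
        positivity
    _ ≤ _ := by nlinarith [mul_nonneg S.hC.le hq]

/-- The branches extended to the centre are arcs of class `C^{1,α}`. -/
lemma exists_arcs : ∃ T α : ℝ, 0 < T ∧ T < R ∧ 0 < α ∧ ∃ v : Fin n → ℂ,
    (∀ i, ‖v i‖ = 1) ∧ (∀ i j, i ≠ j → ⟪v i, v j⟫ = -(1 / 2)) ∧
    ∀ i, IsHolderArc α (fun s => if T * s ≤ 0 then x else γ i (T * s))
      (fun s => T • if T * s ≤ 0 then v i else γ' i (T * s)) 0 1 := by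
  have hR := S.branches.pos
  have hC := S.hC
  have hκ := S.hκ
  set a := β * β / 2 with ha_def
  have ha : 0 < a := by have := S.hβ; positivity
  set K₁ := (2 * C * (2 / R) ^ β) ^ (β / 2)
  set K₂ := (2 / κ + 2 * C + 5) * K₁
  have hK₂ : 0 ≤ K₂ :=
    mul_nonneg (by positivity) (Real.rpow_nonneg (by positivity) _)
  have hlim : Tendsto (fun t : ℝ => 2 * C * (2 * t / R) ^ β) (𝓝[>] 0) (𝓝 0) := by
    have hc : Continuous fun t : ℝ => 2 * C * (2 * t / R) ^ β :=
      continuous_const.mul (Continuous.rpow_const (by fun_prop) fun _ => Or.inr S.hβ.le)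
    exact (hc.tendsto' 0 0 (by simp [Real.zero_rpow S.hβ.ne'])).mono_left nhdsWithin_le_nhds
  obtain ⟨T₀, hT₀, hsmall⟩ := (mem_nhdsGT_iff_exists_Ioc_subset).1
    (hlim.eventually (ge_mem_nhds (show (0 : ℝ) < 1 / 100 by norm_num)))
  set T := min T₀ (min (R / 4) 1)
  have hT : 0 < T := lt_min hT₀ (lt_min (by linarith) one_pos)
  have hT1 : T ≤ 1 := (min_le_right _ _).trans (min_le_right _ _)
  have hT4 : T ≤ R / 4 := (min_le_right _ _).trans (min_le_left _ _)
  have hmem : ∀ t ∈ Ioc 0 T, t ∈ Ioo 0 R ∧ 2 * t ≤ R ∧ 2 * C * (2 * t / R) ^ β ≤ 1 / 100 :=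
    fun t ht => ⟨⟨ht.1, by linarith [ht.2]⟩, by linarith [ht.2],
      hsmall ⟨ht.1, ht.2.trans (min_le_left _ _)⟩⟩
  have hpow : ∀ t ∈ Ioc 0 T, (2 * C * (2 * t / R) ^ β) ^ (β / 2) = K₁ * t ^ a := fun t ht => by
    rw [show 2 * t / R = 2 / R * t by ring, Real.mul_rpow (by positivity) ht.1.le, ← mul_assoc,
      Real.mul_rpow (by positivity) (Real.rpow_nonneg ht.1.le _), ← Real.rpow_mul ht.1.le,
      ha_def, mul_div_assoc]
  have htan : ∀ i, ∀ t ∈ Ioc 0 T, ‖γ' i t - radDir x γ i t‖ ≤ K₂ * t ^ a := fun i t ht => by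
    refine (S.tangency i ht.1 (hmem t ht).2.1 (hmem t ht).2.2).trans (le_of_eq ?_)
    rw [hpow t ht, ← mul_assoc]
  have hv := fun i => S.limit_dir i hT (by linarith) hK₂ ha (htan i)
  choose v hv using hv
  set τ : ℕ → ℝ := fun m => T / (m + 1)
  have hτ : ∀ m, τ m ∈ Ioc 0 T := fun m =>
    ⟨by positivity, div_le_self hT.le (by linarith [(Nat.cast_nonneg m : (0 : ℝ) ≤ m)])⟩
  have hτ0 : Tendsto τ atTop (𝓝 0) := by
    simpa [τ, div_eq_mul_inv] using tendsto_one_div_add_atTop_nhds_zero_nat.const_mul T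
  have hev : ∀ i, Tendsto (fun m => radDir x γ i (τ m)) atTop (𝓝 (v i)) := fun i => by
    rw [tendsto_iff_norm_sub_tendsto_zero]
    refine squeeze_zero (fun m => norm_nonneg _) (fun m => hv i _ (hτ m)) ?_
    simpa [Real.zero_rpow ha.ne'] using
      (hτ0.rpow_const (Or.inr ha.le) : Tendsto _ _ _).const_mul (K₂ / a)
  have hv1 : ∀ i, ‖v i‖ = 1 := fun i => tendsto_nhds_unique (hev i).norm
    (tendsto_const_nhds.congr fun m => (S.norm_radDir i (hmem _ (hτ m)).1).symm)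
  have hangle : ∀ i j, i ≠ j → ⟪v i, v j⟫ = -(1 / 2) := by
    intro i j hij
    refine sub_eq_zero.1 (abs_eq_zero.1 (tendsto_nhds_unique
      (((hev i).inner (hev j)).sub_const (-(1 / 2))).abs (squeeze_zero (fun m => abs_nonneg _)
        (g := fun m => 5 * (2 * C * (2 * τ m / R) ^ β)) (fun m => ?_) ?_)))
    · obtain ⟨ht, ht2, hδ⟩ := hmem _ (hτ m)
      obtain ⟨e, he, hnear⟩ := S.star ht.1 ht2
      obtain ⟨k, b, hb, hk⟩ := hnear _ (S.branches.mem_curve i ht)
        (by rw [S.branches.radial i _ ht]; linarith [ht.1])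
      obtain ⟨l, c, hc, hl⟩ := hnear _ (S.branches.mem_curve j ht)
        (by rw [S.branches.radial j _ ht]; linarith [ht.1])
      have hkl : k ≠ l := fun hkl => by
        subst hkl
        have h1 := S.branches.apart i j hij _ ht
        have h2 := abs_le.1 (abs_ray_coord hb (norm_starDir he k) hk)
        have h3 := abs_le.1 (abs_ray_coord hc (norm_starDir he k) hl)
        rw [S.branches.radial i _ ht] at h2
        rw [S.branches.radial j _ ht] at h3
        set δ := 2 * C * (2 * τ m / R) ^ β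
        have h4 : ‖γ i (τ m) - γ j (τ m)‖ ≤ δ * τ m + δ * τ m + |b - c| := by
          rw [show γ i (τ m) - γ j (τ m) = (γ i (τ m) - (x + b • starDir n e k)) -
            (γ j (τ m) - (x + c • starDir n e k)) + (b - c) • starDir n e k by
              rw [sub_smul]; abel]
          refine (norm_add_le _ _).trans (add_le_add ((norm_sub_le _ _).trans
            (add_le_add hk hl)) ?_)
          rw [norm_smul, norm_starDir he, mul_one, Real.norm_eq_abs]
        have h5 : |b - c| ≤ 2 * (δ * τ m) := abs_le.2 ⟨by linarith, by linarith⟩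
        have := mul_le_mul_of_nonneg_right hδ ht.1.le
        linarith [ht.1]
      have e1 := dir_near ht.1 hb (norm_starDir he k) (S.branches.radial i _ ht) hk
      have e2 := dir_near ht.1 hc (norm_starDir he l) (S.branches.radial j _ ht) hl
      change |⟪radDir x γ i (τ m), radDir x γ j (τ m)⟫ - -(1 / 2)| ≤ _
      rw [← inner_starDir S.hn he hkl]
      refine (inner_diff_le (starDir n e l)).trans ?_
      rw [S.norm_radDir j ht, norm_starDir he, mul_one, one_mul]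
      simp only [radDir] at e1 e2 ⊢
      have : 0 ≤ 2 * C * (2 * τ m / R) ^ β :=
        mul_nonneg (by linarith) (Real.rpow_nonneg (div_nonneg (by linarith [ht.1]) hR.le) _)
      linarith
    · have := ((hlim.comp (tendsto_nhdsWithin_iff.2 ⟨hτ0, Eventually.of_forall fun m => (hτ m).1⟩)
        ).const_mul 5)
      simpa using this
  set α := a / 2 with hα_def
  have hα : 0 < α := half_pos ha
  have hαβ : α ≤ β / 2 := by
    rw [hα_def, ha_def]
    nlinarith [S.hβ', S.hβ]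
  refine ⟨T, α, hT, by linarith, hα, v, hv1, hangle, fun i => ?_⟩
  set g : ℝ → ℂ := fun t => if t ≤ 0 then x else γ i t
  set g' : ℝ → ℂ := fun t => if t ≤ 0 then v i else γ' i t
  have hgn : ∀ t ∈ Icc 0 T, ‖g t - x‖ = t := fun t ht => by
    simp only [g]
    split_ifs with h
    · simp [le_antisymm h ht.1]
    · exact S.branches.radial i t ⟨not_le.1 h, by linarith [ht.2]⟩
  have hgv : ∀ t ∈ Ioc 0 T, ‖γ' i t - v i‖ ≤ (K₂ + K₂ / a) * t ^ a := fun t ht => by
    have := norm_sub_le_norm_sub_add_norm_sub (γ' i t) (radDir x γ i t) (v i)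
    linarith [htan i t ht, hv i t ht]
  have hgd : ∀ t ∈ Icc 0 T, HasDerivWithinAt g (g' t) (Icc 0 T) t ∧ g' t ≠ 0 := fun t ht => by
    rcases ht.1.eq_or_lt with h0 | h0
    · subst h0
      simp only [g', if_pos le_rfl]
      refine ⟨?_, fun h => by simpa [h] using hv1 i⟩
      rw [hasDerivWithinAt_iff_tendsto_slope, tendsto_iff_norm_sub_tendsto_zero]
      refine squeeze_zero' (Eventually.of_forall fun _ => norm_nonneg _)
        (g := fun t => K₂ / a * t ^ a) ?_ ?_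
      · filter_upwards [self_mem_nhdsWithin] with t ht
        have h0 : 0 < t := lt_of_le_of_ne ht.1.1 (Ne.symm ht.2)
        rw [slope, vsub_eq_sub, sub_zero]
        simp only [g, if_neg (not_le.2 h0), le_refl, if_true]
        exact hv i t ⟨h0, ht.1.2⟩
      · have hc : Continuous fun t : ℝ => K₂ / a * t ^ a :=
          continuous_const.mul (Real.continuous_rpow_const ha.le)
        exact (hc.tendsto' 0 0 (by simp [Real.zero_rpow ha.ne'])).mono_left nhdsWithin_le_nhds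
    · have hts : t ∈ Ioo 0 R := ⟨h0, by linarith [ht.2]⟩
      simp only [g', if_neg (not_le.2 h0)]
      refine ⟨((S.branches.deriv i t hts).1.congr_of_eventuallyEq ?_).hasDerivWithinAt, fun h => ?_⟩
      · filter_upwards [Ioi_mem_nhds h0] with s hs
        simp only [g, if_neg (not_le.2 (mem_Ioi.1 hs))]
      · have := S.inner_deriv i hts
        rw [h, inner_zero_left] at this
        exact zero_ne_one this
  have hhold : ∃ C' : ℝ, ∀ s ∈ Icc 0 T, ∀ t ∈ Icc 0 T,
      ‖g' s - g' t‖ ≤ C' * |s - t| ^ α := by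
    set K₄ := K₂ + K₂ / a
    have hK₄ : 0 ≤ K₄ := by positivity
    set C' := K₄ + 2 * K₄ * (4 / κ) ^ α + (22 * C + 6) * κ⁻¹
    have hC' : 0 ≤ C' := by positivity
    suffices hs : ∀ s ∈ Icc 0 T, ∀ t ∈ Icc 0 T, s ≤ t → ‖g' s - g' t‖ ≤ C' * (t - s) ^ α by
      refine ⟨C', fun s hs' t ht' => ?_⟩
      rcases le_total s t with h | h
      · rw [abs_sub_comm, abs_of_nonneg (sub_nonneg.2 h)]
        exact hs s hs' t ht' h
      · rw [norm_sub_rev, abs_of_nonneg (sub_nonneg.2 h)]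
        exact hs t ht' s hs' h
    intro s hs t ht hst
    rcases hst.eq_or_lt with heq | hlt
    · subst heq
      simp only [sub_self, norm_zero]
      exact mul_nonneg hC' (Real.rpow_nonneg le_rfl _)
    have ht0 : 0 < t := hs.1.trans_lt hlt
    have htα : t ^ a = (t * t) ^ α := by
      rw [Real.mul_rpow ht0.le ht0.le, ← Real.rpow_add ht0, hα_def, add_halves]
    rcases hs.1.eq_or_lt with h0 | h0
    · subst h0
      simp only [g', le_refl, if_true, if_neg (not_le.2 ht0), sub_zero]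
      rw [norm_sub_rev]
      refine (hgv t ⟨ht0, ht.2⟩).trans (mul_le_mul ?_ ?_ (Real.rpow_nonneg ht0.le _) hC')
      · have : 0 ≤ 2 * K₄ * (4 / κ) ^ α := by positivity
        have : 0 ≤ (22 * C + 6) * κ⁻¹ := by positivity
        linarith
      · exact Real.rpow_le_rpow_of_exponent_ge ht0 (ht.2.trans hT1) (by linarith)
    simp only [g', if_neg (not_le.2 h0), if_neg (not_le.2 ht0)]
    have hC2 : 0 ≤ (t - s) ^ α := Real.rpow_nonneg (by linarith) _
    rcases le_or_gt (κ * (t * t)) (4 * (t - s)) with hfar | hnear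
    · have hle : t ^ a ≤ (4 / κ) ^ α * (t - s) ^ α := by
        rw [htα, ← Real.mul_rpow (by positivity) (by linarith)]
        refine Real.rpow_le_rpow (by positivity) ?_ hα.le
        rw [div_mul_eq_mul_div, le_div_iff₀ hκ]
        linarith
      have hsa : s ^ a ≤ t ^ a := Real.rpow_le_rpow h0.le hst ha.le
      calc ‖γ' i s - γ' i t‖ ≤ ‖γ' i s - v i‖ + ‖γ' i t - v i‖ := by
            rw [norm_sub_rev (γ' i t)]
            exact norm_sub_le_norm_sub_add_norm_sub _ _ _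
        _ ≤ K₄ * t ^ a + K₄ * t ^ a := add_le_add
            ((hgv s ⟨h0, hs.2⟩).trans (mul_le_mul_of_nonneg_left hsa hK₄)) (hgv t ⟨ht0, ht.2⟩)
        _ ≤ 2 * K₄ * ((4 / κ) ^ α * (t - s) ^ α) := by
            nlinarith
        _ ≤ C' * (t - s) ^ α := by
            have : 0 ≤ (22 * C + 6) * κ⁻¹ := by positivity
            nlinarith [mul_nonneg hK₄ hC2, mul_nonneg this hC2]
    · have h4 : 4 * (t - s) ≤ κ * t := by nlinarith [ht.2]
      rw [norm_sub_rev]
      refine (S.holder_near i h0 hst (by linarith [ht.2]) h4).trans ?_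
      have hle : ((t - s) / (κ * t)) ^ β ≤ κ⁻¹ * (t - s) ^ α := by
        have hsq : √(t - s) ≤ t := by
          rw [Real.sqrt_le_iff]
          exact ⟨ht0.le, by nlinarith [S.hκ', mul_self_nonneg t]⟩
        have hq : (t - s) / (κ * t) ≤ κ⁻¹ * √(t - s) := by
          rw [div_le_iff₀ (mul_pos hκ ht0)]
          calc t - s = √(t - s) * √(t - s) := (Real.mul_self_sqrt (by linarith)).symm
            _ ≤ √(t - s) * t := mul_le_mul_of_nonneg_left hsq (Real.sqrt_nonneg _)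
            _ = κ⁻¹ * √(t - s) * (κ * t) := by field_simp
        calc ((t - s) / (κ * t)) ^ β ≤ (κ⁻¹ * √(t - s)) ^ β :=
              Real.rpow_le_rpow (div_nonneg (by linarith) (by positivity)) hq S.hβ.le
          _ = κ⁻¹ ^ β * √(t - s) ^ β := Real.mul_rpow (by positivity) (Real.sqrt_nonneg _)
          _ ≤ κ⁻¹ * (t - s) ^ α := by
            refine mul_le_mul ?_ ?_ (by positivity) (by positivity)
            · exact Real.rpow_le_self_of_one_le ((one_le_inv₀ hκ).2 (by linarith [S.hκ'])) S.hβ'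
            · rw [Real.sqrt_eq_rpow, ← Real.rpow_mul (by linarith)]
              exact Real.rpow_le_rpow_of_exponent_ge (by linarith) (by linarith [ht.2])
                (by linarith)
      calc (22 * C + 6) * ((t - s) / (κ * t)) ^ β ≤ (22 * C + 6) * (κ⁻¹ * (t - s) ^ α) :=
            mul_le_mul_of_nonneg_left hle (by positivity)
        _ ≤ C' * (t - s) ^ α := by
            have : 0 ≤ 2 * K₄ * (4 / κ) ^ α := by positivity
            nlinarith [mul_nonneg hK₄ hC2, mul_nonneg this hC2]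
  obtain ⟨C', hC'⟩ := hhold
  have hm : MapsTo (fun s : ℝ => T * s) (Icc 0 1) (Icc 0 T) := fun s hs =>
    ⟨mul_nonneg hT.le hs.1, mul_le_of_le_one_right hT.le hs.2⟩
  refine ⟨one_pos, fun s hs u hu hsu => ?_, fun s hs => ?_, T * (C' * T ^ α), fun s hs u hu => ?_⟩
  · have h1 := congrArg (fun w => ‖w - x‖) (show g (T * s) = g (T * u) from hsu)
    simp only [hgn _ (hm hs), hgn _ (hm hu)] at h1
    exact mul_left_cancel₀ hT.ne' h1
  · obtain ⟨hd, hne⟩ := hgd _ (hm hs)
    exact ⟨hd.scomp (h := fun s : ℝ => T * s) s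
      (by simpa using (hasDerivWithinAt_id s (Icc (0 : ℝ) 1)).const_mul T) hm,
      smul_ne_zero hT.ne' hne⟩
  · show ‖T • g' (T * s) - T • g' (T * u)‖ ≤ _
    rw [← smul_sub, norm_smul, Real.norm_of_nonneg hT.le, mul_assoc]
    refine mul_le_mul_of_nonneg_left ((hC' _ (hm hs) _ (hm hu)).trans (le_of_eq ?_)) hT.le
    rw [← mul_sub, abs_mul, abs_of_pos hT, Real.mul_rpow hT.le (abs_nonneg _), mul_assoc]

end ArcData

open ArcData in
/-- **R13.** -/
theorem arcsSpec : ArcsSpec := by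
  intro C β κ hC hβ hβ' hκ K n x R γ γ' hn hb hflat hgraph
  set κ' := min κ (1 / 8)
  have hκ' : 0 < κ' := lt_min hκ (by norm_num)
  have S : ArcData K n x R C β κ' γ γ' := by
    refine ⟨hn, hb, hC, hβ, hβ', hκ', min_le_right _ _, hflat, fun z hz hne => ?_⟩
    obtain ⟨d, f, f', hg⟩ := hgraph z hz hne
    exact ⟨d, f, f', hg.mono (mul_pos hκ' (dist_pos.2 hne))
      (mul_le_mul_of_nonneg_right (min_le_left _ _) dist_nonneg) hβ.le hC.le⟩
  obtain ⟨T, α, hT, hTR, hα, v, hv1, hangle, harc⟩ := S.exists_arcs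
  set Γ : Fin n → ℝ → ℂ := fun i s => if T * s ≤ 0 then x else γ i (T * s)
  set Γ' : Fin n → ℝ → ℂ := fun i s => T • if T * s ≤ 0 then v i else γ' i (T * s)
  have hΓ0 : ∀ i, Γ i 0 = x := fun i => by simp [Γ]
  have hb' := hb.mono hT hTR.le
  have hcover : K ∩ ball x T = ⋃ i, Γ i '' Ico 0 1 := by
    rw [hb'.cover]
    ext w
    constructor
    · rintro (rfl | hu)
      · have : Nonempty (Fin n) := ⟨⟨0, by rcases hn with rfl | rfl <;> norm_num⟩⟩
        obtain ⟨i⟩ := this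
        exact mem_iUnion.2 ⟨i, 0, ⟨le_rfl, one_pos⟩, hΓ0 i⟩
      · obtain ⟨i, t, ht, rfl⟩ := mem_iUnion.1 hu
        refine mem_iUnion.2 ⟨i, t / T, ⟨(div_pos ht.1 hT).le, (div_lt_one hT).2 ht.2⟩, ?_⟩
        simp [Γ, mul_div_cancel₀ _ hT.ne', ht.1]
    · intro hw
      obtain ⟨i, s, hs, rfl⟩ := mem_iUnion.1 hw
      simp only [Γ]
      split_ifs with h
      · exact mem_insert _ _
      · exact mem_insert_of_mem _
          (mem_iUnion.2 ⟨i, _, ⟨not_le.1 h, mul_lt_of_lt_one_right hT hs.2⟩, rfl⟩)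
  refine ⟨ball x T, α, isOpen_ball, mem_ball_self hT, ball_subset_ball hTR.le, hα, ?_⟩
  rcases hn with rfl | rfl
  · exact Or.inl ⟨rfl, Γ 0, Γ' 0, harc 0, hΓ0 0, by
      rw [hcover]
      exact Subset.antisymm (iUnion_subset fun i => by rw [Subsingleton.elim i 0])
        (subset_iUnion (fun i => Γ i '' Ico 0 1) 0)⟩
  refine Or.inr ⟨rfl, Γ, Γ', harc, hΓ0, hcover, fun i j hij => ?_, fun i j hij => ?_⟩
  · refine Subset.antisymm (fun w hw => ?_) (singleton_subset_iff.2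
      ⟨⟨0, left_mem_Icc.2 zero_le_one, hΓ0 i⟩, ⟨0, left_mem_Icc.2 zero_le_one, hΓ0 j⟩⟩)
    obtain ⟨⟨s, hs, rfl⟩, u, hu, huw⟩ := hw
    simp only [Γ] at huw ⊢
    have hI : ∀ s ∈ Icc (0 : ℝ) 1, ¬T * s ≤ 0 → T * s ∈ Ioo 0 R := fun s hs h =>
      ⟨not_le.1 h, lt_of_le_of_lt (mul_le_of_le_one_right hT.le hs.2) hTR⟩
    split_ifs with h1
    · exact rfl
    rw [if_neg h1] at huw
    split_ifs at huw with h2
    · exact huw.symm
    exfalso
    have e1 := hb.radial i _ (hI s hs h1)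
    have e2 := hb.radial j _ (hI u hu h2)
    rw [huw] at e2
    rw [e1] at e2
    have := hb.apart i j hij _ (hI s hs h1)
    rw [← e2] at huw
    rw [← huw, sub_self, norm_zero] at this
    linarith [(hI s hs h1).1]
  · simp only [Γ', mul_zero, le_refl, if_true, real_inner_smul_left, real_inner_smul_right,
      norm_smul, hv1, hangle i j hij, Real.norm_of_nonneg hT.le]
    ring

end Vale.Agent.P128.Regularity
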