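import Vale.Agent.P128.Regularity.Spec
import Vale.Agent.P128.Regularity.Radial

/-!
# P128 regularity R7: flatness at a point and graphs around it give radial branches

Near a point of `K`, a graph is transversal to the circles around `x`, so `K` meets each circle in
one point for each ray, and the points move continuously with the radius.
-/

open MeasureTheory Set Metric Filter
open scoped Topology Real RealInnerProductSpace

noncomputable section

namespace Vale.Agent.P128.Regularity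

/-- The data of R7. -/
structure Setting (K : Set ℂ) (n : ℕ) (x : ℂ) (R C β κ : ℝ) : Prop where
  hn : n = 1 ∨ n = 3
  pos : 0 < R
  mem : x ∈ K
  hβ : 0 < β
  hκ : 0 < κ
  hκ' : κ ≤ 1 / 8
  flat : ∀ r ∈ Ioc (0 : ℝ) R, Flat K n x r (κ / 100)
  graph : ∀ z ∈ K ∩ closedBall x R, z ≠ x →
    ∃ (d : ℂ) (f f' : ℝ → ℝ), GraphAt K z d (κ * dist z x) β C f f'

namespace Setting

variable {K : Set ℂ} {n : ℕ} {x : ℂ} {R C β κ : ℝ} (S : Setting K n x R C β κ)
include S

/-- The star at scale `2 t`. -/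
lemma star {t : ℝ} (h0 : 0 < t) (hR : 2 * t ≤ R) :
    ∃ d : ℂ, ‖d‖ = 1 ∧
      (∀ y ∈ K, ‖y - x‖ ≤ 2 * t →
        ∃ k : Fin n, ∃ a : ℝ, 0 ≤ a ∧ ‖y - (x + a • starDir n d k)‖ ≤ κ / 50 * t) ∧
      ∀ k : Fin n, ∃ y ∈ K, ‖y - (x + t • starDir n d k)‖ ≤ κ / 50 * t := by
  obtain ⟨d, hd, h1, h2⟩ := S.flat (2 * t) ⟨by linarith, hR⟩
  refine ⟨d, hd, fun y hy hyt => ?_, fun k => ?_⟩
  · obtain ⟨w, hw, hwd⟩ := h1 y ⟨hy, by rw [mem_closedBall, dist_eq_norm]; exact hyt⟩
    obtain ⟨k, a, ha, rfl⟩ := mem_starSet.1 hw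
    exact ⟨k, a, ha, by rw [← dist_eq_norm]; linarith⟩
  · obtain ⟨y, hy, hyd⟩ := h2 (x + t • starDir n d k)
      ⟨mem_starSet.2 ⟨k, t, h0.le, rfl⟩, by
        rw [mem_closedBall, dist_self_add_left, norm_smul, norm_starDir hd,
          Real.norm_of_nonneg h0.le]
        linarith⟩
    refine ⟨y, hy, ?_⟩
    rw [← dist_eq_norm]
    linarith

/-- A graph around a point of `K` is transversal to the circles around `x`. -/
lemma transversal {p : ℂ} (hp : p ∈ K) (hpx : p ≠ x) (hR : 2 * ‖p - x‖ ≤ R) :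
    ∃ (d : ℂ) (f f' : ℝ → ℝ) (σ : ℝ), GraphAt K p d (κ * ‖p - x‖) β C f f' ∧ |σ| = 1 ∧
      ∀ s ∈ Icc (-(κ * ‖p - x‖)) (κ * ‖p - x‖),
        0 < ‖graphPt p d f s - x‖ ∧
        4 / 5 * ‖graphPt p d f s - x‖ ≤ σ * ⟪graphTan d f' s, graphPt p d f s - x⟫ := by
  have ht : 0 < ‖p - x‖ := norm_pos_iff.2 (sub_ne_zero.2 hpx)
  obtain ⟨d, f, f', hg⟩ := S.graph p
    ⟨hp, by rw [mem_closedBall, dist_eq_norm]; linarith⟩ hpx
  rw [dist_eq_norm] at hg
  set t := ‖p - x‖
  set ρ := κ * t with hρdef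
  have hρ : 0 < ρ := mul_pos S.hκ ht
  have hρt : ρ ≤ t / 8 := by
    have := mul_le_mul_of_nonneg_right S.hκ' ht.le
    linarith
  obtain ⟨e, he, hnear, -⟩ := S.star ht hR
  obtain ⟨k, a₀, ha₀, hk⟩ := hnear p hp (by linarith)
  set u := starDir n e k
  have hu : ‖u‖ = 1 := norm_starDir he k
  have hκt : κ / 50 * t = ρ / 50 := by ring
  rw [hκt] at hk
  -- every point of the graph is near the same ray
  have hclose : ∀ s ∈ Icc (-ρ) ρ, ∃ a : ℝ, 0 ≤ a ∧
      ‖graphPt p d f s - (x + a • u)‖ ≤ ρ / 50 ∧ ‖graphPt p d f s - p‖ ≤ 101 / 100 * ρ ∧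
        t - 101 / 100 * ρ ≤ ‖graphPt p d f s - x‖ := fun s hs => by
    have hd : ‖graphPt p d f s - p‖ ≤ 101 / 100 * ρ :=
      (hg.norm_pt_sub hs).trans (by linarith [abs_le.2 hs])
    have hup : ‖graphPt p d f s - x‖ ≤ ‖graphPt p d f s - p‖ + t :=
      norm_sub_le_norm_sub_add_norm_sub ..
    have hlo : t ≤ ‖graphPt p d f s - p‖ + ‖graphPt p d f s - x‖ :=
      (norm_sub_le_norm_sub_add_norm_sub p (graphPt p d f s) x).trans
        (by rw [norm_sub_rev p (graphPt p d f s)])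
    obtain ⟨j, a, ha, hj⟩ := hnear _ (hg.pt_mem hs) (by linarith)
    rw [hκt] at hj
    obtain rfl : j = k := by
      by_contra hjk
      have := rays_apart ha ha₀ (norm_starDir he j) hu (inner_starDir S.hn he hjk) hj hk
      linarith
    exact ⟨a, ha, hj, hd, by linarith⟩
  -- the graph points along the ray
  obtain ⟨a, ha, ha1, -, -⟩ := hclose ρ ⟨by linarith, le_rfl⟩
  obtain ⟨b, hb, hb1, -, -⟩ := hclose (-ρ) ⟨le_rfl, by linarith⟩
  set c := ⟪d, Complex.I * u⟫ with hc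
  set m := ⟪d, u⟫
  have hIu : ‖Complex.I * u‖ = 1 := by rw [norm_I_mul, hu]
  have hm1 : |m| ≤ 1 := (abs_real_inner_le_norm d u).trans (by rw [hg.unit, hu, one_mul])
  have hc1 : |c| ≤ 13 / 100 := by
    have key : ∀ (s a : ℝ), ‖graphPt p d f s - (x + a • u)‖ ≤ ρ / 50 →
        |⟪p - x, Complex.I * u⟫ + s * c + f s * m| ≤ ρ / 50 := fun s a h => by
      have h1 := (abs_real_inner_le_norm (graphPt p d f s - (x + a • u)) (Complex.I * u)).trans
        (by rw [hIu, mul_one])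
      refine le_trans (le_of_eq (congrArg abs ?_)) (h1.trans h)
      rw [show graphPt p d f s - (x + a • u) =
          (p - x) + s • d + f s • (Complex.I * d) - a • u by simp only [graphPt]; abel,
        inner_sub_left _ (a • u), inner_add_left, inner_add_left, real_inner_smul_left,
        real_inner_smul_left, real_inner_smul_left, inner_I_mul_I_mul, inner_self_I_mul]
      ring
    have k1 := abs_le.1 (key ρ a ha1)
    have k2 := abs_le.1 (key (-ρ) b hb1)
    have f1 := hg.abs_f_le (s := ρ) ⟨by linarith, le_rfl⟩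
    have f2 := hg.abs_f_le (s := -ρ) ⟨le_rfl, by linarith⟩
    rw [abs_neg, abs_of_pos hρ] at f2
    rw [abs_of_pos hρ] at f1
    have g1 : |f ρ * m| ≤ ρ / 10 := by
      rw [abs_mul]; nlinarith [abs_nonneg (f ρ), abs_nonneg m]
    have g2 : |f (-ρ) * m| ≤ ρ / 10 := by
      rw [abs_mul]; nlinarith [abs_nonneg (f (-ρ)), abs_nonneg m]
    rw [abs_le] at g1 g2 ⊢
    constructor <;>
      refine le_of_mul_le_mul_left ?_ hρ <;> linarith
  have hm : 99 / 100 ≤ |m| := by
    have h1 := sq_inner_add hu d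
    rw [hg.unit] at h1
    nlinarith [sq_abs m, sq_abs c, abs_nonneg c, abs_nonneg m]
  set σ : ℝ := if 0 ≤ m then 1 else -1
  have hσm : σ * m = |m| := by
    by_cases h : 0 ≤ m
    · simp [σ, h, abs_of_nonneg h]
    · simp [σ, h, abs_of_neg (not_le.1 h)]
  have hσ : |σ| = 1 := by by_cases h : 0 ≤ m <;> simp [σ, h]
  refine ⟨d, f, f', σ, hg, hσ, fun s hs => ?_⟩
  obtain ⟨a, ha, hj, -, hlo⟩ := hclose s hs
  set v := graphPt p d f s - x with hv
  have hv0 : ‖v‖ ≤ a + ρ / 50 := by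
    linarith [(abs_le.1 (abs_ray_coord ha hu hj)).2]
  refine ⟨by linarith, ?_⟩
  set T := graphTan d f' s
  have hTu : σ * ⟪T, u⟫ = |m| + f' s * (σ * ⟪Complex.I * d, u⟫) := by
    rw [← hσm, show ⟪T, u⟫ = m + f' s * ⟪Complex.I * d, u⟫ by
      rw [show T = d + f' s • (Complex.I * d) from rfl, inner_add_left, real_inner_smul_left]]
    ring
  have hsmall : |f' s * (σ * ⟪Complex.I * d, u⟫)| ≤ 13 / 1000 := by
    have : ⟪Complex.I * d, u⟫ = -c := by
      rw [hc, real_inner_eq, real_inner_eq]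
      simp [Complex.mul_re, Complex.mul_im]
    rw [abs_mul, abs_mul, hσ, one_mul, this, abs_neg]
    nlinarith [hg.small s hs, abs_nonneg (f' s), abs_nonneg c]
  have herr : |σ * ⟪T, v - a • u⟫| ≤ 101 / 100 * (ρ / 50) := by
    rw [abs_mul, hσ, one_mul]
    refine (abs_real_inner_le_norm _ _).trans ?_
    have : ‖v - a • u‖ ≤ ρ / 50 := by rwa [hv, sub_sub]
    exact mul_le_mul (hg.tan_norm hs).2 this (norm_nonneg _) (by norm_num)
  rw [show σ * ⟪T, v⟫ = a * (σ * ⟪T, u⟫) + σ * ⟪T, v - a • u⟫ by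
    rw [inner_sub_right T v (a • u), real_inner_smul_right]; ring, hTu]
  have h97 : 97 / 100 * a ≤ a * (|m| + f' s * (σ * ⟪Complex.I * d, u⟫)) := by
    nlinarith [(abs_le.1 hsmall).1]
  linarith [(abs_le.1 herr).1]

/-- A point of `K` moves along `K` to the nearby circles. -/
lemma step {p : ℂ} (hp : p ∈ K) {t t' : ℝ} (ht : ‖p - x‖ = t) (h0 : 0 < t) (hR : 2 * t ≤ R)
    (h : |t' - t| ≤ κ / 2 * t) : ∃ z ∈ K, ‖z - x‖ = t' ∧ ‖z - p‖ ≤ 2 * |t' - t| := by
  subst ht
  obtain ⟨d, f, f', σ, hg, hσ, hT⟩ := S.transversal hp (sub_ne_zero.1 (norm_pos_iff.1 h0)) hR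
  set t := ‖p - x‖
  set ρ := κ * t with hρdef
  have hρ : 0 < ρ := mul_pos S.hκ h0
  set G : ℝ → ℝ := fun s => σ * ‖graphPt p d f s - x‖ with hG
  have hGd : ∀ s ∈ Ioo (-ρ) ρ, HasDerivAt G
      (σ * (⟪graphTan d f' s, graphPt p d f s - x⟫ / ‖graphPt p d f s - x‖)) s := fun s hs => by
    have h1 := ((hg.hasDerivAt_pt hs).sub_const x).norm_sq
    have h2 := h1.sqrt (pow_ne_zero 2 (hT s (Ioo_subset_Icc_self hs)).1.ne')
    simp only [Real.sqrt_sq (norm_nonneg _)] at h2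
    refine (h2.const_mul σ).congr_deriv ?_
    rw [real_inner_comm]
    field_simp
  have hGc : ContinuousOn G (Icc (-ρ) ρ) := by
    have := hg.continuousOn_pt
    fun_prop
  have hmono : ∀ a ∈ Icc (-ρ) ρ, ∀ b ∈ Icc (-ρ) ρ, a ≤ b → 4 / 5 * (b - a) ≤ G b - G a := by
    refine (convex_Icc (-ρ) ρ).mul_sub_le_image_sub_of_le_deriv hGc ?_ ?_
    · rw [interior_Icc]
      exact fun s hs => (hGd s hs).differentiableAt.differentiableWithinAt
    · rw [interior_Icc]
      intro s hs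
      rw [(hGd s hs).deriv, mul_div_assoc', le_div_iff₀ (hT s (Ioo_subset_Icc_self hs)).1]
      exact (hT s (Ioo_subset_Icc_self hs)).2
  have hm0 : (0 : ℝ) ∈ Icc (-ρ) ρ := ⟨by linarith, hρ.le⟩
  have e0 : G 0 = σ * t := by simp [hG, hg.pt_zero, t]
  have h1 := hmono 0 hm0 ρ ⟨by linarith, le_rfl⟩ hρ.le
  have h2 := hmono (-ρ) ⟨le_rfl, by linarith⟩ 0 hm0 (by linarith)
  have hσd : |σ * t' - σ * t| = |t' - t| := by rw [← mul_sub, abs_mul, hσ, one_mul]
  have h' := abs_le.1 (hσd.le.trans h)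
  obtain ⟨s, hs, hGs⟩ := intermediate_value_Icc (by linarith) hGc
    (show σ * t' ∈ Icc (G (-ρ)) (G ρ) by constructor <;> nlinarith)
  refine ⟨_, hg.pt_mem hs, mul_left_cancel₀ (fun h => by simp [h] at hσ) hGs, ?_⟩
  have hsb : 4 / 5 * |s| ≤ |t' - t| := by
    rw [← hσd]
    rcases le_total 0 s with h3 | h3
    · have := hmono 0 hm0 s hs h3
      rw [abs_of_nonneg h3]
      linarith [le_abs_self (σ * t' - σ * t)]
    · have := hmono s hs 0 hm0 h3
      rw [abs_of_nonpos h3]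
      linarith [neg_abs_le (σ * t' - σ * t)]
  linarith [hg.norm_pt_sub hs, abs_nonneg s]

/-- Two points of `K` on one circle near the same ray coincide. -/
lemma ray_unique {t a b : ℝ} (h0 : 0 < t) (hR : 2 * t ≤ R) {p q u : ℂ} (hp : p ∈ K) (hq : q ∈ K)
    (hpt : ‖p - x‖ = t) (hqt : ‖q - x‖ = t) (ha : 0 ≤ a) (hb : 0 ≤ b) (hu : ‖u‖ = 1)
    (h1 : ‖p - (x + a • u)‖ ≤ κ / 50 * t) (h2 : ‖q - (x + b • u)‖ ≤ κ / 50 * t) : q = p := by
  subst hpt
  obtain ⟨d, f, f', σ, hg, hσ, hT⟩ := S.transversal hp (sub_ne_zero.1 (norm_pos_iff.1 h0)) hR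
  set t := ‖p - x‖
  set ρ := κ * t with hρdef
  have hρ : 0 < ρ := mul_pos S.hκ h0
  have hd : ‖q - p‖ ≤ ρ := by
    have e : q - p = (q - (x + b • u)) - (p - (x + a • u)) + (b - a) • u := by
      rw [sub_smul]; abel
    rw [e]
    refine (norm_add_le _ _).trans ?_
    rw [norm_smul, hu, mul_one, Real.norm_eq_abs]
    have := abs_le.1 (abs_ray_coord ha hu h1)
    have := abs_le.1 (abs_ray_coord hb hu h2)
    have : |b - a| ≤ 2 * (κ / 50 * t) := abs_le.2 ⟨by linarith, by linarith⟩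
    linarith [norm_sub_le (q - (x + b • u)) (p - (x + a • u))]
  have hs := hg.abs_coord_le hd
  have hqe := hg.eq_pt hq hd
  set s := ⟪q - p, d⟫
  by_contra hne
  have hs0 : s ≠ 0 := fun h => hne (by rw [hqe, h, hg.pt_zero])
  set G : ℝ → ℝ := fun s => σ * ‖graphPt p d f s - x‖ with hG
  have hsm : StrictMonoOn G (Icc (-ρ) ρ) := by
    refine strictMonoOn_of_deriv_pos (convex_Icc _ _) ?_ ?_
    · have := hg.continuousOn_pt
      fun_prop
    · rw [interior_Icc]
      intro r hr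
      have h3 := hT r (Ioo_subset_Icc_self hr)
      have hd := (((hg.hasDerivAt_pt hr).sub_const x).norm_sq.sqrt
        (pow_ne_zero 2 h3.1.ne')).const_mul σ
      simp only [Real.sqrt_sq (norm_nonneg _)] at hd
      rw [hd.deriv, real_inner_comm, mul_div_mul_left _ _ two_ne_zero, mul_div_assoc']
      exact div_pos (lt_of_lt_of_le (by linarith [h3.1]) h3.2) h3.1
  refine hs0 (hsm.injOn hs ⟨by linarith, hρ.le⟩ ?_)
  simp only [hG, ← hqe, hg.pt_zero, hqt]
  rfl

/-- Two nearby points of `K` on one circle coincide. -/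
lemma unique {t : ℝ} (h0 : 0 < t) (hR : 2 * t ≤ R) {p q : ℂ} (hp : p ∈ K) (hq : q ∈ K)
    (hpt : ‖p - x‖ = t) (hqt : ‖q - x‖ = t) (h : ‖q - p‖ < 3 / 2 * t) : q = p := by
  obtain ⟨e, he, hnear, -⟩ := S.star h0 hR
  obtain ⟨j, a, ha, hj⟩ := hnear p hp (by linarith)
  obtain ⟨k, b, hb, hk⟩ := hnear q hq (by linarith)
  obtain rfl : j = k := by
    by_contra hjk
    have := rays_apart ha hb (norm_starDir he j) (norm_starDir he k) (inner_starDir S.hn he hjk)
      hj hk
    rw [hpt, hqt, norm_sub_rev] at this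
    nlinarith [S.hκ']
  exact S.ray_unique h0 hR hp hq hpt hqt ha hb (norm_starDir he j) hj hk

/-- The circle of radius `R / 4` carries one point for each ray. -/
lemma exists_base : ∃ P : Fin n → ℂ, Function.Injective P ∧
    ∀ i, P i ∈ K ∧ ‖P i - x‖ = R / 4 := by
  have hR := S.pos
  obtain ⟨e, he, -, hon⟩ := S.star (t := R / 4) (by linarith) (by linarith)
  have : ∀ k : Fin n, ∃ z ∈ K, ‖z - x‖ = R / 4 ∧
      ‖z - (x + (R / 4) • starDir n e k)‖ ≤ 3 * (κ / 50 * (R / 4)) := fun k => by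
    obtain ⟨y, hy, hyd⟩ := hon k
    have hc := abs_le.1 (abs_ray_coord (by linarith) (norm_starDir he k) hyd)
    have hκR : κ / 50 * (R / 4) ≤ R / 4 / 400 := by nlinarith [S.hκ']
    obtain ⟨z, hz, hzt, hzd⟩ := S.step hy rfl (by linarith) (by linarith) (t' := R / 4) (by
      rw [abs_le]; constructor <;> nlinarith [S.hκ])
    refine ⟨z, hz, hzt, ?_⟩
    have hb : |R / 4 - ‖y - x‖| ≤ κ / 50 * (R / 4) := abs_le.2 ⟨by linarith, by linarith⟩
    linarith [norm_sub_le_norm_sub_add_norm_sub z y (x + (R / 4) • starDir n e k)]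
  choose P hP hPt hPd using this
  refine ⟨P, fun j k hjk => ?_, fun i => ⟨hP i, hPt i⟩⟩
  by_contra hne
  have := rays_apart (by linarith) (by linarith) (norm_starDir he j) (norm_starDir he k)
    (inner_starDir S.hn he hne) (hPd j) (hPd k)
  rw [hjk, sub_self, norm_zero, hPt k] at this
  nlinarith [S.hκ']

/-- A selection of points of `K` on the circles, continuous in the radius. -/
structure IsCurve (K : Set ℂ) (x : ℂ) (T : ℝ) (cur : ℝ → ℂ) : Prop where
  radial : ∀ t ∈ Ioo (0 : ℝ) T, ‖cur t - x‖ = t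
  mem : ∀ t ∈ Ioo (0 : ℝ) T, cur t ∈ K
  lip : ∀ t ∈ Ioo (0 : ℝ) T, ∀ᶠ t' in 𝓝 t, ‖cur t' - cur t‖ ≤ 2 * |t' - t|

/-- The curves issued from the base points. -/
lemma exists_curves : ∃ γ : Fin n → ℝ → ℂ, (∀ i, IsCurve K x (R / 4) (γ i)) ∧
    ∀ t ∈ Ioo (0 : ℝ) (R / 4), ∀ i j, γ i t = γ j t → i = j := by
  classical
  obtain ⟨P₀, hinj, hP₀⟩ := S.exists_base
  set η := κ / 2 with hη
  have hη0 : 0 < η := by linarith [S.hκ]
  have hη1 : η ≤ 1 / 16 := by linarith [S.hκ']
  set q := 1 - η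
  have hq0 : 0 < q := by linarith
  have hq1 : q ≤ 1 := by linarith
  have hT : (0 : ℝ) < R / 4 := by linarith [S.pos]
  set T : ℕ → ℝ := fun m => R / 4 * q ^ m
  have hTpos : ∀ m, 0 < T m := fun m => mul_pos hT (pow_pos hq0 m)
  have hTle : ∀ m, T m ≤ R / 4 := fun m =>
    mul_le_of_le_one_right hT.le (pow_le_one₀ hq0.le hq1)
  have hTs : ∀ m, T (m + 1) = q * T m := fun m => by simp only [T, pow_succ]; ring
  have hTanti : ∀ m m', m ≤ m' → T m' ≤ T m := fun m m' h =>
    mul_le_mul_of_nonneg_left (pow_le_pow_of_le_one hq0.le hq1 h) hT.le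
  let next : ℂ → ℕ → ℂ := fun p m =>
    if h : ∃ z, z ∈ K ∧ ‖z - x‖ = T (m + 1) ∧ ‖z - p‖ ≤ 3 * η * T m then h.choose else p
  let P : Fin n → ℕ → ℂ := fun i m => Nat.rec (P₀ i) (fun m p => next p m) m
  have hP : ∀ i m, P i m ∈ K ∧ ‖P i m - x‖ = T m := fun i m => by
    induction m with
    | zero => simpa [P, T] using hP₀ i
    | succ m ih =>
      obtain ⟨z, hz, hzt, hzd⟩ := S.step ih.1 ih.2 (hTpos m) (by linarith [hTle m, S.pos])
        (t' := T (m + 1)) (by
          rw [hTs, abs_le]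
          constructor <;> nlinarith [hTpos m])
      have h : ∃ z, z ∈ K ∧ ‖z - x‖ = T (m + 1) ∧ ‖z - P i m‖ ≤ 3 * η * T m :=
        ⟨z, hz, hzt, hzd.trans (by
          rw [hTs, abs_of_nonpos (by nlinarith [hTpos m])]
          nlinarith [hTpos m])⟩
      show next (P i m) m ∈ K ∧ _ = _
      simp only [P, next] at h ⊢
      rw [dif_pos h]
      exact ⟨h.choose_spec.1, h.choose_spec.2.1⟩
  have hstep : ∀ i m, ‖P i (m + 1) - P i m‖ ≤ 3 * η * T m := fun i m => by
    show ‖next (P i m) m - P i m‖ ≤ _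
    simp only [next]
    split_ifs with h
    · exact h.choose_spec.2.2
    · rw [sub_self, norm_zero]
      exact mul_nonneg (by linarith) (hTpos m).le
  have hPinj : ∀ m i j, ‖P i m - P j m‖ ≤ T m → i = j := by
    intro m
    induction m with
    | zero =>
      intro i j h
      refine hinj (S.unique hT (by linarith [S.pos]) (hP₀ j).1 (hP₀ i).1 (hP₀ j).2 (hP₀ i).2 ?_)
      have : ‖P₀ i - P₀ j‖ ≤ R / 4 := by simpa [P, T] using h
      linarith
    | succ m ih =>
      intro i j h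
      have e : P i (m + 1) = P j (m + 1) := S.unique (hTpos _)
        (by linarith [hTle (m + 1), S.pos]) (hP j (m + 1)).1 (hP i (m + 1)).1
        (hP j (m + 1)).2 (hP i (m + 1)).2
        (by linarith [hTpos (m + 1)])
      refine ih i j ((norm_sub_le_norm_sub_add_norm_sub _ (P i (m + 1)) _).trans ?_)
      have h1 := hstep i m
      have h2 := hstep j m
      rw [norm_sub_rev] at h1
      rw [← e] at h2
      nlinarith [hTpos m]
  have hex : ∀ (i : Fin n) (t : ℝ), t ∈ Ioo 0 (R / 4) → ∃ z m, z ∈ K ∧ ‖z - x‖ = t ∧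
      t ∈ Icc (T (m + 1)) (T m) ∧ ‖z - P i m‖ ≤ 2 * η * T m := fun i t ht => by
    obtain ⟨m, hm1, hm2⟩ := exists_nat_pow_near_of_lt_one (div_pos ht.1 hT)
      ((div_le_one hT).2 ht.2.le) hq0 (by linarith)
    rw [lt_div_iff₀ hT] at hm1
    rw [div_le_iff₀ hT] at hm2
    have h1 : T (m + 1) ≤ t := by simp only [T]; linarith
    have h2 : t ≤ T m := by simp only [T]; linarith
    have h1' := hTs m ▸ h1
    obtain ⟨z, hz, hzt, hzd⟩ := S.step (hP i m).1 (hP i m).2 (hTpos m)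
      (by linarith [hTle m, S.pos]) (t' := t) (by rw [abs_le]; constructor <;> nlinarith)
    refine ⟨z, m, hz, hzt, ⟨h1, h2⟩, hzd.trans ?_⟩
    rw [abs_of_nonpos (sub_nonpos.2 h2)]
    nlinarith
  let γ : Fin n → ℝ → ℂ := fun i t => if ht : t ∈ Ioo 0 (R / 4) then (hex i t ht).choose else 0
  have hγ : ∀ i t, t ∈ Ioo 0 (R / 4) → ∃ m, γ i t ∈ K ∧ ‖γ i t - x‖ = t ∧
      t ∈ Icc (T (m + 1)) (T m) ∧ ‖γ i t - P i m‖ ≤ 2 * η * T m := fun i t ht => by
    simp only [γ, dif_pos ht]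
    exact (hex i t ht).choose_spec
  refine ⟨γ, fun i => ⟨fun t ht => ?_, fun t ht => ?_, fun t ht => ?_⟩, fun t ht i j hij => ?_⟩
  · obtain ⟨m, -, h, -⟩ := hγ i t ht
    exact h
  · obtain ⟨m, h, -⟩ := hγ i t ht
    exact h
  · obtain ⟨m, hK, hr, hm, hd⟩ := hγ i t ht
    have hδ : 0 < η * t / 4 := by nlinarith [ht.1]
    filter_upwards [Ioo_mem_nhds ht.1 ht.2, Icc_mem_nhds (a := t - η * t / 4)
      (b := t + η * t / 4) (by linarith) (by linarith)] with t' ht' htt
    have habs : |t' - t| ≤ η * t / 4 := abs_le.2 ⟨by linarith [htt.1], by linarith [htt.2]⟩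
    obtain ⟨z, hz, hzr, hzd⟩ := S.step hK hr ht.1 (by linarith [ht.2, S.pos]) (t' := t')
      (habs.trans (by nlinarith [ht.1]))
    obtain ⟨m', hK', hr', hm', hd'⟩ := hγ i t' ht'
    rw [hTs] at hm hm'
    have hmm : m' ≤ m + 1 ∧ m ≤ m' + 1 := by
      by_contra hc
      rcases not_and_or.1 hc with hc | hc
      · have h1 := hTanti (m + 2) m' (by omega)
        rw [hTs, hTs] at h1
        nlinarith [htt.1, hm.1, hm'.2, ht.1, mul_le_mul_of_nonneg_left hm.1 hq0.le]
      · have h1 := hTanti (m' + 2) m (by omega)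
        rw [hTs, hTs] at h1
        nlinarith [htt.2, hm'.1, hm.2, ht.1, mul_le_mul_of_nonneg_left hm'.1 hq0.le]
    have hbd : ‖P i m' - P i m‖ ≤ 3 * η * max (T m) (T m') := by
      have h3 : 0 ≤ 3 * η := by linarith
      rcases (show m' = m ∨ m' = m + 1 ∨ m = m' + 1 by omega) with rfl | rfl | rfl
      · rw [sub_self, norm_zero]
        exact mul_nonneg h3 ((hTpos _).le.trans (le_max_left _ _))
      · exact (hstep i m).trans (mul_le_mul_of_nonneg_left (le_max_left _ _) h3)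
      · rw [norm_sub_rev]
        exact (hstep i m').trans (mul_le_mul_of_nonneg_left (le_max_right _ _) h3)
    have hTm : T m ≤ 6 / 5 * t' := by nlinarith [hm.1, htt.1, hTpos m, ht.1]
    have hTm' : T m' ≤ 6 / 5 * t' := by nlinarith [hm'.1, hTpos m', ht'.1]
    have hmax := max_le hTm hTm'
    have hz' : ‖γ i t' - z‖ < 3 / 2 * t' := by
      have h1 := norm_sub_le_norm_sub_add_norm_sub (γ i t') (P i m') z
      have h2 := norm_sub_le_norm_sub_add_norm_sub (P i m') (P i m) z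
      have h3 := norm_sub_le_norm_sub_add_norm_sub (P i m) (γ i t) z
      rw [norm_sub_rev (P i m) (γ i t)] at h3
      rw [norm_sub_rev] at hzd
      nlinarith [ht'.1, htt.1, ht.1]
    rw [S.unique ht'.1 (by linarith [ht'.2, S.pos]) hz hK' hzr hr' hz']
    exact hzd
  · obtain ⟨m, hK, hr, hm, hd⟩ := hγ i t ht
    obtain ⟨m', hK', hr', hm', hd'⟩ := hγ j t ht
    rw [← hij] at hd'
    rcases le_total m m' with hmm | hmm
    · refine hPinj m i j ?_
      rcases hmm.eq_or_lt with rfl | hlt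
      · rw [norm_sub_rev] at hd
        nlinarith [norm_sub_le_norm_sub_add_norm_sub (P i m) (γ i t) (P j m), hTpos m]
      · have hle : m' ≤ m + 1 := by
          by_contra hc
          have h1 := hTanti (m + 2) m' (by omega)
          rw [hTs (m + 1)] at h1
          nlinarith [hm.1, hm'.2, hTpos (m + 1)]
        obtain rfl : m' = m + 1 := by omega
        have := hstep j m
        have h1 := norm_sub_le_norm_sub_add_norm_sub (P i m) (γ i t) (P j m)
        have h2 := norm_sub_le_norm_sub_add_norm_sub (γ i t) (P j (m + 1)) (P j m)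
        rw [norm_sub_rev] at hd
        nlinarith [hTanti m (m + 1) (by omega), hTpos m]
    · refine hPinj m' i j ?_
      rcases hmm.eq_or_lt with rfl | hlt
      · rw [norm_sub_rev] at hd
        nlinarith [norm_sub_le_norm_sub_add_norm_sub (P i m') (γ i t) (P j m'), hTpos m']
      · have hle : m ≤ m' + 1 := by
          by_contra hc
          have h1 := hTanti (m' + 2) m (by omega)
          rw [hTs (m' + 1)] at h1
          nlinarith [hm'.1, hm.2, hTpos (m' + 1)]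
        obtain rfl : m = m' + 1 := by omega
        have hs := hstep i m'
        rw [norm_sub_rev] at hs hd
        have h1 := norm_sub_le_norm_sub_add_norm_sub (P i m') (γ i t) (P j m')
        have h2 := norm_sub_le_norm_sub_add_norm_sub (P i m') (P i (m' + 1)) (γ i t)
        nlinarith [hTanti m' (m' + 1) (by omega), hTpos m']

/-- A continuous selection is `C¹`. -/
lemma curve_deriv {cur : ℝ → ℂ} (hc : IsCurve K x (R / 4) cur) {t : ℝ}
    (ht : t ∈ Ioo 0 (R / 4)) :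
    HasDerivAt cur (deriv cur t) t ∧ ‖deriv cur t‖ ≤ 2 ∧ ContinuousAt (deriv cur) t := by
  have hcont : ∀ τ ∈ Ioo 0 (R / 4), ContinuousAt cur τ := fun τ hτ => by
    rw [ContinuousAt, tendsto_iff_norm_sub_tendsto_zero]
    exact squeeze_zero' (Eventually.of_forall fun _ => norm_nonneg _) (hc.lip τ hτ)
      ((by fun_prop : Continuous fun t' : ℝ => 2 * |t' - τ|).tendsto' τ 0 (by simp))
  have h0 : 0 < ‖cur t - x‖ := by rw [hc.radial t ht]; exact ht.1
  obtain ⟨d, f, f', σ, hg, hσ, hT⟩ := S.transversal (hc.mem t ht)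
    (sub_ne_zero.1 (norm_pos_iff.1 h0)) (by rw [hc.radial t ht]; linarith [ht.2, S.pos])
  set p := cur t
  set ρ := κ * ‖p - x‖
  have hρ : 0 < ρ := mul_pos S.hκ h0
  set s : ℝ → ℝ := fun τ => ⟪cur τ - p, d⟫
  set F : ℝ → ℂ := fun r =>
    (⟪graphTan d f' r, graphPt p d f r - x⟫ / ‖graphPt p d f r - x‖)⁻¹ • graphTan d f' r
  have hs0 : s t = 0 := by simp [s, p]
  have hsc : ∀ τ ∈ Ioo 0 (R / 4), ContinuousAt s τ := fun τ hτ =>
    ((hcont τ hτ).sub continuousAt_const).inner continuousAt_const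
  have hnh : ∀ᶠ τ in 𝓝 t, τ ∈ Ioo 0 (R / 4) ∧ s τ ∈ Ioo (-ρ) ρ ∧
      cur τ = graphPt p d f (s τ) := by
    have h1 : ∀ᶠ τ in 𝓝 t, ‖cur τ - p‖ < ρ :=
      (((hcont t ht).sub continuousAt_const).norm).eventually (gt_mem_nhds (by simpa [p] using hρ))
    filter_upwards [Ioo_mem_nhds ht.1 ht.2, h1] with τ hτ hn
    have h2 := abs_real_inner_le_norm (cur τ - p) d
    rw [hg.unit, mul_one] at h2
    exact ⟨hτ, abs_lt.1 (h2.trans_lt hn), hg.eq_pt (hc.mem τ hτ) hn.le⟩
  have hder : ∀ᶠ τ in 𝓝 t, HasDerivAt cur (F (s τ)) τ := by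
    filter_upwards [hnh.eventually_nhds] with τ hτ
    obtain ⟨hτI, hsτ, -⟩ := hτ.self_of_nhds
    have h1 := hT (s τ) (Ioo_subset_Icc_self hsτ)
    have hG := ((hg.hasDerivAt_pt hsτ).sub_const x).norm_sq.sqrt (pow_ne_zero 2 h1.1.ne')
    simp only [Real.sqrt_sq (norm_nonneg _)] at hG
    rw [real_inner_comm, mul_div_mul_left _ _ two_ne_zero] at hG
    have hne : ⟪graphTan d f' (s τ), graphPt p d f (s τ) - x⟫ /
        ‖graphPt p d f (s τ) - x‖ ≠ 0 := by
      refine div_ne_zero (fun h => ?_) h1.1.ne'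
      rw [h, mul_zero] at h1
      linarith [h1.1, h1.2]
    have hsd := HasDerivAt.of_local_left_inverse (hsc τ hτI) hG hne (by
      filter_upwards [hτ] with r hr
      rw [← hr.2.2]
      exact hc.radial r hr.1)
    refine ((hg.hasDerivAt_pt hsτ).scomp τ hsd).congr_of_eventuallyEq ?_
    filter_upwards [hτ] with r hr using hr.2.2
  have hd := hder.self_of_nhds
  rw [hs0] at hd
  refine ⟨hd.differentiableAt.hasDerivAt, ?_, ?_⟩
  · rw [hd.deriv]
    have hm : (0 : ℝ) ∈ Icc (-ρ) ρ := ⟨by linarith, hρ.le⟩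
    have h1 := hT 0 hm
    have hX : 4 / 5 ≤ |⟪graphTan d f' 0, graphPt p d f 0 - x⟫ / ‖graphPt p d f 0 - x‖| := by
      rw [abs_div, abs_of_pos h1.1, le_div_iff₀ h1.1]
      refine h1.2.trans ((le_abs_self _).trans (le_of_eq ?_))
      rw [abs_mul, hσ, one_mul]
    simp only [F, norm_smul, norm_inv, Real.norm_eq_abs]
    rw [← div_eq_inv_mul, div_le_iff₀ (by linarith)]
    linarith [(hg.tan_norm hm).2]
  · have hFc : ContinuousAt F 0 := by
      have hI : Icc (-ρ) ρ ∈ 𝓝 (0 : ℝ) := Icc_mem_nhds (by linarith) hρ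
      have hA := (hg.continuousOn_tan S.hβ).continuousAt hI
      have hB : ContinuousAt (fun r => graphPt p d f r - x) 0 :=
        (hg.continuousOn_pt.continuousAt hI).sub continuousAt_const
      have h1 := hT 0 ⟨by linarith, hρ.le⟩
      refine ContinuousAt.smul ((((hA.inner hB).div hB.norm h1.1.ne')).inv₀ ?_) hA
      refine div_ne_zero (fun h => ?_) h1.1.ne'
      beta_reduce at h
      rw [h, mul_zero] at h1
      linarith [h1.1, h1.2]
    refine (ContinuousAt.congr (f := fun τ => F (s τ)) ?_ ?_)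
    · exact hFc.comp_of_eq (hsc t ht) hs0
    · filter_upwards [hder] with τ hτ using hτ.deriv.symm

end Setting

open Setting in
/-- **R7.** -/
theorem branchSpec : BranchSpec := by
  intro C β κ _ hβ hκ hκ'
  refine ⟨κ / 100, by linarith, fun K n x R hn hR hx _ hflat hgraph => ?_⟩
  have S : Setting K n x R C β κ := ⟨hn, hR, hx, hβ, hκ, hκ', hflat, hgraph⟩
  obtain ⟨γ, hc, hinj⟩ := S.exists_curves
  refine ⟨γ, fun i => deriv (γ i), by linarith, hx, fun i t ht => (hc i).radial t ht,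
    fun i t ht => ⟨(S.curve_deriv (hc i) ht).1, (S.curve_deriv (hc i) ht).2.1⟩,
    fun i t ht => (S.curve_deriv (hc i) ht).2.2.continuousWithinAt, ?_, ?_⟩
  · ext w
    constructor
    · rintro ⟨hK, hw⟩
      rcases eq_or_ne w x with rfl | hne
      · exact mem_insert _ _
      rw [mem_ball, dist_eq_norm] at hw
      set t := ‖w - x‖ with ht
      have h0 : 0 < t := norm_pos_iff.2 (sub_ne_zero.2 hne)
      obtain ⟨e, he, hnear, -⟩ := S.star h0 (by linarith)
      obtain ⟨k, a, ha, hk⟩ := hnear w hK (by linarith)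
      have hsel : ∀ i, ∃ j, ∃ b : ℝ, 0 ≤ b ∧
          ‖γ i t - (x + b • starDir n e j)‖ ≤ κ / 50 * t := fun i =>
        hnear _ ((hc i).mem t ⟨h0, hw⟩) (by rw [(hc i).radial t ⟨h0, hw⟩]; linarith)
      choose J B hB hJ using hsel
      have hJi : Function.Injective J := fun i j hij => hinj t ⟨h0, hw⟩ i j
        (S.ray_unique h0 (by linarith) ((hc j).mem t ⟨h0, hw⟩) ((hc i).mem t ⟨h0, hw⟩)
          ((hc j).radial t ⟨h0, hw⟩) ((hc i).radial t ⟨h0, hw⟩) (hB j) (hB i)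
          (norm_starDir he _) (hJ j) (hij ▸ hJ i))
      obtain ⟨i, hi⟩ := (Finite.injective_iff_surjective.1 hJi) k
      subst hi
      exact mem_insert_of_mem _ (mem_iUnion.2 ⟨i, t, ⟨h0, hw⟩,
        (S.ray_unique h0 (by linarith) ((hc i).mem t ⟨h0, hw⟩) hK
          ((hc i).radial t ⟨h0, hw⟩) rfl (hB i) ha (norm_starDir he _) (hJ i) hk).symm⟩)
    · rintro (rfl | hu)
      · exact ⟨hx, mem_ball_self (by linarith)⟩
      · obtain ⟨i, t, ht, rfl⟩ := mem_iUnion.1 hu
        exact ⟨(hc i).mem t ht, by rw [mem_ball, dist_eq_norm, (hc i).radial t ht]; exact ht.2⟩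
  · intro i j hij t ht
    by_contra hlt
    refine hij (hinj t ht i j (S.unique ht.1 (by linarith [ht.2]) ((hc j).mem t ht)
      ((hc i).mem t ht) ((hc j).radial t ht) ((hc i).radial t ht) ?_))
    linarith [ht.1, not_le.1 hlt]

end Vale.Agent.P128.Regularity
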