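import Vale.Agent.P128.Bridge.Defs

/-!
# P128 regularity: definitions
-/

open MeasureTheory Set Metric Filter
open scoped ENNReal Topology Real RealInnerProductSpace

noncomputable section

namespace Vale.Agent.P128.Regularity

open Vale.Agent.P128.Bridge

/-! ## The trichotomy of the problem -/

/-- A regular injective `C^{1,α}` parametrisation on `[a, b]`. -/
def IsHolderArc (α : ℝ) (γ γ' : ℝ → ℂ) (a b : ℝ) : Prop :=
  a < b ∧ InjOn γ (Icc a b) ∧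
    (∀ t ∈ Icc a b, HasDerivWithinAt γ (γ' t) (Icc a b) t ∧ γ' t ≠ 0) ∧
    ∃ C : ℝ, ∀ s ∈ Icc a b, ∀ t ∈ Icc a b, ‖γ' s - γ' t‖ ≤ C * |s - t| ^ α

/-- (i): near `x`, `K` is one arc with `x` in its interior. -/
def IsInteriorPoint (K N : Set ℂ) (x : ℂ) (α : ℝ) : Prop :=
  ∃ γ γ' : ℝ → ℂ, IsHolderArc α γ γ' (-1) 1 ∧ γ 0 = x ∧ K ∩ N = γ '' Ioo (-1) 1

/-- (ii): near `x`, `K` is one arc ending at `x`. -/
def IsEndPoint (K N : Set ℂ) (x : ℂ) (α : ℝ) : Prop :=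
  ∃ γ γ' : ℝ → ℂ, IsHolderArc α γ γ' 0 1 ∧ γ 0 = x ∧ K ∩ N = γ '' Ico 0 1

/-- (iii): near `x`, `K` is three arcs meeting only at `x`, at pairwise angles `120°`. -/
def IsTriplePoint (K N : Set ℂ) (x : ℂ) (α : ℝ) : Prop :=
  ∃ γ γ' : Fin 3 → ℝ → ℂ, (∀ i, IsHolderArc α (γ i) (γ' i) 0 1) ∧ (∀ i, γ i 0 = x) ∧
    K ∩ N = (⋃ i, γ i '' Ico 0 1) ∧
    (∀ i j, i ≠ j → γ i '' Icc 0 1 ∩ γ j '' Icc 0 1 = {x}) ∧
    ∀ i j, i ≠ j → ⟪γ' i 0, γ' j 0⟫ = -(1 / 2) * (‖γ' i 0‖ * ‖γ' j 0‖)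

/-! ## Stars and flatness -/

/-- The star with `n` equally spaced rays at `x`, one of direction `d`. -/
def starSet (n : ℕ) (x d : ℂ) : Set ℂ :=
  ⋃ k : Fin n, (fun t : ℝ => x + t • (d * Complex.exp (((2 * π * (k : ℕ) / n : ℝ) : ℂ) * Complex.I))) '' Ici 0

/-- `K` and `S` are `ε r`-close in the closed disc. -/
def Near (K S : Set ℂ) (x : ℂ) (r ε : ℝ) : Prop :=
  (∀ z ∈ K ∩ closedBall x r, ∃ w ∈ S, dist z w ≤ ε * r) ∧
    ∀ w ∈ S ∩ closedBall x r, ∃ z ∈ K, dist z w ≤ ε * r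

/-- `K` is `ε`-close to some `n`-star centred at `x` at scale `r`. -/
def Flat (K : Set ℂ) (n : ℕ) (x : ℂ) (r ε : ℝ) : Prop :=
  ∃ d : ℂ, ‖d‖ = 1 ∧ Near K (starSet n x d) x r ε

/-- Dirichlet energy in a closed disc. -/
def dball (K : Set ℂ) (G : ℂ → ℂ) (x : ℂ) (r : ℝ) : ℝ≥0∞ :=
  ∫⁻ z in closedBall x r \ K, ‖G z‖ₑ ^ 2

/-- `∫ |G|²` over the circle for arc length. -/
def circleEnergy (G : ℂ → ℂ) (x : ℂ) (r : ℝ) : ℝ≥0∞ :=
  ENNReal.ofReal r * ∫⁻ θ in Ioo (-π) π, ‖G (circleMap x r θ)‖ₑ ^ 2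

/-- All scales up to `R` at `x` look like the model with `n` branches: energy `r` for a tip
(`n = 1`), none for a line or a triple junction. -/
def Regime (K : Set ℂ) (G : ℂ → ℂ) (n : ℕ) (x : ℂ) (R ε : ℝ) : Prop :=
  ∀ r ∈ Ioc (0 : ℝ) R, Flat K n x r ε ∧
    μH[1] (K ∩ closedBall x r) ≤ ENNReal.ofReal ((n + ε) * r) ∧
    (n ≠ 1 → dball K G x r ≤ ENNReal.ofReal (ε * r)) ∧
    (n = 1 → ENNReal.ofReal ((1 - ε) * r) ≤ dball K G x r ∧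
      dball K G x r ≤ ENNReal.ofReal ((1 + ε) * r))

/-- A region in which every point of `K` looks like a line at every scale. -/
structure LineHyp (U K : Set ℂ) (G : ℂ → ℂ) (Λ : ℝ) (x : ℂ) (R ε : ℝ) : Prop where
  pos : 0 < R
  mem : x ∈ K
  ball_subset : closedBall x (4 * R) ⊆ U
  small : Λ * R ≤ ε
  regime : ∀ z ∈ K ∩ closedBall x R, Regime K G 2 z (2 * R) ε

/-- The behaviour of a point with `n` branches and of the points around it. -/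
structure PointHyp (U K : Set ℂ) (G : ℂ → ℂ) (Λ : ℝ) (n : ℕ) (x : ℂ) (R ε : ℝ) : Prop where
  pos : 0 < R
  mem : x ∈ K
  ball_subset : closedBall x (4 * R) ⊆ U
  small : Λ * R ≤ ε
  regime : Regime K G n x R ε
  around : ∀ z ∈ K ∩ closedBall x R, z ≠ x → LineHyp U K G Λ z (dist z x / 8) ε
  line : n = 2 → LineHyp U K G Λ x R ε

/-! ## Graphs and branches -/

/-- Near `x`, in the square of half side `ρ` with axes `d`, `i d`, the set `K` is the graph of `f`. -/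
structure GraphAt (K : Set ℂ) (x d : ℂ) (ρ β C : ℝ) (f f' : ℝ → ℝ) : Prop where
  unit : ‖d‖ = 1
  pos : 0 < ρ
  zero : f 0 = 0
  deriv : ∀ t ∈ Icc (-ρ) ρ, HasDerivWithinAt f (f' t) (Icc (-ρ) ρ) t
  small : ∀ t ∈ Icc (-ρ) ρ, |f' t| ≤ 1 / 10
  holder : ∀ s ∈ Icc (-ρ) ρ, ∀ t ∈ Icc (-ρ) ρ, |f' s - f' t| ≤ C * (|s - t| / ρ) ^ β
  graph : ∀ z : ℂ, |⟪z - x, d⟫| ≤ ρ → |⟪z - x, Complex.I * d⟫| ≤ ρ →
    (z ∈ K ↔ ⟪z - x, Complex.I * d⟫ = f ⟪z - x, d⟫)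

/-- `n` disjoint `C¹` branches, parametrised by the distance to `x`. -/
structure Branches (K : Set ℂ) (n : ℕ) (x : ℂ) (R : ℝ) (γ γ' : Fin n → ℝ → ℂ) : Prop where
  pos : 0 < R
  mem : x ∈ K
  radial : ∀ i, ∀ t ∈ Ioo (0 : ℝ) R, ‖γ i t - x‖ = t
  deriv : ∀ i, ∀ t ∈ Ioo (0 : ℝ) R, HasDerivAt (γ i) (γ' i t) t ∧ ‖γ' i t‖ ≤ 2
  cont : ∀ i, ContinuousOn (γ' i) (Ioo (0 : ℝ) R)
  cover : K ∩ ball x R = insert x (⋃ i, γ i '' Ioo (0 : ℝ) R)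
  apart : ∀ i j, i ≠ j → ∀ t ∈ Ioo (0 : ℝ) R, t ≤ ‖γ i t - γ j t‖

/-- The two sides of `K` in a closed disc: `σ` is locally constant off `K` and determines the arc
of the circle. -/
def Separated (K : Set ℂ) (x : ℂ) (r : ℝ) : Prop :=
  ∃ σ : ℂ → Bool, ContinuousOn σ (closedBall x r \ K) ∧
    ∀ y ∈ sphere x r \ K, ∀ w ∈ sphere x r \ K, σ y = σ w →
      w ∈ connectedComponentIn (sphere x r \ K) y

/-- The stress density whose circle integrals are bounded by the translation competitor. -/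
def stress (G : ℂ → ℂ) (x e z : ℂ) : ℝ :=
  2 * ⟪(‖z - x‖)⁻¹ • (z - x), G z⟫ * ⟪e, G z⟫ - ‖G z‖ ^ 2 * ⟪(‖z - x‖)⁻¹ • (z - x), e⟫

end Vale.Agent.P128.Regularity
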