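import Vale.Agent.P128.Bridge.Spec
import Vale.Agent.P128.Regularity.Defs

/-!
# P128 regularity: statements of the pieces

A piece file proves `theorem xxx : XxxSpec` (taking other Specs as hypotheses when needed).
-/

open MeasureTheory Set Metric Filter
open scoped ENNReal Topology Real RealInnerProductSpace

noncomputable section

namespace Vale.Agent.P128.Regularity

open Vale.Agent.P128.Bridge

/-- Classification of reduced global minimisers, in the form used here. -/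
def ClassSpec : Prop :=
  ∀ P : Pair, IsGlobalMinimizer P → IsReduced P.K → P.K.Nonempty →
    (∃ a d : ℂ, ‖d‖ = 1 ∧ (P.K = starSet 2 a d ∨ P.K = starSet 3 a d) ∧
        ∫⁻ z in P.Kᶜ, ‖P.G z‖ₑ ^ 2 = 0) ∨
      ∃ a d : ℂ, ‖d‖ = 1 ∧ P.K = starSet 1 a d ∧
        ∀ r : ℝ, 0 < r → dball P.K P.G a r = ENNReal.ofReal r ∧
          ∀ᵐ z, z ∉ P.K → ‖P.G z‖ ^ 2 ≤ 1 / (2 * π * dist z a)

/-- R1: at every point all small scales look like one of the three models; around it, lines. -/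
def TrichotomySpec : Prop :=
  ∀ (U K : Set ℂ) (u : ℂ → ℝ) (G : ℂ → ℂ) (A M Λ : ℝ), IsAlmostMin U K u G A M Λ →
    IsReducedIn U K → ∀ x ∈ K, ∃ n : ℕ, (n = 1 ∨ n = 2 ∨ n = 3) ∧
      ∀ ε : ℝ, 0 < ε → ε ≤ 1 → ∃ R : ℝ, 0 < R ∧ closedBall x (4 * R) ⊆ U ∧ Λ * R ≤ ε ∧
        Regime K G n x R ε ∧
        (∀ z ∈ K ∩ closedBall x R, z ≠ x → LineHyp U K G Λ z (ε * dist z x / 32) ε) ∧
        (n = 2 → LineHyp U K G Λ x R ε)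

/-- R2: topology of bilaterally flat sets (pure). -/
def LineTopoSpec : Prop :=
  ∃ ε₀ : ℝ, 0 < ε₀ ∧ ∀ (K : Set ℂ) (x : ℂ) (R : ℝ), 0 < R → x ∈ K →
    IsClosed (K ∩ closedBall x (3 * R)) → μH[1] (K ∩ closedBall x (3 * R)) < ⊤ →
    (∀ z ∈ K ∩ closedBall x R, ∀ r ∈ Ioc (0 : ℝ) (2 * R), Flat K 2 z r ε₀) →
      ∀ z ∈ K ∩ closedBall x (R / 2), ∀ r ∈ Ioc (0 : ℝ) (R / 4),
        (∃ p ∈ K ∩ sphere z r, ∃ q ∈ K ∩ sphere z r, ⟪p - z, q - z⟫ < 0) ∧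
        ∀ p q : ℂ, p ≠ q → K ∩ sphere z r = {p, q} → Separated K z r ∧
          ∀ w ∈ K ∩ closedBall z (r / 2),
            ENNReal.ofReal (‖p - w‖ + ‖w - q‖) ≤ μH[1] (K ∩ closedBall z r)

/-- R3: energy decay in a line region. -/
def LineDecaySpec : Prop :=
  ∃ ε₀ C : ℝ, 0 < ε₀ ∧ 0 ≤ C ∧
    ∀ (U K : Set ℂ) (u : ℂ → ℝ) (G : ℂ → ℂ) (A M Λ : ℝ), IsAlmostMin U K u G A M Λ →
      ∀ (x : ℂ) (R : ℝ), LineHyp U K G Λ x R ε₀ →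
        ∀ z ∈ K ∩ closedBall x (R / 2), ∀ r ∈ Ioc (0 : ℝ) (R / 4),
          dball K G z r ≤ ENNReal.ofReal (C * r * Real.sqrt (r / R))

/-- R4: network competitor in a disc with at most three crossings. -/
def ExcessSpec : Prop :=
  ∃ C : ℝ, 0 ≤ C ∧
    ∀ (U K : Set ℂ) (u : ℂ → ℝ) (G : ℂ → ℂ) (A M Λ : ℝ), IsAlmostMin U K u G A M Λ →
      ∀ (x : ℂ) (r : ℝ), 0 < r → closedBall x r ⊆ U →
        ∀ P : Finset ℂ, K ∩ sphere x r = ↑P → P.card ≤ 3 →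
          ∀ a ∈ closedBall x (r / 2), ∀ η ∈ Ioc (0 : ℝ) (1 / 4),
            weakEnergy K G (closedBall x r) ≤
              ENNReal.ofReal ((∑ p ∈ P, ‖p - a‖) + C * η * r + Λ * r ^ 2) +
                ENNReal.ofReal (C * r / η) * circleEnergy G x r

/-- R5: in a line region flatness decays like a power. -/
def LineFlatSpec : Prop :=
  ∃ ε₀ C β : ℝ, 0 < ε₀ ∧ 0 < C ∧ 0 < β ∧ β ≤ 1 ∧
    ∀ (U K : Set ℂ) (u : ℂ → ℝ) (G : ℂ → ℂ) (A M Λ : ℝ), IsAlmostMin U K u G A M Λ →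
      ∀ (x : ℂ) (R : ℝ), LineHyp U K G Λ x R ε₀ →
        ∀ z ∈ K ∩ closedBall x (R / 2), ∀ r ∈ Ioc (0 : ℝ) (R / 16),
          Flat K 2 z r (C * (r / R) ^ β)

/-- R6: decaying flatness gives a graph (pure). -/
def LineGraphSpec : Prop :=
  ∀ C β : ℝ, 0 < C → 0 < β → β ≤ 1 → ∃ ε₀ C' : ℝ, 0 < ε₀ ∧ 0 < C' ∧
    ∀ (K : Set ℂ) (x : ℂ) (R : ℝ), 0 < R → x ∈ K → IsClosed (K ∩ closedBall x R) →
      (∀ z ∈ K ∩ closedBall x R, ∀ r ∈ Ioc (0 : ℝ) R,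
        Flat K 2 z r ε₀ ∧ Flat K 2 z r (C * (r / R) ^ β)) →
      ∃ (d : ℂ) (f f' : ℝ → ℝ), GraphAt K x d (R / 8) β C' f f' ∧ f' 0 = 0

/-- R7: flatness at `x` and graphs around it give radial branches (pure). -/
def BranchSpec : Prop :=
  ∀ C β κ : ℝ, 0 < C → 0 < β → 0 < κ → κ ≤ 1 / 8 → ∃ ε₀ : ℝ, 0 < ε₀ ∧
    ∀ (K : Set ℂ) (n : ℕ) (x : ℂ) (R : ℝ), (n = 1 ∨ n = 3) → 0 < R → x ∈ K →
      IsClosed (K ∩ closedBall x (2 * R)) → (∀ r ∈ Ioc (0 : ℝ) R, Flat K n x r ε₀) →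
      (∀ z ∈ K ∩ closedBall x R, z ≠ x →
        ∃ (d : ℂ) (f f' : ℝ → ℝ), GraphAt K z d (κ * dist z x) β C f f') →
      ∃ γ γ' : Fin n → ℝ → ℂ, Branches K n x (R / 4) γ γ'

/-- R8: energy decay at a triple point. -/
def StarDecaySpec : Prop :=
  ∃ ε₀ C κ : ℝ, 0 < ε₀ ∧ 0 ≤ C ∧ 0 < κ ∧
    ∀ (U K : Set ℂ) (u : ℂ → ℝ) (G : ℂ → ℂ) (A M Λ : ℝ), IsAlmostMin U K u G A M Λ →
      ∀ (x : ℂ) (R : ℝ) (γ γ' : Fin 3 → ℝ → ℂ), Branches K 3 x R γ γ' → closedBall x R ⊆ U →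
        Λ * R ≤ ε₀ → Regime K G 3 x R ε₀ →
          ∀ r ∈ Ioc (0 : ℝ) (R / 2), dball K G x r ≤ ENNReal.ofReal (C * r * (r / R) ^ κ)

/-- R8b: length excess at a triple point decays like a power. -/
def StarExcessSpec : Prop :=
  ∃ ε₀ C κ : ℝ, 0 < ε₀ ∧ 0 < C ∧ 0 < κ ∧
    ∀ (U K : Set ℂ) (u : ℂ → ℝ) (G : ℂ → ℂ) (A M Λ : ℝ), IsAlmostMin U K u G A M Λ →
      ∀ (x : ℂ) (R : ℝ) (γ γ' : Fin 3 → ℝ → ℂ), Branches K 3 x R γ γ' → closedBall x R ⊆ U →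
        Λ * R ≤ ε₀ → Regime K G 3 x R ε₀ →
          ∀ r ∈ Ioc (0 : ℝ) (R / 4), ∃ s ∈ Icc r (2 * r), ∀ a ∈ closedBall x (s / 2),
            μH[1] (K ∩ closedBall x s) ≤
              ENNReal.ofReal ((∑ i, ‖γ i s - a‖) + C * s * (s / R) ^ κ)

/-- R9: the crack-lengthening (translation) competitor at a tip. -/
def TranslateSpec : Prop :=
  ∃ C δ : ℝ, 0 ≤ C ∧ 0 < δ ∧
    ∀ (U K : Set ℂ) (u : ℂ → ℝ) (G : ℂ → ℂ) (A M Λ : ℝ), IsAlmostMin U K u G A M Λ →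
      ∀ (x : ℂ) (R : ℝ) (γ γ' : Fin 1 → ℝ → ℂ), Branches K 1 x R γ γ' → closedBall x R ⊆ U →
        ∀ a h : ℝ, 0 < a → 0 < h → h ≤ 1 / 2 → a * (1 + h) < R → Λ * a ≤ δ →
          ∀ e : ℂ, ‖e‖ = 1 →
            ∫ z in (closedBall x (a * (1 + h)) \ closedBall x a) \ K, stress G x e z ≤
              a * (h + C * Real.sqrt (Λ * a))

/-- R10: the identity on a circle with one crossing at `0 ≡ 2π` (pure). -/
def TipAlgebraSpec : Prop :=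
  ∀ V p q : ℝ → ℝ, ContinuousOn V (Icc 0 (2 * π)) →
    (∀ t ∈ Ioo 0 (2 * π), HasDerivAt V (q t) t) →
    IntervalIntegrable p volume 0 (2 * π) → IntervalIntegrable (fun t => p t ^ 2) volume 0 (2 * π) →
    IntervalIntegrable (fun t => q t ^ 2) volume 0 (2 * π) → V π = 0 →
      0 ≤ (∫ t in (0 : ℝ)..2 * π, p t ^ 2 + q t ^ 2) - ∫ t in (0 : ℝ)..2 * π, p t * V t ∧
      |(∫ t in (0 : ℝ)..2 * π, (p t ^ 2 - q t ^ 2) * Real.cos t - 2 * (p t * q t) * Real.sin t) -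
          ∫ t in (0 : ℝ)..2 * π, p t * V t| ≤
        (∫ t in (0 : ℝ)..2 * π, p t ^ 2 + q t ^ 2) - ∫ t in (0 : ℝ)..2 * π, p t * V t

/-- R11: length excess at a tip decays like a power. -/
def TipDecaySpec : Prop :=
  ∃ ε₀ C κ : ℝ, 0 < ε₀ ∧ 0 ≤ C ∧ 0 < κ ∧
    ∀ (U K : Set ℂ) (u : ℂ → ℝ) (G : ℂ → ℂ) (A M Λ : ℝ), IsAlmostMin U K u G A M Λ →
      ∀ (x : ℂ) (R : ℝ) (γ γ' : Fin 1 → ℝ → ℂ), Branches K 1 x R γ γ' → closedBall x R ⊆ U →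
        Λ * R ≤ ε₀ → Regime K G 1 x R ε₀ → (∀ ε > 0, ∃ R' > 0, Regime K G 1 x R' ε) →
          ∀ r ∈ Ioc (0 : ℝ) (R / 4),
            μH[1] (K ∩ closedBall x r) ≤ ENNReal.ofReal (r + C * r * (r / R) ^ κ)

/-- R12: small length excess at all scales gives decaying flatness at `x` (pure). -/
def StarFlatSpec : Prop :=
  ∀ C κ : ℝ, 0 < C → 0 < κ → ∃ C' β : ℝ, 0 < C' ∧ 0 < β ∧ β ≤ 1 ∧
    ∀ (K : Set ℂ) (n : ℕ) (x : ℂ) (R : ℝ) (γ γ' : Fin n → ℝ → ℂ), (n = 1 ∨ n = 3) →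
      Branches K n x R γ γ' →
      (∀ r ∈ Ioc (0 : ℝ) (R / 4), ∃ s ∈ Icc r (2 * r), ∀ a ∈ closedBall x (s / 2),
        (n = 1 → a = x) → μH[1] (K ∩ closedBall x s) ≤
          ENNReal.ofReal ((∑ i, ‖γ i s - a‖) + C * s * (s / R) ^ κ)) →
      ∀ r ∈ Ioc (0 : ℝ) (R / 8), Flat K n x r (C' * (r / R) ^ β)

/-- R13: the arcs of the problem from branches, decaying flatness and graphs (pure). -/
def ArcsSpec : Prop :=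
  ∀ C β κ : ℝ, 0 < C → 0 < β → β ≤ 1 → 0 < κ →
    ∀ (K : Set ℂ) (n : ℕ) (x : ℂ) (R : ℝ) (γ γ' : Fin n → ℝ → ℂ), (n = 1 ∨ n = 3) →
      Branches K n x R γ γ' → (∀ r ∈ Ioc (0 : ℝ) R, Flat K n x r (C * (r / R) ^ β)) →
      (∀ z ∈ K ∩ ball x R, z ≠ x →
        ∃ (d : ℂ) (f f' : ℝ → ℝ), GraphAt K z d (κ * dist z x) β C f f') →
      ∃ (N : Set ℂ) (α : ℝ), IsOpen N ∧ x ∈ N ∧ N ⊆ ball x R ∧ 0 < α ∧
        ((n = 1 ∧ IsEndPoint K N x α) ∨ (n = 3 ∧ IsTriplePoint K N x α))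

/-- The target: Q1 word for word. -/
def Q1Spec : Prop :=
  ∀ (Ω : Set ℂ) (g : ℂ → ℝ) (P : Admissible Ω), IsOpen Ω → MemLp g ⊤ (volume.restrict Ω) →
    IsMinimizer Ω g P → IsReducedIn Ω P.K → ∀ x ∈ P.K,
      ∃ (N : Set ℂ) (α : ℝ), IsOpen N ∧ x ∈ N ∧ N ⊆ Ω ∧ 0 < α ∧
        (IsInteriorPoint P.K N x α ∨ IsEndPoint P.K N x α ∨ IsTriplePoint P.K N x α)

end Vale.Agent.P128.Regularity
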