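import Vale.Agent.P128.Main
import Vale.Agent.P128.Spec2
import Vale.Agent.P128.Bridge.LimitTools
import Vale.Agent.P128.Bridge.Polar
import Vale.Agent.P128.Regularity.Spec

/-!
# P128 regularity: the classification in the form used by the regularity stage
-/

open MeasureTheory Set Metric Filter
open scoped ENNReal NNReal Topology Real RealInnerProductSpace

noncomputable section

namespace Vale.Agent.P128.Regularity

open Vale.Agent.P128.Bridge

theorem ray_eq_image {a : ℂ} {θ φ : ℝ} {n : ℕ} (k : Fin n) (h : φ + 2 * π * (k : ℕ) / n = θ) :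
    ray a θ = (fun t : ℝ => a + t • (Complex.exp (φ * Complex.I) *
      Complex.exp (((2 * π * (k : ℕ) / n : ℝ) : ℂ) * Complex.I))) '' Ici 0 := by
  unfold ray
  rw [← Complex.exp_add, ← add_mul, ← Complex.ofReal_add, h]
  simp [Complex.real_smul]

theorem starSet_one (a : ℂ) (θ : ℝ) :
    ray a θ = starSet 1 a (Complex.exp (θ * Complex.I)) := by
  rw [starSet, iUnion_eq_single_one]
  exact ray_eq_image (n := 1) 0 (by simp)
where
  iUnion_eq_single_one : ∀ {f : Fin 1 → Set ℂ}, (⋃ k, f k) = f 0 := fun {f} => by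
    ext z; simp [Fin.exists_fin_one]

theorem starSet_two {K : Set ℂ} (h : IsLineSet K) :
    ∃ a d : ℂ, ‖d‖ = 1 ∧ K = starSet 2 a d := by
  obtain ⟨a, θ, rfl⟩ := h
  refine ⟨a, Complex.exp (θ * Complex.I), Complex.norm_exp_ofReal_mul_I θ, ?_⟩
  rw [starSet, ray_eq_image (φ := θ) (n := 2) 0 (by simp),
    ray_eq_image (φ := θ) (θ := θ + π) (n := 2) 1 (by simp)]
  ext z
  simp [Fin.exists_fin_two]

theorem starSet_three {K : Set ℂ} (h : IsTripodSet K) :
    ∃ a d : ℂ, ‖d‖ = 1 ∧ K = starSet 3 a d := by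
  obtain ⟨a, θ, rfl⟩ := h
  refine ⟨a, Complex.exp (θ * Complex.I), Complex.norm_exp_ofReal_mul_I θ, ?_⟩
  rw [starSet, ray_eq_image (φ := θ) (n := 3) 0 (by simp),
    ray_eq_image (φ := θ) (θ := θ + 2 * π / 3) (n := 3) 1 (by simp),
    ray_eq_image (φ := θ) (θ := θ + 4 * π / 3) (n := 3) 2 (by simp; ring)]
  ext z
  simp [Fin.exists_fin_succ, or_assoc]
  norm_num

/-- A point off the crack lies on the slit plane after moving the tip to `0`. -/
theorem mem_slitPlane_of_notMem_ray {a : ℂ} {θ : ℝ} {z : ℂ} (hz : z ∉ ray a (θ + π)) :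
    (z - a) * Complex.exp (-(θ * Complex.I)) ∈ Complex.slitPlane := by
  rw [Complex.mem_slitPlane_iff]
  by_contra hcon
  simp only [not_or, not_lt, not_not] at hcon
  set w := (z - a) * Complex.exp (-(θ * Complex.I)) with hw
  refine hz ⟨-w.re, neg_nonneg.2 hcon.1, ?_⟩
  have hwre : w = (w.re : ℂ) := by apply Complex.ext <;> simp [hcon.2]
  have hza : z - a = w * Complex.exp (θ * Complex.I) := by
    rw [hw, mul_assoc, ← Complex.exp_add, neg_add_cancel, Complex.exp_zero, mul_one]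
  rw [hwre] at hza
  show a + ((-w.re : ℝ) : ℂ) * Complex.exp (((θ + π : ℝ) : ℂ) * Complex.I) = z
  rw [Complex.ofReal_add, add_mul, Complex.exp_add, Complex.exp_pi_mul_I, Complex.ofReal_neg]
  linear_combination -hza

theorem crackTip_eq_im {a : ℂ} {θ k s : ℝ} (z : ℂ) :
    crackTip a θ k s z =
      s * Real.sqrt (2 / π) * (((z - a) * Complex.exp (-(θ * Complex.I))) ^ (1 / 2 : ℂ)).im + k := by
  set w := (z - a) * Complex.exp (-(θ * Complex.I)) with hw
  have hn : ‖w‖ = ‖z - a‖ := by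
    rw [hw, norm_mul, show -((θ : ℂ) * Complex.I) = ((-θ : ℝ) : ℂ) * Complex.I by push_cast; ring,
      Complex.norm_exp_ofReal_mul_I, mul_one]
  have him : (w ^ (1 / 2 : ℂ)).im = Real.sqrt ‖w‖ * Real.sin (w.arg / 2) := by
    rcases eq_or_ne w 0 with h0 | h0
    · simp [h0]
    · rw [Complex.cpow_def_of_ne_zero h0, Complex.exp_im]
      have hre : (Complex.log w * (1 / 2 : ℂ)).re = Real.log ‖w‖ / 2 := by
        simp [Complex.log_re]; ring
      have him' : (Complex.log w * (1 / 2 : ℂ)).im = w.arg / 2 := by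
        simp [Complex.log_im]; ring
      rw [hre, him', Real.exp_half, Real.exp_log (norm_pos_iff.2 h0)]
  rw [him, hn, crackTip, show 2 * ‖z - a‖ / π = (2 / π) * ‖z - a‖ by ring,
    Real.sqrt_mul (by positivity)]
  ring

/-- Gradient of the crack-tip function off the crack. -/
theorem crackTip_fderiv {a : ℂ} {θ k s : ℝ} (hs : s = 1 ∨ s = -1) {z : ℂ}
    (hz : z ∉ ray a (θ + π)) :
    DifferentiableAt ℝ (crackTip a θ k s) z ∧
      ‖gradOf (crackTip a θ k s) z‖ ^ 2 = 1 / (2 * π * dist z a) := by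
  set E := Complex.exp (-(θ * Complex.I)) with hE
  set w := (z - a) * E with hw
  have hslit : w ∈ Complex.slitPlane := mem_slitPlane_of_notMem_ray hz
  set D : ℂ := (1 / 2 : ℂ) * w ^ ((1 / 2 : ℂ) - 1) * E with hD
  have h1 : HasDerivAt (fun z => ((z - a) * E) ^ (1 / 2 : ℂ)) D z := by
    have h2 : HasDerivAt (fun z : ℂ => (z - a) * E) E z := by
      simpa using ((hasDerivAt_id z).sub_const a).mul_const E
    exact h2.cpow_const hslit
  set c := s * Real.sqrt (2 / π) with hc
  have h3 : HasFDerivAt (crackTip a θ k s)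
      (c • Complex.imCLM.comp ((ContinuousLinearMap.toSpanSingleton ℂ D).restrictScalars ℝ)) z := by
    have := ((Complex.imCLM.hasFDerivAt.comp z (h1.hasFDerivAt.restrictScalars ℝ)).const_smul
      c).add_const k
    refine this.congr_of_eventuallyEq (Eventually.of_forall fun y => ?_)
    rw [crackTip_eq_im]
    rfl
  refine ⟨h3.differentiableAt, ?_⟩
  have hG : gradOf (crackTip a θ k s) z = ⟨c * D.im, c * D.re⟩ := by
    rw [gradOf, h3.fderiv]
    simp [ContinuousLinearMap.toSpanSingleton_apply, Complex.mul_im]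
  have hnE : ‖E‖ = 1 := by
    rw [hE, show -((θ : ℂ) * Complex.I) = ((-θ : ℝ) : ℂ) * Complex.I by push_cast; ring,
      Complex.norm_exp_ofReal_mul_I]
  have hnw : ‖w‖ = dist z a := by rw [hw, norm_mul, hnE, mul_one, dist_eq_norm]
  have hw0 : w ≠ 0 := Complex.slitPlane_ne_zero hslit
  have hpos : 0 < dist z a := by rw [← hnw]; exact norm_pos_iff.2 hw0
  have hnD : ‖D‖ ^ 2 = 1 / (4 * dist z a) := by
    rw [hD, norm_mul, norm_mul, hnE, mul_one,
      show (1 / 2 : ℂ) - 1 = ((-(1 / 2) : ℝ) : ℂ) by push_cast; ring, Complex.norm_cpow_real, hnw,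
      mul_pow, ← Real.rpow_natCast (dist z a ^ (-(1 / 2) : ℝ)) 2, ← Real.rpow_mul hpos.le]
    norm_num
    rw [Real.rpow_neg hpos.le, Real.rpow_one]
    ring
  have hc2 : c ^ 2 = 2 / π := by
    rw [hc, mul_pow, Real.sq_sqrt (by positivity)]
    rcases hs with rfl | rfl <;> norm_num
  calc ‖gradOf (crackTip a θ k s) z‖ ^ 2 = c ^ 2 * ‖D‖ ^ 2 := by
        rw [hG, Complex.sq_norm, Complex.sq_norm, Complex.normSq_apply, Complex.normSq_apply]; ring
    _ = _ := by rw [hc2, hnD]; field_simp; ring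

theorem gradOf_eq_zero_of_gradSq {u : ℂ → ℝ} {z : ℂ} (h : gradSq u z = 0) : gradOf u z = 0 := by
  unfold gradSq at h
  have h1 : fderiv ℝ u z 1 = 0 := by nlinarith [sq_nonneg (fderiv ℝ u z Complex.I)]
  have h2 : fderiv ℝ u z Complex.I = 0 := by nlinarith [sq_nonneg (fderiv ℝ u z 1)]
  simp [gradOf, h1, h2, Complex.ext_iff]

/-- The classification as used by the regularity stage. -/
theorem classSpec_of (hB : BridgeSpec) (hO : OpenClassificationSpec) (hD : DisconnectedSpec) :
    ClassSpec := by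
  intro P hmin hred hne
  obtain ⟨u, hu, hae⟩ := hB P hmin hred
  have hKo : IsOpen P.Kᶜ := P.isClosed.isOpen_compl
  have hG : P.G =ᵐ[volume.restrict P.Kᶜ] gradOf u :=
    IsSobolevOn.grad_congr hKo P.isSobolevOn
      (isSobolevOn_of_contDiffOn hKo (hu.contDiffOn 1)) (ae_restrict_of_ae hae)
  by_cases hc : IsPreconnected P.Kᶜ
  · rcases hO P.K u ⟨hu, hc⟩ with ⟨hK, -⟩ | ⟨a, θ, k, s, hs, hK, hu'⟩
    · exact absurd hK hne.ne_empty
    refine Or.inr ⟨a, Complex.exp (((θ + π : ℝ) : ℂ) * Complex.I),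
      Complex.norm_exp_ofReal_mul_I _, hK.trans (starSet_one a (θ + π)), ?_⟩
    have hgrad : ∀ᵐ z, z ∉ P.K → ‖P.G z‖ ^ 2 = 1 / (2 * π * dist z a) := by
      filter_upwards [(ae_restrict_iff' hKo.measurableSet).1 hG] with z hz hzK
      have hev : u =ᶠ[𝓝 z] crackTip a θ k s :=
        mem_of_superset (hKo.mem_nhds hzK) fun y hy => hu' y hy
      rw [hz hzK, show gradOf u z = gradOf (crackTip a θ k s) z by simp [gradOf, hev.fderiv_eq]]
      exact (crackTip_fderiv hs (hK ▸ hzK)).2
    intro r hr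
    refine ⟨?_, hgrad.mono fun z hz h => (hz h).le⟩
    have hnull : volume P.K = 0 := P.volume_eq_zero
    have hout : ∀ᵐ z, z ∉ P.K := measure_eq_zero_iff_ae_notMem.1 hnull
    set F : ℂ → ℝ≥0∞ := fun z => ENNReal.ofReal (1 / (2 * π * dist z a)) with hF
    have h1 : dball P.K P.G a r = ∫⁻ z in ball a r, F z := by
      have e : (closedBall a r \ P.K : Set ℂ) =ᵐ[volume] (ball a r : Set ℂ) := by
        refine (sdiff_null_ae_eq_self hnull).trans ?_
        refine (ae_eq_set.2 ⟨?_, ?_⟩)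
        · rw [closedBall_sdiff_ball]; exact Measure.addHaar_sphere volume a r
        · rw [sdiff_eq_empty.2 ball_subset_closedBall, measure_empty]
      rw [dball, setLIntegral_congr e]
      refine lintegral_congr_ae (ae_restrict_of_ae ?_)
      filter_upwards [hgrad, hout] with z hz hzK
      rw [hF]
      simp only
      rw [← hz hzK, ← ofReal_norm, ← ENNReal.ofReal_pow (norm_nonneg _)]
    have hin : ∀ ρ ∈ Ioo (0 : ℝ) r, ENNReal.ofReal ρ *
        ∫⁻ φ in Ioo (-π) π, F (circleMap a ρ φ) = 1 := by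
      intro ρ hρ
      have hρ0 : 0 < ρ := hρ.1
      have : ∀ φ, F (circleMap a ρ φ) = ENNReal.ofReal (1 / (2 * π * ρ)) := fun φ => by
        simp only [hF, dist_eq_norm, circleMap_sub_center, norm_circleMap_zero, abs_of_pos hρ.1]
      simp only [this, setLIntegral_const, Real.volume_Ioo]
      rw [← ENNReal.ofReal_mul (by positivity), ← ENNReal.ofReal_mul hρ.1.le,
        ← ENNReal.ofReal_one]
      congr 1
      field_simp
      ring
    rw [h1, lintegral_ball_polar (by rw [hF]; fun_prop), setLIntegral_congr_fun measurableSet_Ioo hin]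
    simp
  · obtain ⟨hflat, hK⟩ := hD P.K u hu hc
    refine Or.inl ?_
    have hzero : ∫⁻ z in P.Kᶜ, ‖P.G z‖ₑ ^ 2 = 0 := by
      refine lintegral_eq_zero_of_ae_eq_zero ?_
      filter_upwards [hG, ae_restrict_mem hKo.measurableSet] with z hz hzK
      simp [hz, gradOf_eq_zero_of_gradSq (hflat z hzK)]
    rcases hK with h | h
    · obtain ⟨a, d, hd, hs⟩ := starSet_two h
      exact ⟨a, d, hd, Or.inl hs, hzero⟩
    · obtain ⟨a, d, hd, hs⟩ := starSet_three h
      exact ⟨a, d, hd, Or.inr hs, hzero⟩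

end Vale.Agent.P128.Regularity
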