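import Vale.Agent.P128.Network.Energy
import Vale.Agent.P128.Regularity.Excess.Star
import Vale.Agent.P128.Regularity.Spec
import Vale.Agent.P128.Bridge.Sobolev
import Vale.Agent.P128.Growth

/-!
# P128 regularity R4: network competitor in a disc with at most three crossings
-/

open MeasureTheory Set Metric Filter Complex
open scoped ENNReal NNReal Topology Real RealInnerProductSpace

noncomputable section

namespace Vale.Agent.P128.Regularity

open Vale.Agent.P128.Bridge Vale.Agent.P128.Network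

variable {U K K' : Set ℂ} {u : ℂ → ℝ} {G : ℂ → ℂ} {A M Λ : ℝ} {x : ℂ} {r ρ₀ ℓ : ℝ} {t : ℕ → ℝ}
  {m n : ℕ} {S : ℕ → ℂ × ℂ} {J : ℂ → ℕ}

theorem contDiffOn_of_almostMin (h : IsAlmostMin U K u G A M Λ) : ContDiffOn ℝ 1 u (U \ K) := by
  refine (contDiffOn_succ_iff_fderiv_of_isOpen (n := 0) h.isOpen_compl).2
    ⟨fun y hy => (h.hasGrad y hy).differentiableAt.differentiableWithinAt,
      fun hn => absurd hn (by simp), ?_⟩
  rw [contDiffOn_zero]
  exact ((innerSL ℝ).continuous.comp_continuousOn h.contGrad).congr fun y hy =>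
    (h.hasGrad y hy).fderiv

theorem arc_mem (hp : IsPartition K' x r t m) (hKK : K ⊆ K') (hr : 0 ≤ r)
    (hsub : closedBall x r ⊆ U) {j : ℕ} (hj : j < m) {θ : ℝ}
    (hθ : θ ∈ Ioo (t j) (t (j + 1))) : circleMap x r θ ∈ U \ K :=
  ⟨hsub (by rw [mem_closedBall, dist_eq_norm, circleMap_norm_sub x hr]),
    fun hk => (hp.2.2 j hj).1.2.2 θ hθ (hKK hk)⟩

theorem hasDerivAt_arc (h : IsAlmostMin U K u G A M Λ) (hp : IsPartition K' x r t m)
    (hKK : K ⊆ K') (hr : 0 ≤ r) (hsub : closedBall x r ⊆ U) {j : ℕ} (hj : j < m) {θ : ℝ}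
    (hθ : θ ∈ Ioo (t j) (t (j + 1))) :
    HasDerivAt (fun s => u (circleMap x r s))
      ⟪G (circleMap x r θ), circleMap 0 r θ * I⟫ θ := by
  have := (h.hasGrad _ (arc_mem hp hKK hr hsub hj hθ)).comp_hasDerivAt θ
    (hasDerivAt_circleMap x r θ)
  simpa [Function.comp_def] using this

theorem continuousOn_circle_G (h : IsAlmostMin U K u G A M Λ) (hp : IsPartition K' x r t m)
    (hKK : K ⊆ K') (hr : 0 ≤ r) (hsub : closedBall x r ⊆ U) {j : ℕ} (hj : j < m) :
    ContinuousOn (fun θ => G (circleMap x r θ)) (Ioo (t j) (t (j + 1))) :=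
  h.contGrad.comp (continuous_circleMap x r).continuousOn
    fun _ hθ => arc_mem hp hKK hr hsub hj hθ

theorem periodic_G_sq (G : ℂ → ℂ) (x : ℂ) (r : ℝ) :
    Function.Periodic (fun θ => ‖G (circleMap x r θ)‖ ^ 2) (2 * π) :=
  fun θ => by simp only [periodic_circleMap x r θ]

/-- `∫ |G|²` over the circle, real valued. -/
def circInt (G : ℂ → ℂ) (x : ℂ) (r : ℝ) : ℝ := r * ∫ θ in (-π)..π, ‖G (circleMap x r θ)‖ ^ 2

theorem circInt_eq (G : ℂ → ℂ) (x : ℂ) (r a : ℝ) :
    r * ∫ θ in a..a + 2 * π, ‖G (circleMap x r θ)‖ ^ 2 = circInt G x r := by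
  rw [(periodic_G_sq G x r).intervalIntegral_add_eq a (-π), circInt,
    show -π + 2 * π = π by ring]

theorem circInt_nonneg (hr : 0 ≤ r) : 0 ≤ circInt G x r :=
  mul_nonneg hr (intervalIntegral.integral_nonneg (by linarith [Real.pi_pos])
    fun _ _ => sq_nonneg _)

/-- Oscillation of `u` on an arc. -/
theorem sq_sub_mid_le' (h : IsAlmostMin U K u G A M Λ) (hp : IsPartition K' x r t m)
    (hKK : K ⊆ K') (hr : 0 ≤ r) (hsub : closedBall x r ⊆ U)
    (hint : ∀ a b : ℝ, IntervalIntegrable (fun θ => ‖G (circleMap x r θ)‖ ^ 2) volume a b)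
    {j : ℕ} (hj : j < m) {θ : ℝ} (hθ : θ ∈ Ioo (t j) (t (j + 1))) :
    (u (circleMap x r θ) - mid u x r t j) ^ 2 ≤ 2 * π * r * circInt G x r := by
  have hmem : (t j + t (j + 1)) / 2 ∈ Ioo (t j) (t (j + 1)) := by
    have := (hp.2.2 j hj).1.1; constructor <;> linarith
  obtain ⟨hb0, hb1⟩ := partition_bounds hp hj
  have key : ∀ a b, a ∈ Ioo (t j) (t (j + 1)) → b ∈ Ioo (t j) (t (j + 1)) → a ≤ b →
      (u (circleMap x r b) - u (circleMap x r a)) ^ 2 ≤ 2 * π * r * circInt G x r := by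
    intro a b ha hb hab
    set F : ℝ → ℝ := fun s => ⟪G (circleMap x r s), circleMap 0 r s * I⟫
    have hsub' : uIcc a b ⊆ Ioo (t j) (t (j + 1)) := by
      rw [uIcc_of_le hab]; exact fun s hs => ⟨ha.1.trans_le hs.1, hs.2.trans_lt hb.2⟩
    have hc : ContinuousOn F (uIcc a b) :=
      (((continuousOn_circle_G h hp hKK hr hsub hj).mono hsub').inner
        (by fun_prop : ContinuousOn (fun s => circleMap 0 r s * I) (uIcc a b)))
    have hI : IntervalIntegrable F volume a b := hc.intervalIntegrable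
    rw [← intervalIntegral.integral_eq_sub_of_hasDerivAt
      (fun s hs => hasDerivAt_arc h hp hKK hr hsub hj (hsub' hs)) hI]
    refine (sq_integral_le hab hI (hc.pow 2).intervalIntegrable).trans ?_
    have hle : ∫ s in a..b, F s ^ 2 ≤
        ∫ s in t 0..t 0 + 2 * π, r ^ 2 * ‖G (circleMap x r s)‖ ^ 2 := by
      refine (intervalIntegral.integral_mono_on hab (hc.pow 2).intervalIntegrable
        ((hint _ _).const_mul _) fun s _ => ?_).trans
        (intervalIntegral.integral_mono_interval ?_ hab ?_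
          (Eventually.of_forall fun s => by positivity) ((hint _ _).const_mul _))
      · have h1 := abs_real_inner_le_norm (G (circleMap x r s)) (circleMap 0 r s * I)
        rw [norm_mul, norm_I, mul_one, norm_circleMap_zero, abs_of_nonneg hr] at h1
        calc F s ^ 2 = |F s| ^ 2 := (sq_abs _).symm
          _ ≤ (‖G (circleMap x r s)‖ * r) ^ 2 := pow_le_pow_left₀ (abs_nonneg _) h1 2
          _ = _ := by ring
      · linarith [ha.1]
      · linarith [hb.2]
    rw [intervalIntegral.integral_const_mul] at hle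
    have heq : r ^ 2 * ∫ s in t 0..t 0 + 2 * π, ‖G (circleMap x r s)‖ ^ 2 = r * circInt G x r := by
      rw [← circInt_eq G x r (t 0)]; ring
    rw [mul_assoc]
    exact mul_le_mul (by linarith [ha.1, hb.2]) (heq ▸ hle)
      (intervalIntegral.integral_nonneg hab fun s _ => sq_nonneg _) (by positivity)
  rcases le_total ((t j + t (j + 1)) / 2) θ with hle | hle
  · exact key _ _ hmem hθ hle
  · rw [sub_sq_comm]; exact key _ _ hθ hmem hle

theorem locallyLipschitz_comp' (h : IsAlmostMin U K u G A M Λ) (hp : IsPartition K' x r t m)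
    (hKK : K ⊆ K') (hsub : closedBall x r ⊆ U) (hnet : IsNet t m ℓ n S J) (hρ0 : 0 < ρ₀)
    (hρr : ρ₀ < r) :
    LocallyLipschitzOn (U \ ((K \ ball x r) ∪ (inner x ρ₀ n S ∪ spokes x r ρ₀ t m)))
      (comp u x r ρ₀ t J) := by
  intro z hz
  obtain ⟨hzU, hz⟩ := hz
  rw [mem_union, not_or] at hz
  obtain ⟨hzK, hzT⟩ := hz
  rcases lt_or_ge r ‖z - x‖ with hout | hin
  · have hzK' : z ∈ U \ K := ⟨hzU, fun hk => hzK ⟨hk, by
      rw [mem_ball, dist_eq_norm]; exact not_lt.2 hout.le⟩⟩
    obtain ⟨c, s, hs, hl⟩ := ((contDiffOn_of_almostMin h).contDiffAt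
      (h.isOpen_compl.mem_nhds hzK')).exists_lipschitzOnWith
    have hev : ∀ᶠ y in 𝓝 z, r ≤ ‖y - x‖ :=
      ((continuous_id.sub continuous_const).norm.tendsto z).eventually (eventually_ge_nhds hout)
    refine ⟨c, s ∩ {y | r ≤ ‖y - x‖}, nhdsWithin_le_nhds (inter_mem hs hev), ?_⟩
    intro a ha b hb
    rw [comp_eq_of_le hρ0 hρr ha.2, comp_eq_of_le hρ0 hρr hb.2]
    exact hl ha.1 hb.1
  rcases lt_or_ge ‖z - x‖ ρ₀ with hsmall | hbig
  · refine ⟨0, _, nhdsWithin_le_nhds (fderiv_comp_inner (u := u) hnet hρ0 hρr hp hzT hsmall), ?_⟩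
    intro a ha b hb
    simp only [mem_ofPred_eq] at ha hb
    simp [ha, hb]
  obtain ⟨j, hj, θ, hθ, hzθ⟩ := arc_of_notMem hp hρ0 hbig hin (fun h' => hzT (Or.inr h'))
  have hne : z - x ≠ 0 := by
    rw [← norm_ne_zero_iff]; linarith
  have hπ : proj x r z = circleMap x r θ := by
    rw [hzθ]; exact proj_circleMap (hρ0.trans_le hbig) hin
  have hfree : proj x r z ∈ U \ K := hπ ▸ arc_mem hp hKK (by linarith) hsub hj hθ
  set c := mid u x r t (J (pos x ρ₀ z))
  let F : ℝ × ℝ × ℂ → ℝ := fun p =>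
    c + p.1 * (u (x + ((p.2.1 / ‖p.2.2 - x‖ : ℝ) : ℂ) * (p.2.2 - x)) - c)
  let P : ℂ → ℝ × ℝ × ℂ := fun y => (wgt x ρ₀ r y, max ‖y - x‖ r, y)
  have hG : ContDiffAt ℝ 1 F (P z) := by
    have hu : ContDiffAt ℝ 1 u (proj x r z) :=
      (contDiffOn_of_almostMin h).contDiffAt (h.isOpen_compl.mem_nhds hfree)
    have hn : ContDiffAt ℝ 1 (fun p : ℝ × ℝ × ℂ => ‖p.2.2 - x‖) (P z) :=
      ContDiffAt.norm ℝ (by fun_prop) hne
    have hq : ContDiffAt ℝ 1 (fun p : ℝ × ℝ × ℂ => p.2.1 / ‖p.2.2 - x‖) (P z) :=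
      ContDiffAt.div (by fun_prop) hn (norm_ne_zero_iff.2 hne)
    have hin' : ContDiffAt ℝ 1 (fun p : ℝ × ℝ × ℂ =>
        x + ((p.2.1 / ‖p.2.2 - x‖ : ℝ) : ℂ) * (p.2.2 - x)) (P z) :=
      contDiffAt_const.add ((ofRealCLM.contDiff.contDiffAt.comp (P z) hq).mul (by fun_prop))
    exact contDiffAt_const.add (contDiffAt_fst.mul ((hu.comp (P z) hin').sub contDiffAt_const))
  obtain ⟨CG, sG, hsG, hlG⟩ := hG.exists_lipschitzOnWith
  have hlw : ∃ C, LipschitzWith C (wgt x ρ₀ r) := by
    refine ⟨_, (LipschitzWith.const_max ((LipschitzWith.const_min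
      (f := fun y : ℂ => (‖y - x‖ - ρ₀) / (r - ρ₀))
      (LipschitzWith.of_dist_le_mul (K := Real.toNNReal (r - ρ₀)⁻¹) fun a b => ?_) 1)) 0)⟩
    rw [Real.dist_eq, ← sub_div, sub_sub_sub_cancel_right, abs_div,
      abs_of_pos (by linarith : 0 < r - ρ₀), Real.coe_toNNReal _ (inv_nonneg.2 (by linarith)),
      div_eq_inv_mul]
    refine mul_le_mul_of_nonneg_left ?_ (inv_nonneg.2 (by linarith))
    rw [← Real.dist_eq]
    simpa using (lipschitzWith_norm_sub x).dist_le_mul a b
  obtain ⟨Cw, hCw⟩ := hlw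
  have hlP : LipschitzWith (max Cw (max (max 1 0) 1)) P :=
    hCw.prodMk (((lipschitzWith_norm_sub x).max (LipschitzWith.const r)).prodMk LipschitzWith.id)
  refine ⟨CG * max Cw (max (max 1 0) 1),
    (P ⁻¹' sG) ∩ {y | J (pos x ρ₀ y) = J (pos x ρ₀ z)},
    nhdsWithin_le_nhds (inter_mem (hlP.continuous.continuousAt.preimage_mem_nhds hsG)
      (index_eventually hnet hρ0 hp hzT hin)), ?_⟩
  have hcomp : LipschitzOnWith (CG * max Cw (max (max 1 0) 1)) (F ∘ P)
      ((P ⁻¹' sG) ∩ {y | J (pos x ρ₀ y) = J (pos x ρ₀ z)}) :=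
    hlG.comp hlP.lipschitzOnWith fun y hy => hy.1
  intro a ha b hb
  have e : ∀ y : ℂ, J (pos x ρ₀ y) = J (pos x ρ₀ z) → comp u x r ρ₀ t J y = (F ∘ P) y := by
    intro y hy; simp only [comp, hy]; rfl
  rw [e a ha.2, e b hb.2]
  exact hcomp ha hb

/-- The pointwise majorant in the annulus. -/
def majorG (G : ℂ → ℂ) (x : ℂ) (r ρ₀ θ : ℝ) : ℝ :=
  2 * π * r * circInt G x r / (r - ρ₀) ^ 2 + r ^ 2 / ρ₀ ^ 2 * ‖G (circleMap x r θ)‖ ^ 2

theorem majorG_nonneg (hr : 0 ≤ r) (θ : ℝ) : 0 ≤ majorG G x r ρ₀ θ := by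
  have := circInt_nonneg (G := G) (x := x) hr
  unfold majorG
  positivity

theorem gradSq_comp_le' (h : IsAlmostMin U K u G A M Λ) (hp : IsPartition K' x r t m)
    (hKK : K ⊆ K') (hsub : closedBall x r ⊆ U)
    (hint : ∀ a b : ℝ, IntervalIntegrable (fun θ => ‖G (circleMap x r θ)‖ ^ 2) volume a b)
    (hnet : IsNet t m ℓ n S J) (hρ0 : 0 < ρ₀) (hρr : ρ₀ < r) {j : ℕ} (hj : j < m) {θ ρ : ℝ}
    (hθ : θ ∈ Ioo (t j) (t (j + 1))) (hρ : ρ ∈ Ioo ρ₀ r) :
    gradSq (comp u x r ρ₀ t J) (circleMap x ρ θ) ≤ majorG G x r ρ₀ θ := by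
  have hr : 0 ≤ r := by linarith
  by_cases hd : DifferentiableAt ℝ (comp u x r ρ₀ t J) (circleMap x ρ θ)
  swap
  · rw [gradSq, fderiv_zero_of_not_differentiableAt hd]
    simpa using majorG_nonneg hr θ
  set g : ℝ → ℝ := fun s => u (circleMap x r s)
  set c := mid u x r t j
  set l : ℝ → ℝ := fun a => (a - ρ₀) / (r - ρ₀)
  set gd : ℝ := ⟪G (circleMap x r θ), circleMap 0 r θ * I⟫ with hgd
  have hr0 : 0 < r - ρ₀ := by linarith
  have hval : ∀ a ∈ Ioo ρ₀ r, ∀ s ∈ Ioo (t j) (t (j + 1)),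
      comp u x r ρ₀ t J (circleMap x a s) = c + l a * (g s - c) := by
    intro a ha s hs
    have hl : wgt x ρ₀ r (circleMap x a s) = l a := by
      rw [wgt, circleMap_norm_sub x (by linarith [ha.1]),
        min_eq_right ((div_le_one hr0).2 (by linarith [ha.2])),
        max_eq_right (div_nonneg (by linarith [ha.1]) hr0.le)]
    rw [comp, pos_circleMap hρ0 ha.1.le, hnet.arc j hj s hs,
      proj_circleMap (hρ0.trans ha.1) ha.2.le, hl]
  set D := fderiv ℝ (comp u x r ρ₀ t J) (circleMap x ρ θ) with hD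
  have hrad : D (exp (θ * I)) = (g θ - c) / (r - ρ₀) := by
    have h1 : HasDerivAt (fun a : ℝ => circleMap x a θ) (exp (θ * I)) ρ := by
      simpa [circleMap] using
        ((hasDerivAt_id ρ).ofReal_comp.mul_const (exp (θ * I))).const_add x
    have h2 := hd.hasFDerivAt.comp_hasDerivAt ρ h1
    have h3 : HasDerivAt (fun a => c + l a * (g θ - c)) ((g θ - c) / (r - ρ₀)) ρ := by
      have := ((((hasDerivAt_id ρ).sub_const ρ₀).div_const (r - ρ₀)).mul_const (g θ - c)).const_add c
      exact this.congr_deriv (by ring)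
    refine h2.unique (h3.congr_of_eventuallyEq ?_)
    filter_upwards [Ioo_mem_nhds hρ.1 hρ.2] with a ha
    exact hval a ha θ hθ
  have htan : ρ * D (exp (θ * I) * I) = l ρ * gd := by
    have h2 := hd.hasFDerivAt.comp_hasDerivAt θ (hasDerivAt_circleMap x ρ θ)
    have h3 : HasDerivAt (fun s => c + l ρ * (g s - c)) (l ρ * gd) θ :=
      (((hasDerivAt_arc h hp hKK hr hsub hj hθ).sub_const c).const_mul (l ρ)).const_add c
    have := h2.unique (h3.congr_of_eventuallyEq (by
      filter_upwards [Ioo_mem_nhds hθ.1 hθ.2] with s hs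
      exact hval ρ hρ s hs))
    rw [← this, circleMap_zero, mul_assoc, ← real_smul (x := ρ) (z := exp (θ * I) * I), map_smul,
      smul_eq_mul]
  have hA : ((g θ - c) / (r - ρ₀)) ^ 2 ≤ 2 * π * r * circInt G x r / (r - ρ₀) ^ 2 := by
    rw [div_pow]
    gcongr
    exact sq_sub_mid_le' h hp hKK hr hsub hint hj hθ
  have hgd2 : gd ^ 2 ≤ r ^ 2 * ‖G (circleMap x r θ)‖ ^ 2 := by
    have h1 := abs_real_inner_le_norm (G (circleMap x r θ)) (circleMap 0 r θ * I)
    rw [norm_mul, norm_I, mul_one, norm_circleMap_zero, abs_of_nonneg hr] at h1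
    calc gd ^ 2 = |gd| ^ 2 := (sq_abs _).symm
      _ ≤ (‖G (circleMap x r θ)‖ * r) ^ 2 := pow_le_pow_left₀ (abs_nonneg _) h1 2
      _ = _ := by ring
  have hB : D (exp (θ * I) * I) ^ 2 ≤ r ^ 2 / ρ₀ ^ 2 * ‖G (circleMap x r θ)‖ ^ 2 := by
    have hρ' : 0 < ρ := hρ0.trans hρ.1
    have hl0 : 0 ≤ l ρ := div_nonneg (by linarith [hρ.1]) hr0.le
    have hl1 : l ρ ≤ 1 := (div_le_one hr0).2 (by linarith [hρ.2])
    have heq : D (exp (θ * I) * I) = l ρ * gd / ρ := by
      rw [← htan]; field_simp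
    rw [heq, div_pow, mul_pow, div_mul_eq_mul_div]
    refine div_le_div₀ (by positivity) ?_ (by positivity)
      (pow_le_pow_left₀ hρ0.le hρ.1.le 2)
    exact (mul_le_of_le_one_left (sq_nonneg _) (pow_le_one₀ hl0 hl1)).trans hgd2
  rw [gradSq_polar _ _ θ, ← hD, hrad]
  unfold majorG
  linarith

theorem enorm_gradOf_sq (f : ℂ → ℝ) (z : ℂ) :
    ‖gradOf f z‖ₑ ^ 2 = ENNReal.ofReal (gradSq f z) := by
  rw [← ofReal_norm, ← ENNReal.ofReal_pow (norm_nonneg _), ← normSq_eq_norm_sq, normSq_apply,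
    gradSq]
  congr 1
  simp [gradOf]
  ring

theorem dirichlet_comp_le' (h : IsAlmostMin U K u G A M Λ) (hp : IsPartition K' x r t m)
    (hKK : K ⊆ K') (hsub : closedBall x r ⊆ U)
    (hint : ∀ a b : ℝ, IntervalIntegrable (fun θ => ‖G (circleMap x r θ)‖ ^ 2) volume a b)
    (hnet : IsNet t m ℓ n S J) (hρ0 : 0 < ρ₀) (hρr : ρ₀ < r) :
    ∫⁻ z in closedBall x r \ ((K \ ball x r) ∪ (inner x ρ₀ n S ∪ spokes x r ρ₀ t m)),
        ‖gradOf (comp u x r ρ₀ t J) z‖ₑ ^ 2 ≤
      ENNReal.ofReal (r * (r - ρ₀) * (2 * π * (2 * π * r * circInt G x r / (r - ρ₀) ^ 2) +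
        r * circInt G x r / ρ₀ ^ 2)) := by
  simp only [enorm_gradOf_sq]
  set v := comp u x r ρ₀ t J
  set T := inner x ρ₀ n S ∪ spokes x r ρ₀ t m with hT
  set B := closedBall x r \ ((K \ ball x r) ∪ T) with hB
  have hr : 0 < r := hρ0.trans hρr
  have hBm : MeasurableSet B := by
    have hK : MeasurableSet K := by
      have heq : K = U \ (U \ K) := (sdiff_sdiff_cancel_left h.subset).symm
      rw [heq]
      exact h.isOpen.measurableSet.diff h.isOpen_compl.measurableSet
    exact measurableSet_closedBall.diff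
      ((hK.diff measurableSet_ball).union (isClosed_segs x r ρ₀ n S t m).measurableSet)
  set bad : Set (ℝ × ℝ) := ({ρ₀, r} : Set ℝ) ×ˢ univ ∪
    univ ×ˢ {θ : ℝ | ∃ i < m, ∃ k : ℤ, θ + k * (2 * π) = t i} with hbad
  have hnull : volume bad = 0 := by
    rw [hbad, Measure.volume_eq_prod]
    refine measure_union_null ?_ ?_ <;> rw [Measure.prod_prod]
    · rw [(Set.toFinite ({ρ₀, r} : Set ℝ)).measure_zero, zero_mul]
    · rw [(countable_bad t m).measure_zero, mul_zero]
  set F : ℝ × ℝ → ℝ≥0∞ := (Ioc ρ₀ r ×ˢ univ).indicator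
    fun p => ENNReal.ofReal r * ENNReal.ofReal (majorG G x r ρ₀ p.2) with hF
  have hpt : ∀ p : ℝ × ℝ, p ∈ polarCoord.target → p ∉ bad →
      ENNReal.ofReal p.1 • B.indicator (fun z => ENNReal.ofReal (gradSq v z))
        (x + Complex.polarCoord.symm p) ≤ F p := by
    rintro ⟨ρ, θ⟩ hp0 hnb
    rw [polarCoord_target, mem_prod, mem_Ioi] at hp0
    simp only [hbad, mem_union, mem_prod, mem_insert_iff, mem_singleton_iff, mem_univ, and_true,
      true_and, not_or, mem_ofPred_eq, not_exists, not_and] at hnb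
    obtain ⟨⟨hne0, hner⟩, hgood⟩ := hnb
    rw [smul_eq_mul, polar_eq]
    dsimp only
    by_cases hmem : circleMap x ρ θ ∈ B
    swap
    · simp [indicator_of_notMem hmem]
    rw [indicator_of_mem hmem]
    have hρr' : ρ ≤ r := by
      have := hmem.1
      rwa [mem_closedBall, dist_eq_norm, circleMap_norm_sub x hp0.1.le] at this
    rcases lt_or_gt_of_ne hne0 with hlt | hgt
    · have hz : circleMap x ρ θ ∉ T := fun h' => hmem.2 (Or.inr h')
      have hev := fderiv_comp_inner (u := u) hnet hρ0 hρr hp hz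
        (show ‖circleMap x ρ θ - x‖ < ρ₀ by rw [circleMap_norm_sub x hp0.1.le]; exact hlt)
      have h0 : gradSq v (circleMap x ρ θ) = 0 := by
        simp [gradSq, v, hev.fderiv_eq]
      simp [h0]
    · obtain ⟨j, hj, k, hk⟩ := exists_arc hp θ
      have hk' : θ + k * (2 * π) ∈ Ioo (t j) (t (j + 1)) := hk.resolve_left (hgood j hj k)
      have hρm : ρ ∈ Ioo ρ₀ r := ⟨hgt, lt_of_le_of_ne hρr' hner⟩
      have hle := gradSq_comp_le' h hp hKK hsub hint hnet hρ0 hρr hj hk' hρm
      rw [circleMap_add_int] at hle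
      have hper : majorG G x r ρ₀ (θ + k * (2 * π)) = majorG G x r ρ₀ θ := by
        simp only [majorG, circleMap_add_int]
      rw [hF, indicator_of_mem (show (ρ, θ) ∈ Ioc ρ₀ r ×ˢ univ from ⟨⟨hgt, hρr'⟩, trivial⟩)]
      gcongr
      exact hper ▸ hle
  calc ∫⁻ z in B, ENNReal.ofReal (gradSq v z)
      = ∫⁻ z, B.indicator (fun z => ENNReal.ofReal (gradSq v z)) z :=
        (lintegral_indicator hBm _).symm
    _ = ∫⁻ z, B.indicator (fun z => ENNReal.ofReal (gradSq v z)) (x + z) :=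
        (lintegral_add_left_eq_self _ x).symm
    _ = ∫⁻ p in polarCoord.target, ENNReal.ofReal p.1 •
          B.indicator (fun z => ENNReal.ofReal (gradSq v z)) (x + Complex.polarCoord.symm p) :=
        (Complex.lintegral_comp_polarCoord_symm
          fun z => B.indicator (fun z => ENNReal.ofReal (gradSq v z)) (x + z)).symm
    _ ≤ ∫⁻ p in polarCoord.target, F p := by
        refine lintegral_mono_ae ?_
        filter_upwards [ae_restrict_mem polarCoord.open_target.measurableSet,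
          ae_restrict_of_ae (measure_eq_zero_iff_ae_notMem.1 hnull)] with p hp1 hp2
        exact hpt p hp1 hp2
    _ ≤ ∫⁻ p in Ioc ρ₀ r ×ˢ Ioo (-π) π,
          ENNReal.ofReal r * ENNReal.ofReal (majorG G x r ρ₀ p.2) := by
        rw [hF, setLIntegral_indicator (measurableSet_Ioc.prod MeasurableSet.univ)]
        refine lintegral_mono_set ?_
        rintro ⟨ρ, θ⟩ ⟨⟨h1, -⟩, h2⟩
        rw [polarCoord_target] at h2
        exact ⟨h1, h2.2⟩
    _ = ENNReal.ofReal (r * (r - ρ₀)) *
          ∫⁻ θ in Ioo (-π) π, ENNReal.ofReal (majorG G x r ρ₀ θ) := by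
        have hmeas : AEMeasurable (fun θ => ENNReal.ofReal (majorG G x r ρ₀ θ))
            (volume.restrict (Ioo (-π) π)) := by
          have hi : IntervalIntegrable (fun θ => majorG G x r ρ₀ θ) volume (-π) π :=
            intervalIntegrable_const.add ((hint _ _).const_mul _)
          exact ((hi.1.aestronglyMeasurable.mono_measure
            (Measure.restrict_mono Ioo_subset_Ioc_self le_rfl)).aemeasurable).ennreal_ofReal
        rw [Measure.volume_eq_prod, ← Measure.prod_restrict,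
          lintegral_prod_mul (f := fun _ : ℝ => ENNReal.ofReal r)
            (g := fun θ => ENNReal.ofReal (majorG G x r ρ₀ θ)) aemeasurable_const hmeas,
          setLIntegral_const, Real.volume_Ioc, ← ENNReal.ofReal_mul hr.le]
    _ ≤ _ := by
        have hint' : IntervalIntegrable (fun θ => majorG G x r ρ₀ θ) volume (-π) π :=
          intervalIntegrable_const.add ((hint _ _).const_mul _)
        have hπ : -π ≤ π := by linarith [Real.pi_pos]
        have hI : ∫ θ in (-π)..π, majorG G x r ρ₀ θ =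
            2 * π * (2 * π * r * circInt G x r / (r - ρ₀) ^ 2) +
              r * circInt G x r / ρ₀ ^ 2 := by
          unfold majorG
          rw [intervalIntegral.integral_add intervalIntegrable_const ((hint _ _).const_mul _),
            intervalIntegral.integral_const, intervalIntegral.integral_const_mul, smul_eq_mul,
            circInt]
          ring
        have heq : ∫⁻ θ in Ioo (-π) π, ENNReal.ofReal (majorG G x r ρ₀ θ) =
            ENNReal.ofReal (∫ θ in (-π)..π, majorG G x r ρ₀ θ) := by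
          rw [intervalIntegral.integral_of_le hπ, Measure.restrict_congr_set Ioo_ae_eq_Ioc,
            ofReal_integral_eq_lintegral_ofReal hint'.1
              (Eventually.of_forall fun θ => majorG_nonneg hr.le θ)]
        rw [heq, hI, ← ENNReal.ofReal_mul (mul_nonneg hr.le (by linarith))]

/-- Comparison with a network competitor. -/
theorem weakEnergy_le (h : IsAlmostMin U K u G A M Λ) (hp : IsPartition K' x r t m)
    (hKK : K ⊆ K') (hfin : (K ∩ sphere x r).Finite) (hsub : closedBall x r ⊆ U)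
    (hint : ∀ a b : ℝ, IntervalIntegrable (fun θ => ‖G (circleMap x r θ)‖ ^ 2) volume a b)
    (hnet : IsNet t m ℓ n S J) (hρ0 : 0 < ρ₀) (hρr : ρ₀ < r) :
    weakEnergy K G (closedBall x r) ≤ ENNReal.ofReal (ρ₀ * ℓ + m * (r - ρ₀)) +
      ENNReal.ofReal (r * (r - ρ₀) * (2 * π * (2 * π * r * circInt G x r / (r - ρ₀) ^ 2) +
        r * circInt G x r / ρ₀ ^ 2)) + ENNReal.ofReal (Λ * r ^ 2) := by
  set T := inner x ρ₀ n S ∪ spokes x r ρ₀ t m with hT
  set L := (K \ ball x r) ∪ T with hL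
  have hr : 0 < r := hρ0.trans hρr
  have hTsub : T ⊆ closedBall x r := segs_subset hρ0 hρr hnet.inDisc
  have hLU : L ⊆ U := union_subset (sdiff_subset.trans h.subset) (hTsub.trans hsub)
  have hopen : IsOpen (U \ L) := by
    have heq : U \ L = ((U \ K) ∪ (ball x r ∩ U)) \ T := by
      ext z
      simp only [hL, Set.mem_sdiff, mem_union, mem_inter_iff]
      tauto
    rw [heq]
    exact (h.isOpen_compl.union (isOpen_ball.inter h.isOpen)).sdiff
      (isClosed_segs x r ρ₀ n S t m)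
  have hLS : L \ closedBall x r = K \ closedBall x r := by
    ext z
    simp only [hL, Set.mem_sdiff, mem_union]
    constructor
    · rintro ⟨hz | hz, hn⟩
      · exact ⟨hz.1, hn⟩
      · exact absurd (hTsub hz) hn
    · rintro ⟨hz, hn⟩
      exact ⟨Or.inl ⟨hz, fun hb => hn (ball_subset_closedBall hb)⟩, hn⟩
  have hout : ∀ᵐ z ∂volume.restrict (U \ closedBall x r), comp u x r ρ₀ t J z = u z := by
    filter_upwards [ae_restrict_mem
      (h.isOpen.measurableSet.diff measurableSet_closedBall)] with z hz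
    refine comp_eq_of_le hρ0 hρr (le_of_lt ?_)
    have := hz.2
    rwa [mem_closedBall, dist_eq_norm, not_le] at this
  have hE := h.almostMin x r hr hsub L (comp u x r ρ₀ t J) (gradOf (comp u x r ρ₀ t J)) hLU hopen
    hLS (isSobolevOn_of_locallyLipschitzOn hopen
      (locallyLipschitz_comp' h hp hKK hsub hnet hρ0 hρr)) hout
  refine hE.trans (add_le_add ?_ le_rfl)
  rw [weakEnergy, add_comm]
  refine add_le_add ?_ (dirichlet_comp_le' h hp hKK hsub hint hnet hρ0 hρr)
  have hsub' : L ∩ closedBall x r ⊆ (K ∩ sphere x r) ∪ T := by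
    rintro z ⟨hz | hz, hb⟩
    · exact Or.inl ⟨hz.1, le_antisymm (mem_closedBall.1 hb) (not_lt.1 hz.2)⟩
    · exact Or.inr hz
  have : NullSingletonClass (μH[1] : Measure ℂ) :=
    Measure.nullSingletonClass_hausdorff ℂ zero_lt_one
  refine (measure_mono hsub').trans ((measure_union_le _ _).trans ?_)
  rw [hfin.measure_zero, zero_add]
  exact segs_measure hρ0.le hρr.le hnet.length

theorem sum_dist_eq (hPart : PartitionSpec) {P : Finset ℂ} (hr : 0 < r)
    (hK : K ∩ sphere x r = ↑P) (hp : IsPartition K x r t m) (a : ℂ) :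
    m = P.card ∧ r * ∑ k ∈ Finset.range m, dist (exp (t k * I)) a =
      ∑ p ∈ P, ‖p - (x + (r : ℂ) * a)‖ := by
  obtain ⟨-, hcard⟩ := hPart K x r hr (hK ▸ P.finite_toSet)
  obtain ⟨hm, hsurj⟩ := hcard t m hp
  have hm' : m = P.card := by
    rw [cnt, hK, Set.encard_coe_eq_coe_finsetCard] at hm
    exact_mod_cast hm
  have himg : (Finset.range m).image (fun k => circleMap x r (t k)) = P := by
    ext p
    simp only [Finset.mem_image, Finset.mem_range]
    constructor
    · rintro ⟨k, hk, rfl⟩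
      have : circleMap x r (t k) ∈ K ∩ sphere x r :=
        ⟨(hp.2.2 k hk).2, circleMap_mem_sphere x hr.le _⟩
      rwa [hK, Finset.mem_coe] at this
    · intro hpP
      exact hsurj p (hK.symm ▸ Finset.mem_coe.2 hpP)
  have hinj : Set.InjOn (fun k => circleMap x r (t k)) (Finset.range m : Set ℕ) :=
    Finset.injOn_of_card_image_eq (by rw [himg, Finset.card_range, hm'])
  refine ⟨hm', ?_⟩
  conv_rhs => rw [← himg, Finset.sum_image hinj]
  rw [Finset.mul_sum]
  refine Finset.sum_congr rfl fun k _ => ?_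
  rw [circleMap, add_sub_add_left_eq_sub, ← mul_sub, norm_mul, norm_real,
    Real.norm_of_nonneg hr.le, dist_eq_norm]

theorem excess : ExcessSpec := by
  refine ⟨4 * π ^ 2 + 4, by positivity, ?_⟩
  intro U K u G A M Λ h x r hr hsub P hP hcard a ha η hη
  set C : ℝ := 4 * π ^ 2 + 4 with hC
  have hη0 : 0 < η := hη.1
  have hη1 : η ≤ 1 / 4 := hη.2
  have hC3 : 3 ≤ C := by rw [hC]; nlinarith
  by_cases hfin : circleEnergy G x r = ⊤
  · rw [hfin, ENNReal.mul_top (by positivity), add_top]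
    exact le_top
  have hintG : ∀ a b : ℝ, IntervalIntegrable (fun θ => ‖G (circleMap x r θ)‖ ^ 2) volume a b := by
    have hlt : ∫⁻ θ in Ioo (-π) π, ‖G (circleMap x r θ)‖ₑ ^ 2 < ⊤ := by
      refine lt_top_iff_ne_top.2 fun htop => hfin ?_
      rw [circleEnergy, htop, ENNReal.mul_top (by positivity)]
    have hmeas : AEStronglyMeasurable (fun θ => G (circleMap x r θ))
        (volume.restrict (Ioc (-π) π)) := by
      set F := {θ : ℝ | circleMap x r θ ∈ U \ K}
      have hFo : IsOpen F := h.isOpen_compl.preimage (continuous_circleMap x r)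
      have hc : ContinuousOn (fun θ => G (circleMap x r θ)) F :=
        h.contGrad.comp (continuous_circleMap x r).continuousOn fun θ hθ => hθ
      have hnull : volume (Ioc (-π) π \ F) = 0 := by
        have hfinI : (Ico (-π) π ∩ circleMap x r ⁻¹' (↑P : Set ℂ)).Finite :=
          Set.Finite.of_finite_image (P.finite_toSet.subset (by rintro _ ⟨θ, hθ, rfl⟩; exact hθ.2))
            ((injOn_circleMap_of_abs_sub_le' hr.ne'
              (by linarith [Real.pi_pos])).mono inter_subset_left)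
        refine Set.Finite.measure_zero ((hfinI.insert π).subset ?_) _
        rintro θ ⟨hθ, hθF⟩
        rcases eq_or_lt_of_le hθ.2 with h' | h'
        · exact Or.inl h'
        refine Or.inr ⟨⟨hθ.1.le, h'⟩, ?_⟩
        show circleMap x r θ ∈ (↑P : Set ℂ)
        rw [← hP]
        refine ⟨?_, circleMap_mem_sphere x hr.le θ⟩
        by_contra hk
        exact hθF ⟨hsub (sphere_subset_closedBall (circleMap_mem_sphere x hr.le θ)), hk⟩
      have hae : (Ioc (-π) π ∩ F : Set ℝ) =ᵐ[volume] (Ioc (-π) π : Set ℝ) := by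
        rw [ae_eq_set]
        exact ⟨by simp [sdiff_eq_empty.2 (inter_subset_left (s := Ioc (-π) π) (t := F))],
          by rw [sdiff_self_inter]; exact hnull⟩
      rw [← Measure.restrict_congr_set hae]
      exact (hc.mono inter_subset_right).aestronglyMeasurable (measurableSet_Ioc.inter hFo.measurableSet)
    have hint0 : IntervalIntegrable (fun θ => ‖G (circleMap x r θ)‖ ^ 2) volume (-π) π := by
      rw [intervalIntegrable_iff_integrableOn_Ioc_of_le (by linarith [Real.pi_pos])]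
      refine ⟨(hmeas.norm.aemeasurable.pow_const 2).aestronglyMeasurable, ?_⟩
      rw [hasFiniteIntegral_iff_enorm, Measure.restrict_congr_set Ioo_ae_eq_Ioc.symm]
      refine lt_of_le_of_lt (lintegral_mono fun θ => ?_) hlt
      rw [enorm_pow, enorm_norm]
    exact fun a b => (periodic_G_sq G x r).intervalIntegrable (by positivity : (2 * π : ℝ) ≠ 0)
      (t := -π) (by rw [show -π + 2 * π = π by ring]; exact hint0) a b
  set E := circInt G x r with hE
  have hE0 : 0 ≤ E := circInt_nonneg hr.le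
  have hcE : circleEnergy G x r = ENNReal.ofReal E := by
    have hπ : -π ≤ π := by linarith [Real.pi_pos]
    rw [circleEnergy, hE, circInt, ENNReal.ofReal_mul hr.le, intervalIntegral.integral_of_le hπ,
      ofReal_integral_eq_lintegral_ofReal (hintG _ _).1 (Eventually.of_forall fun θ => sq_nonneg _),
      Measure.restrict_congr_set Ioo_ae_eq_Ioc]
    congr 1
    refine lintegral_congr fun θ => ?_
    rw [← ofReal_norm, ENNReal.ofReal_pow (norm_nonneg _)]
  have hfinK : (K ∩ sphere x r).Finite := hP ▸ P.finite_toSet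
  set ρ₀ := (1 - η) * r with hρ
  have hρ0 : 0 < ρ₀ := mul_pos (by linarith) hr
  have hρr : ρ₀ < r := by rw [hρ]; nlinarith
  set a' : ℂ := (r⁻¹ : ℝ) * (a - x) with ha'
  have ha1 : ‖a'‖ < 1 := by
    rw [mem_closedBall, dist_eq_norm] at ha
    rw [ha', norm_mul, norm_real, Real.norm_of_nonneg (by positivity), inv_mul_lt_iff₀ hr]
    linarith
  obtain ⟨K', t, m, n, S, J, ℓ, hKK, hp, hnet, hℓ, hm3, hsum⟩ :
      ∃ (K' : Set ℂ) (t : ℕ → ℝ) (m n : ℕ) (S : ℕ → ℂ × ℂ) (J : ℂ → ℕ) (ℓ : ℝ),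
        K ⊆ K' ∧ IsPartition K' x r t m ∧ IsNet t m ℓ n S J ∧ 0 ≤ ℓ ∧ m ≤ 3 ∧
          r * ℓ ≤ ∑ p ∈ P, ‖p - a‖ := by
    rcases P.eq_empty_or_nonempty with hPe | hne
    · obtain ⟨n, S, J, hnet⟩ := exists_net_one (fun k => (k : ℝ) * (2 * π))
      refine ⟨insert (circleMap x r 0) K, _, 1, n, S, J, 0, subset_insert _ _,
        ⟨one_pos, by simp, fun i hi => ?_⟩, hnet, le_rfl, by norm_num,
        by simp [Finset.sum_nonneg]⟩
      obtain rfl : i = 0 := by omega
      simp only [Nat.cast_zero, zero_mul, zero_add, Nat.cast_one, one_mul]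
      refine ⟨⟨by positivity, (zero_add _).ge, fun θ hθ hmem => ?_⟩, mem_insert _ _⟩
      rcases hmem with heq | hK
      · obtain ⟨k, hk⟩ := (circleMap_eq_circleMap_iff x hr.ne').1 heq
        have hkr : θ = k * (2 * π) := by
          have := congrArg Complex.im hk
          simpa using this
        have h1 : (0 : ℝ) < k := by nlinarith [hθ.1, Real.pi_pos]
        have h2 : (k : ℝ) < 1 := by nlinarith [hθ.2, Real.pi_pos]
        have h1' : 0 < k := by exact_mod_cast h1
        have h2' : k < 1 := by exact_mod_cast h2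
        omega
      · have : circleMap x r θ ∈ K ∩ sphere x r := ⟨hK, circleMap_mem_sphere x hr.le θ⟩
        rw [hP, hPe] at this
        simp at this
    · obtain ⟨hex, -⟩ := Vale.Agent.P128.partition K x r hr hfinK
      obtain ⟨t, m, hp⟩ := hex (hP ▸ hne)
      obtain ⟨hm, hs⟩ := sum_dist_eq Vale.Agent.P128.partition hr hP hp a'
      refine ⟨K, t, m, m, _, _, _, Subset.rfl, hp, isNet_star hp ha1,
        Finset.sum_nonneg fun _ _ => dist_nonneg, hm ▸ hcard, ?_⟩
      rw [hs, show x + (r : ℂ) * a' = a by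
        rw [ha', ← mul_assoc, ← ofReal_mul, mul_inv_cancel₀ hr.ne', ofReal_one, one_mul,
          add_sub_cancel]]
  refine (weakEnergy_le h hp hKK hfinK hsub hintG hnet hρ0 hρr).trans ?_
  have hΛ : 0 ≤ Λ * r ^ 2 :=
    mul_nonneg ((mul_nonneg h.A_nonneg h.M_nonneg).trans h.AM_le) (sq_nonneg r)
  have hP0 : 0 ≤ ∑ p ∈ P, ‖p - a‖ := Finset.sum_nonneg fun _ _ => norm_nonneg _
  rw [hcE, ← ENNReal.ofReal_mul (by positivity), add_right_comm,
    ← ENNReal.ofReal_add (by
      have : 0 ≤ r - ρ₀ := by linarith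
      positivity) hΛ]
  refine add_le_add (ENNReal.ofReal_le_ofReal ?_) (ENNReal.ofReal_le_ofReal ?_)
  · have hm' : (m : ℝ) ≤ 3 := by exact_mod_cast hm3
    have h1 : ρ₀ * ℓ ≤ r * ℓ := mul_le_mul_of_nonneg_right hρr.le hℓ
    have h2 : (m : ℝ) * (r - ρ₀) ≤ C * η * r := by
      rw [hρ, show r - (1 - η) * r = η * r by ring, mul_assoc C]
      exact mul_le_mul_of_nonneg_right (hm'.trans hC3) (by positivity)
    linarith
  · have h1η : (1 - η) ≠ 0 := by linarith
    have heq : r * (r - ρ₀) * (2 * π * (2 * π * r * E / (r - ρ₀) ^ 2) + r * E / ρ₀ ^ 2) =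
        r * E * (4 * π ^ 2 / η + η / (1 - η) ^ 2) := by
      rw [hρ, show r - (1 - η) * r = η * r by ring]
      field_simp
      ring
    have hbd : 4 * π ^ 2 / η + η / (1 - η) ^ 2 ≤ C / η := by
      have h4 : η / (1 - η) ^ 2 ≤ 4 / η := by
        rw [div_le_div_iff₀ (by positivity) hη0]
        nlinarith
      rw [hC, add_div]
      linarith
    rw [heq, show C * r / η * E = r * E * (C / η) by ring]
    exact mul_le_mul_of_nonneg_left hbd (by positivity)

end Vale.Agent.P128.Regularity
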