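import Vale.Agent.P128.Regularity.GoodRadius

/-!
# P128 regularity R5: decay of flatness in a line region
-/

open MeasureTheory Set Metric Filter
open scoped ENNReal Topology Real RealInnerProductSpace

noncomputable section

namespace Vale.Agent.P128.Regularity

open Vale.Agent.P128.Bridge

namespace LineFlatAux

/-- The two rays of a line. -/
theorem mem_starSet_two {x d w : ℂ} : w ∈ starSet 2 x d ↔ ∃ t : ℝ, w = x + t • d := by
  simp only [starSet, mem_iUnion, mem_image, mem_Ici]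
  have e1 : d * Complex.exp (((2 * π * ((1 : Fin 2) : ℕ) / (2 : ℕ) : ℝ) : ℂ) * Complex.I) = -d := by
    simp [Complex.exp_pi_mul_I]
  constructor
  · rintro ⟨k, t, ht, rfl⟩
    fin_cases k
    · exact ⟨t, by simp⟩
    · exact ⟨-t, by simpa [smul_neg, neg_smul] using congrArg (fun v => x + t • v) e1⟩
  · rintro ⟨t, rfl⟩
    rcases le_total 0 t with ht | ht
    · exact ⟨0, t, ht, by simp⟩
    · exact ⟨1, -t, neg_nonneg.2 ht, by
        have := congrArg (fun v => x + (-t) • v) e1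
        simpa [smul_neg, neg_smul] using this⟩

/-- Orthogonal coordinates along a unit vector. -/
theorem coord_sq (d v : ℂ) (hd : ‖d‖ = 1) :
    ‖v‖ ^ 2 = ⟪v, d⟫ ^ 2 + ⟪v, Complex.I * d⟫ ^ 2 := by
  have h : d.re * d.re + d.im * d.im = 1 := by
    have := Complex.sq_norm d
    rw [hd, Complex.normSq_apply] at this
    linarith
  simp only [Complex.inner, Complex.sq_norm, Complex.normSq_apply, Complex.mul_re, Complex.mul_im,
    Complex.conj_re, Complex.conj_im, Complex.I_re, Complex.I_im]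
  linear_combination (-(v.re * v.re + v.im * v.im)) * h

theorem inner_coord (d u v : ℂ) (hd : ‖d‖ = 1) :
    ⟪u, v⟫ = ⟪u, d⟫ * ⟪v, d⟫ + ⟪u, Complex.I * d⟫ * ⟪v, Complex.I * d⟫ := by
  have h : d.re * d.re + d.im * d.im = 1 := by
    have := Complex.sq_norm d
    rw [hd, Complex.normSq_apply] at this
    linarith
  simp only [Complex.inner, Complex.mul_re, Complex.mul_im, Complex.conj_re, Complex.conj_im,
    Complex.I_re, Complex.I_im]
  linear_combination (-(u.re * v.re + u.im * v.im)) * h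

theorem norm_sub_smul_le (d v : ℂ) (hd : ‖d‖ = 1) (t : ℝ) :
    ‖v - t • d‖ ≤ |⟪v, d⟫ - t| + |⟪v, Complex.I * d⟫| := by
  refine abs_le_of_sq_le_sq' ?_ (by positivity) |>.2
  rw [coord_sq d (v - t • d) hd, inner_sub_left, inner_sub_left, real_inner_smul_left,
    real_inner_smul_left, real_inner_self_eq_norm_sq, hd]
  have h0 : ⟪d, Complex.I * d⟫ = 0 := by
    simp only [Complex.inner, Complex.mul_re, Complex.mul_im, Complex.conj_re, Complex.conj_im,
      Complex.I_re, Complex.I_im]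
    ring
  rw [h0]
  nlinarith [sq_abs (⟪v, d⟫ - t), sq_abs ⟪v, Complex.I * d⟫,
    mul_nonneg (abs_nonneg (⟪v, d⟫ - t)) (abs_nonneg ⟪v, Complex.I * d⟫)]

/-- Two nearly opposite crossings: the midpoint is near the centre. -/
theorem midpoint_near {K : Set ℂ} {z p q : ℂ} {s ε : ℝ} (hs : 0 < s) (hε0 : 0 ≤ ε)
    (hε : ε ≤ 1 / 100) (hflat : Flat K 2 z s ε) (hp : p ∈ K ∩ sphere z s)
    (hq : q ∈ K ∩ sphere z s) (hpq : ⟪p - z, q - z⟫ < 0) :
    (p + q) / 2 ∈ closedBall z (s / 2) := by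
  obtain ⟨d, hd, h1, -⟩ := hflat
  obtain ⟨w₁, hw₁, hd₁⟩ := h1 p ⟨hp.1, sphere_subset_closedBall hp.2⟩
  obtain ⟨w₂, hw₂, hd₂⟩ := h1 q ⟨hq.1, sphere_subset_closedBall hq.2⟩
  obtain ⟨a, rfl⟩ := mem_starSet_two.1 hw₁
  obtain ⟨b, rfl⟩ := mem_starSet_two.1 hw₂
  rw [dist_eq_norm] at hd₁ hd₂
  have hps : ‖p - z‖ = s := by rw [← dist_eq_norm]; exact hp.2
  have hqs : ‖q - z‖ = s := by rw [← dist_eq_norm]; exact hq.2
  set e₁ := p - (z + a • d) with he₁
  set e₂ := q - (z + b • d) with he₂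
  have hp' : p - z = a • d + e₁ := by rw [he₁]; abel
  have hq' : q - z = b • d + e₂ := by rw [he₂]; abel
  have hna : ‖a • d‖ = |a| := by rw [norm_smul, hd, mul_one, Real.norm_eq_abs]
  have hnb : ‖b • d‖ = |b| := by rw [norm_smul, hd, mul_one, Real.norm_eq_abs]
  have ha : |(|a|) - s| ≤ ε * s := by
    have := abs_norm_sub_norm_le (a • d) (p - z)
    rw [hna, hps, hp', sub_add_cancel_left, norm_neg] at this
    linarith
  have hb : |(|b|) - s| ≤ ε * s := by
    have := abs_norm_sub_norm_le (b • d) (q - z)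
    rw [hnb, hqs, hq', sub_add_cancel_left, norm_neg] at this
    linarith
  rw [abs_le] at ha hb
  have hεs : ε * s ≤ s / 100 := by nlinarith
  have hsign : a * b < 0 := by
    by_contra hcon
    have hab : 0 ≤ a * b := not_lt.1 hcon
    have hbig : (s - ε * s) * (s - ε * s) ≤ a * b := by
      rw [← abs_of_nonneg hab, abs_mul]
      exact mul_le_mul (by linarith) (by linarith) (by linarith) (abs_nonneg _)
    rw [hp', hq', inner_add_left, inner_add_right, inner_add_right, real_inner_smul_left,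
      real_inner_smul_right, real_inner_self_eq_norm_sq, hd] at hpq
    have i1 : |⟪a • d, e₂⟫| ≤ |a| * (ε * s) := by
      refine (abs_real_inner_le_norm _ _).trans ?_
      rw [hna]; exact mul_le_mul_of_nonneg_left hd₂ (abs_nonneg _)
    have i2 : |⟪e₁, b • d⟫| ≤ ε * s * |b| := by
      refine (abs_real_inner_le_norm _ _).trans ?_
      rw [hnb]; exact mul_le_mul_of_nonneg_right hd₁ (abs_nonneg _)
    have i3 : |⟪e₁, e₂⟫| ≤ ε * s * (ε * s) := by
      refine (abs_real_inner_le_norm _ _).trans ?_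
      exact mul_le_mul hd₁ hd₂ (norm_nonneg _) (by positivity)
    rw [abs_le] at i1 i2 i3
    simp only [one_pow, mul_one] at hpq
    have k1 : |a| * (ε * s) ≤ (s + s / 100) * (s / 100) :=
      mul_le_mul (by linarith) hεs (by positivity) (by positivity)
    have k2 : |b| * (ε * s) ≤ (s + s / 100) * (s / 100) :=
      mul_le_mul (by linarith) hεs (by positivity) (by positivity)
    have k3 : ε * s * (ε * s) ≤ s / 100 * (s / 100) :=
      mul_le_mul hεs hεs (by positivity) (by positivity)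
    have k4 : (s - s / 100) * (s - s / 100) ≤ a * b :=
      le_trans (mul_le_mul (by linarith) (by linarith) (by linarith) (by linarith)) hbig
    linarith [mul_pos hs hs]
  have hab : |a + b| ≤ 2 * (ε * s) := by
    rcases mul_neg_iff.1 hsign with ⟨h1, h2⟩ | ⟨h1, h2⟩
    · rw [abs_of_pos h1] at ha; rw [abs_of_neg h2] at hb
      exact abs_le.2 ⟨by linarith, by linarith⟩
    · rw [abs_of_neg h1] at ha; rw [abs_of_pos h2] at hb
      exact abs_le.2 ⟨by linarith, by linarith⟩
  rw [mem_closedBall, dist_eq_norm,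
    show (p + q) / 2 - z = ((p - z) + (q - z)) / 2 by ring, norm_div,
    show ‖(2 : ℂ)‖ = 2 by simp, hp', hq',
    show a • d + e₁ + (b • d + e₂) = (a + b) • d + (e₁ + e₂) by rw [add_smul]; abel,
    div_le_iff₀ two_pos]
  refine (norm_add_le _ _).trans ?_
  rw [norm_smul, hd, mul_one, Real.norm_eq_abs]
  linarith [norm_add_le e₁ e₂]

/-- The band about a chord: `|pw| + |wq| ≤ |pq| + err` confines `w` near the line. -/
theorem band {p q w : ℂ} {err B : ℝ} (hpq : p ≠ q) (herr : ‖p - w‖ + ‖w - q‖ ≤ ‖p - q‖ + err)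
    (hB : ‖w - q‖ ≤ B) (herr0 : 0 ≤ err) :
    ⟪w - q, Complex.I * ((‖p - q‖⁻¹ : ℝ) • (p - q))⟫ ^ 2 ≤ 2 * B * err := by
  set L := ‖p - q‖
  have hL : 0 < L := norm_pos_iff.2 (sub_ne_zero.2 hpq)
  set d := (L⁻¹ : ℝ) • (p - q) with hd
  have hd1 : ‖d‖ = 1 := by
    rw [hd, norm_smul, Real.norm_eq_abs, abs_of_pos (inv_pos.2 hL)]; exact inv_mul_cancel₀ hL.ne'
  have hLd : ⟪p - q, d⟫ = L := by
    rw [hd, real_inner_smul_right, real_inner_self_eq_norm_sq]
    field_simp
    rfl
  have h1 : L - ⟪w - q, d⟫ ≤ ‖p - w‖ := by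
    rw [← hLd, ← inner_sub_left, show p - q - (w - q) = p - w by abel]
    exact (real_inner_le_norm _ _).trans (by rw [hd1, mul_one])
  have h2 : ⟪w - q, d⟫ ≤ ‖w - q‖ := (real_inner_le_norm _ _).trans (by rw [hd1, mul_one])
  have h3 : -‖w - q‖ ≤ ⟪w - q, d⟫ := by
    have := abs_real_inner_le_norm (w - q) d
    rw [hd1, mul_one, abs_le] at this
    exact this.1
  have hc := coord_sq d (w - q) hd1
  nlinarith [mul_le_mul (show ‖w - q‖ - ⟪w - q, d⟫ ≤ err by linarith)
    (show ‖w - q‖ + ⟪w - q, d⟫ ≤ 2 * B by linarith) (by linarith) herr0]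

/-- A set in a narrow band about a line through `z` which crosses every circle about `z` in two
opposite points is flat. -/
theorem flat_of_band {K : Set ℂ} {z d : ℂ} {r W ε : ℝ} (hd1 : ‖d‖ = 1) (hW0 : 0 ≤ W)
    (hε : 4 * W ≤ ε * r) (hzK : z ∈ K)
    (hrel : ∀ w ∈ K ∩ closedBall z r, |⟪w - z, Complex.I * d⟫| ≤ 2 * W)
    (hcross : ∀ t ∈ Ioc (0 : ℝ) r,
      ∃ p ∈ K ∩ sphere z t, ∃ q ∈ K ∩ sphere z t, ⟪p - z, q - z⟫ < 0) :
    Flat K 2 z r ε := by
  refine ⟨d, hd1, fun w hw => ?_, fun v hv => ?_⟩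
  · refine ⟨z + ⟪w - z, d⟫ • d, mem_starSet_two.2 ⟨_, rfl⟩, ?_⟩
    rw [dist_eq_norm, show w - (z + ⟪w - z, d⟫ • d) = (w - z) - ⟪w - z, d⟫ • d by abel]
    refine (norm_sub_smul_le d (w - z) hd1 _).trans ?_
    rw [sub_self, abs_zero, zero_add]
    exact (hrel w hw).trans (by linarith)
  · obtain ⟨t, rfl⟩ := mem_starSet_two.1 hv.1
    have htr : |t| ≤ r := by
      have := mem_closedBall.1 hv.2
      rwa [dist_eq_norm, add_sub_cancel_left, norm_smul, hd1, mul_one, Real.norm_eq_abs] at this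
    rcases le_or_gt |t| (4 * W) with ht | ht
    · refine ⟨z, hzK, ?_⟩
      rw [dist_eq_norm, sub_add_cancel_left, norm_neg, norm_smul, hd1, mul_one, Real.norm_eq_abs]
      linarith
    · obtain ⟨a, ha, b, hb, hab⟩ := hcross |t| ⟨by linarith, htr⟩
      have ha' : a ∈ K ∩ closedBall z r :=
        ⟨ha.1, mem_closedBall.2 ((mem_sphere.1 ha.2).le.trans htr)⟩
      have hb' : b ∈ K ∩ closedBall z r :=
        ⟨hb.1, mem_closedBall.2 ((mem_sphere.1 hb.2).le.trans htr)⟩
      have key : ∀ y ∈ K ∩ sphere z |t|, 0 < t * ⟪y - z, d⟫ →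
          |⟪y - z, Complex.I * d⟫| ≤ 2 * W → dist y (z + t • d) ≤ 4 * W := by
        intro y hy hsign hh
        rw [dist_eq_norm, show y - (z + t • d) = (y - z) - t • d by abel]
        refine (norm_sub_smul_le d (y - z) hd1 t).trans ?_
        have hny : ‖y - z‖ = |t| := by rw [← dist_eq_norm]; exact hy.2
        have hc := coord_sq d (y - z) hd1
        rw [hny, sq_abs] at hc
        set α := ⟪y - z, d⟫
        set η := ⟪y - z, Complex.I * d⟫
        have hsame : |α - t| = abs (|α| - |t|) := by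
          rcases (mul_pos_iff.1 hsign) with ⟨h1, h2⟩ | ⟨h1, h2⟩
          · rw [abs_of_pos h1, abs_of_pos h2]
          · rw [abs_of_neg h1, abs_of_neg h2, show -α - -t = -(α - t) by ring, abs_neg]
        have h1 : |α| ≤ |t| := sq_le_sq.1 (by linarith [sq_nonneg η])
        have h2 : |t| ≤ |α| + |η| := by
          refine (abs_le_of_sq_le_sq' ?_ (by positivity)).2
          nlinarith [sq_abs t, sq_abs α, sq_abs η, abs_nonneg α, abs_nonneg η]
        rw [hsame, abs_sub_comm, abs_of_nonneg (sub_nonneg.2 h1)]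
        linarith
      have hbig : ∀ y ∈ K ∩ sphere z |t|, |⟪y - z, Complex.I * d⟫| ≤ 2 * W →
          2 * W < |⟪y - z, d⟫| := by
        intro y hy hh
        have hny : ‖y - z‖ = |t| := by rw [← dist_eq_norm]; exact hy.2
        have hc := coord_sq d (y - z) hd1
        rw [hny] at hc
        have : |t| ≤ |⟪y - z, d⟫| + |⟪y - z, Complex.I * d⟫| := by
          refine (abs_le_of_sq_le_sq' ?_ (by positivity)).2
          nlinarith [sq_abs ⟪y - z, d⟫, sq_abs ⟪y - z, Complex.I * d⟫,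
            abs_nonneg ⟪y - z, d⟫, abs_nonneg ⟪y - z, Complex.I * d⟫]
        linarith
      have hopp : ⟪a - z, d⟫ * ⟪b - z, d⟫ < 0 := by
        rw [inner_coord d (a - z) (b - z) hd1] at hab
        by_contra hcon
        have h1 : |⟪a - z, Complex.I * d⟫ * ⟪b - z, Complex.I * d⟫| ≤
            ⟪a - z, d⟫ * ⟪b - z, d⟫ := by
          rw [abs_mul, ← abs_of_nonneg (not_lt.1 hcon), abs_mul]
          exact mul_le_mul ((hrel a ha').trans (hbig a ha (hrel a ha')).le)
            ((hrel b hb').trans (hbig b hb (hrel b hb')).le) (abs_nonneg _) (abs_nonneg _)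
        linarith [neg_le_of_abs_le h1]
      have ht0 : t ≠ 0 := fun e => by rw [e, abs_zero] at ht; linarith
      rcases lt_or_gt_of_ne (mul_ne_zero ht0 (left_ne_zero_of_mul hopp.ne)) with h1 | h1
      · have h2 : 0 < t * ⟪b - z, d⟫ := by
          rcases mul_neg_iff.1 h1 with ⟨x1, x2⟩ | ⟨x1, x2⟩ <;>
            rcases mul_neg_iff.1 hopp with ⟨y1, y2⟩ | ⟨y1, y2⟩
          · linarith
          · exact mul_pos x1 y2
          · exact mul_pos_of_neg_of_neg x1 y2
          · linarith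
        exact ⟨b, hb.1, (key b hb h2 (hrel b hb')).trans hε⟩
      · exact ⟨a, ha.1, (key a ha h1 (hrel a ha')).trans hε⟩


end LineFlatAux

open LineFlatAux

/-- R5. -/
theorem lineFlat (hT : LineTopoSpec) (hD : LineDecaySpec) (hE : ExcessSpec) : LineFlatSpec := by
  classical
  obtain ⟨ε₁, hε₁, htopo⟩ := hT
  obtain ⟨ε₂, C₁, hε₂, hC₁, hdec⟩ := hD
  obtain ⟨C₂, hC₂, hexc⟩ := hE
  set B₀ := 4 * (C₂ / 4 + 64 * C₂ * (C₁ + 1) + 4) with hB₀
  have hB₀0 : 0 < B₀ := by positivity
  set ε₀ := min (min ε₁ ε₂) (1 / 100) with hε₀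
  have hε₀0 : 0 < ε₀ := lt_min (lt_min hε₁ hε₂) (by norm_num)
  refine ⟨ε₀, 4 * Real.sqrt (10 * B₀), 1 / 8, hε₀0, by positivity, by norm_num, by norm_num, ?_⟩
  intro U K u G A M Λ h x R hL z hz r hr
  obtain ⟨hr0, hr16⟩ := hr
  have hR := hL.pos
  have hzR : z ∈ K ∩ closedBall x R :=
    ⟨hz.1, closedBall_subset_closedBall (by linarith) hz.2⟩
  have hmono1 : ε₀ ≤ ε₁ := (min_le_left _ _).trans (min_le_left _ _)
  have hmono2 : ε₀ ≤ ε₂ := (min_le_left _ _).trans (min_le_right _ _)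
  have hflat : ∀ {ε' : ℝ}, ε₀ ≤ ε' → ∀ w ∈ K ∩ closedBall x R, ∀ t ∈ Ioc (0 : ℝ) (2 * R),
      Flat K 2 w t ε' := by
    intro ε' hε' w hw t ht
    obtain ⟨⟨d, hd, h1, h2⟩, -⟩ := hL.regime w hw t ht
    have := mul_le_mul_of_nonneg_right hε' ht.1.le
    exact ⟨d, hd, fun y hy => (h1 y hy).imp fun v hv => ⟨hv.1, hv.2.trans this⟩,
      fun y hy => (h2 y hy).imp fun v hv => ⟨hv.1, hv.2.trans this⟩⟩
  have hL2 : LineHyp U K G Λ x R ε₂ := by
    refine ⟨hR, hL.mem, hL.ball_subset, hL.small.trans hmono2, fun w hw t ht => ?_⟩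
    obtain ⟨-, hH, hd1, -⟩ := hL.regime w hw t ht
    have := mul_le_mul_of_nonneg_right hmono2 ht.1.le
    exact ⟨hflat hmono2 w hw t ht, hH.trans (ENNReal.ofReal_le_ofReal (by linarith)),
      fun hne => (hd1 hne).trans (ENNReal.ofReal_le_ofReal this),
      fun he => absurd he (by norm_num)⟩
  have hball : ∀ t ≤ 2 * R, closedBall z t ⊆ U := fun t ht => by
    refine fun y hy => hL.ball_subset (mem_closedBall.2 ((dist_triangle y z x).trans ?_))
    linarith [mem_closedBall.1 hy, mem_closedBall.1 hz.2]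
  have hclosed : IsClosed (K ∩ closedBall x (3 * R)) :=
    (h.isCompact_inter ((closedBall_subset_closedBall (by linarith)).trans hL.ball_subset)).isClosed
  have hfinH : μH[1] (K ∩ closedBall x (3 * R)) < ⊤ :=
    lt_of_le_of_lt le_add_self (h.finite _ (isCompact_closedBall x (3 * R))
      ((closedBall_subset_closedBall (by linarith)).trans hL.ball_subset))
  have topo := htopo K x R hR hL.mem hclosed hfinH (hflat hmono1) z hz
  have htwo : ∀ s ∈ Ioo (0 : ℝ) (4 * r), 2 ≤ (K ∩ sphere z s).encard := by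
    intro s hs
    obtain ⟨⟨p, hp, q, hq, hpq⟩, -⟩ := topo s ⟨hs.1, by linarith [hs.2]⟩
    have hne : p ≠ q := fun e => by
      rw [e] at hpq; linarith [real_inner_self_nonneg (x := q - z)]
    rw [← encard_pair hne]
    exact encard_le_encard (by rintro y (rfl | rfl) <;> assumption)
  have hρ : 0 < r / R := div_pos hr0 hR
  have hρ1 : r / R ≤ 1 := (div_le_one hR).2 (by linarith)
  set D := 8 * (C₁ + 1) * r * Real.sqrt (r / R) with hDdef
  have hD0 : 0 < D := by positivity
  have hdb : dball K G z (4 * r) ≤ ENNReal.ofReal D := by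
    refine (hdec U K u G A M Λ h x R hL2 z hz (4 * r) ⟨by positivity, by linarith⟩).trans
      (ENNReal.ofReal_le_ofReal ?_)
    rw [show 4 * r / R = 4 * (r / R) by ring, Real.sqrt_mul (by norm_num),
      show Real.sqrt 4 = 2 by rw [show (4 : ℝ) = 2 ^ 2 by norm_num, Real.sqrt_sq two_pos.le], hDdef]
    nlinarith [mul_nonneg hr0.le (Real.sqrt_nonneg (r / R))]
  have hH : μH[1] (K ∩ closedBall z (4 * r)) ≤ ENNReal.ofReal (17 / 2 * r) := by
    refine (hL.regime z hzR (4 * r) ⟨by positivity, by linarith⟩).2.1.trans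
      (ENNReal.ofReal_le_ofReal ?_)
    have : ε₀ ≤ 1 / 100 := min_le_right _ _
    push_cast
    nlinarith
  obtain ⟨s, hs, hcard, hsE⟩ :=
    Radius.exists_two_crossings h hr0 (hball _ (by linarith)) hD0 hdb hH htwo
  have hs0 : 0 < s := lt_trans (by linarith) hs.1
  obtain ⟨⟨p, hp, q, hq, hpq⟩, hsep⟩ := topo s ⟨hs0, by linarith [hs.2]⟩
  have hne : p ≠ q := fun e => by
    rw [e] at hpq; linarith [real_inner_self_nonneg (x := q - z)]
  have hset : K ∩ sphere z s = {p, q} := by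
    refine (Set.Finite.eq_of_subset_of_encard_le (toFinite {p, q})
      (by rintro y (rfl | rfl) <;> assumption) ?_).symm
    rw [hcard, encard_pair hne]
  obtain ⟨-, hlow⟩ := hsep p q hne hset
  -- the excess
  set κ := (r / R) ^ ((1 : ℝ) / 4) with hκ
  have hκ0 : 0 < κ := Real.rpow_pos_of_pos hρ _
  have hκ1 : κ ≤ 1 := Real.rpow_le_one hρ.le hρ1 (by norm_num)
  have hκ2 : Real.sqrt (r / R) = κ ^ 2 := by
    rw [hκ, ← Real.rpow_natCast, ← Real.rpow_mul hρ.le, Real.sqrt_eq_rpow]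
    norm_num
  have hρκ : r / R ≤ κ := by
    calc r / R = (r / R) ^ (1 : ℝ) := (Real.rpow_one _).symm
      _ ≤ κ := Real.rpow_le_rpow_of_exponent_ge hρ hρ1 (by norm_num)
  have hmid := midpoint_near hs0 hε₀0.le (min_le_right _ _)
    (hflat le_rfl z hzR s ⟨hs0, by linarith [hs.2]⟩) hp hq hpq
  have hmain := hexc U K u G A M Λ h z s hs0 (hball s (by linarith [hs.2])) {p, q}
    (by simp [hset]) (by simp [hne]) ((p + q) / 2) hmid (κ / 4)
    ⟨by positivity, by linarith⟩
  have hsum : ∑ y ∈ ({p, q} : Finset ℂ), ‖y - (p + q) / 2‖ = ‖p - q‖ := by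
    rw [Finset.sum_pair hne, show p - (p + q) / 2 = (p - q) / 2 by ring,
      show q - (p + q) / 2 = -((p - q) / 2) by ring, norm_neg, norm_div,
      show ‖(2 : ℂ)‖ = 2 by simp]
    ring
  rw [hsum] at hmain
  set err := B₀ * r * κ with herr
  have hΛ0 := h.Lambda_nonneg
  have hHs : μH[1] (K ∩ closedBall z s) ≤ ENNReal.ofReal (‖p - q‖ + err) := by
    refine (le_add_self.trans hmain).trans ((add_le_add le_rfl (mul_le_mul_right hsE _)).trans ?_)
    rw [← ENNReal.ofReal_mul (by positivity), ← ENNReal.ofReal_add (by positivity) (by positivity)]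
    refine ENNReal.ofReal_le_ofReal ?_
    have e1 : C₂ * s / (κ / 4) * (2 * D / r) = 64 * C₂ * (C₁ + 1) * s * κ := by
      rw [hDdef, hκ2]; field_simp; ring
    rw [e1, herr, hB₀]
    have h2 : Λ * s ^ 2 ≤ s * (4 * κ) := by
      have hΛR : Λ * R ≤ 1 := hL.small.trans ((min_le_right _ _).trans (by norm_num))
      calc Λ * s ^ 2 = Λ * R * (s * (s / R)) := by field_simp
        _ ≤ 1 * (s * (4 * κ)) := by
            refine mul_le_mul hΛR (mul_le_mul_of_nonneg_left ?_ hs0.le) (by positivity) zero_le_one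
            calc s / R ≤ 4 * r / R := by gcongr; exact hs.2.le
              _ ≤ 4 * κ := by rw [mul_div_assoc]; exact mul_le_mul_of_nonneg_left hρκ (by norm_num)
        _ = s * (4 * κ) := one_mul _
    have h3 : s * (C₂ / 4 + 64 * C₂ * (C₁ + 1) + 4) * κ ≤
        4 * r * (C₂ / 4 + 64 * C₂ * (C₁ + 1) + 4) * κ := by
      gcongr
      exact hs.2.le
    linarith
  set d := (‖p - q‖⁻¹ : ℝ) • (p - q) with hd
  have hd1 : ‖d‖ = 1 := by
    have : 0 < ‖p - q‖ := norm_pos_iff.2 (sub_ne_zero.2 hne)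
    rw [hd, norm_smul, Real.norm_eq_abs, abs_of_pos (inv_pos.2 this), inv_mul_cancel₀ this.ne']
  set W := r * Real.sqrt (10 * B₀) * (r / R) ^ ((1 : ℝ) / 8) with hW
  have hW0 : 0 ≤ W := by positivity
  have hband : ∀ w ∈ K ∩ closedBall z r, |⟪w - q, Complex.I * d⟫| ≤ W := by
    intro w hw
    have hw2 : w ∈ K ∩ closedBall z (s / 2) :=
      ⟨hw.1, closedBall_subset_closedBall (by linarith [hs.1]) hw.2⟩
    have h1 := (ENNReal.ofReal_le_ofReal_iff (by positivity)).1 ((hlow w hw2).trans hHs)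
    have hwq : ‖w - q‖ ≤ 5 * r := by
      rw [← dist_eq_norm]
      have := mem_closedBall.1 hw.2
      have := mem_sphere.1 hq.2
      linarith [dist_triangle w z q, dist_comm z q, hs.2]
    have h2 := band hne h1 hwq (by positivity)
    refine abs_le_of_sq_le_sq (h2.trans (le_of_eq ?_)) hW0
    rw [herr, hW, hκ, mul_pow, mul_pow, Real.sq_sqrt (by positivity), ← Real.rpow_natCast
      ((r / R) ^ ((1 : ℝ) / 8)), ← Real.rpow_mul hρ.le]
    norm_num
    ring
  have hzz : |⟪z - q, Complex.I * d⟫| ≤ W := hband z ⟨hz.1, mem_closedBall_self hr0.le⟩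
  have hrel : ∀ w ∈ K ∩ closedBall z r, |⟪w - z, Complex.I * d⟫| ≤ 2 * W := fun w hw => by
    rw [show w - z = (w - q) - (z - q) by abel, inner_sub_left]
    exact (abs_sub _ _).trans (by linarith [hband w hw])
  have hε : 4 * W ≤ 4 * Real.sqrt (10 * B₀) * (r / R) ^ ((1 : ℝ) / 8) * r := by
    rw [hW]; exact le_of_eq (by ring)
  exact flat_of_band hd1 hW0 hε hz.1 hrel fun t ht => (topo t ⟨ht.1, by linarith [ht.2]⟩).1

end Vale.Agent.P128.Regularity
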