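import Vale.Agent.P128.Regularity.Spec

/-!
# P128 regularity R2: topology of bilaterally flat sets

No arcs are used. Two points of `K` lie in one connected piece of a convex neighbourhood of them,
since in a closed splitting the nearest pair would have a point of `K` near its midpoint. Flatness
gives directions at dyadic scales which are oriented coherently from the top scale down; they define
the two sides of `K` in a disc and, at a point `w`, the points of `K` before and after `w`.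
-/

open MeasureTheory Set Metric Filter
open scoped ENNReal Topology Real RealInnerProductSpace ComplexConjugate

noncomputable section

namespace Vale.Agent.P128.Regularity.LineTopo

/-! ## Coordinates along and normal to a direction -/

/-- The coordinate along `d`. -/
def al (d y : ℂ) : ℝ := (y * conj d).re

/-- The coordinate normal to `d`. -/
def nr (d y : ℂ) : ℝ := (y * conj d).im

variable {d e y z : ℂ}

theorem al_sub (d y z : ℂ) : al d (y - z) = al d y - al d z := by simp [al, sub_mul]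

theorem nr_sub (d y z : ℂ) : nr d (y - z) = nr d y - nr d z := by simp [nr, sub_mul]

theorem al_sub_left (d e y : ℂ) : al (d - e) y = al d y - al e y := by simp [al, mul_sub]

theorem nr_sub_left (d e y : ℂ) : nr (d - e) y = nr d y - nr e y := by simp [nr, mul_sub]

theorem al_neg_left (d y : ℂ) : al (-d) y = -al d y := by simp [al]

theorem nr_neg_left (d y : ℂ) : nr (-d) y = -nr d y := by simp [nr]

theorem al_neg (d y : ℂ) : al d (-y) = -al d y := by simp [al]

theorem nr_smul (d y : ℂ) (t : ℝ) : nr d (t • y) = t * nr d y := by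
  simp [nr, Complex.real_smul, mul_assoc]

theorem al_smul (d y : ℂ) (t : ℝ) : al d (t • y) = t * al d y := by
  simp [al, Complex.real_smul, mul_assoc]

theorem abs_al_le (d y : ℂ) : |al d y| ≤ ‖y‖ * ‖d‖ :=
  (Complex.abs_re_le_norm _).trans (by rw [norm_mul, Complex.norm_conj])

theorem abs_nr_le (d y : ℂ) : |nr d y| ≤ ‖y‖ * ‖d‖ :=
  (Complex.abs_im_le_norm _).trans (by rw [norm_mul, Complex.norm_conj])

theorem mul_conj_unit (hd : ‖d‖ = 1) : d * conj d = 1 := by
  rw [Complex.mul_conj']; simp [hd]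

theorem al_self (hd : ‖d‖ = 1) : al d d = 1 := by simp [al, mul_conj_unit hd]

theorem nr_self (hd : ‖d‖ = 1) : nr d d = 0 := by simp [nr, mul_conj_unit hd]

theorem norm_sq_eq (hd : ‖d‖ = 1) (y : ℂ) : ‖y‖ ^ 2 = al d y ^ 2 + nr d y ^ 2 := by
  have h : ‖y * conj d‖ = ‖y‖ := by rw [norm_mul, Complex.norm_conj, hd, mul_one]
  rw [← h, Complex.sq_norm, Complex.normSq_apply, al, nr]; ring

theorem norm_le_abs_add (hd : ‖d‖ = 1) (y : ℂ) : ‖y‖ ≤ |al d y| + |nr d y| := by
  have h : ‖y * conj d‖ = ‖y‖ := by rw [norm_mul, Complex.norm_conj, hd, mul_one]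
  rw [← h]; exact Complex.norm_le_abs_re_add_abs_im _

theorem norm_sub_al (hd : ‖d‖ = 1) (y : ℂ) : ‖y - al d y • d‖ ≤ |nr d y| := by
  refine (norm_le_abs_add hd _).trans ?_
  rw [al_sub, nr_sub, al_smul, nr_smul, al_self hd, nr_self hd]
  simp

theorem inner_eq (hd : ‖d‖ = 1) (y z : ℂ) :
    ⟪y, z⟫ = al d y * al d z + nr d y * nr d z := by
  have h : d.re ^ 2 + d.im ^ 2 = 1 := by
    have := Complex.sq_norm d
    rw [hd, Complex.normSq_apply] at this
    linarith
  simp only [Complex.inner, al, nr, Complex.mul_re, Complex.mul_im, Complex.conj_re, Complex.conj_im]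
  linear_combination (-(z.re * y.re) - z.im * y.im) * h

theorem close_of_nr (hd : ‖d‖ = 1) (he : ‖e‖ = 1) {s : ℝ} (h : |nr d e| ≤ s) (ha : 0 ≤ al d e) :
    ‖e - d‖ ≤ 2 * s := by
  refine (norm_le_abs_add hd _).trans ?_
  rw [al_sub, nr_sub, al_self hd, nr_self hd, sub_zero]
  have h1 := norm_sq_eq hd e
  rw [he] at h1
  have h2 := sq_abs (nr d e)
  have h3 : |nr d e| ≤ 1 := (abs_nr_le d e).trans_eq (by rw [hd, he, one_mul])
  have h4 : |al d e - 1| ≤ |nr d e| := by
    rw [abs_le]; constructor <;> nlinarith [abs_nonneg (nr d e)]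
  linarith

/-- `e`, turned to the side of `d`. -/
def orient (d e : ℂ) : ℂ := if 0 ≤ al d e then e else -e

theorem orient_al (d e : ℂ) : 0 ≤ al d (orient d e) := by
  unfold orient; split_ifs with h
  · exact h
  · rw [al_neg]; linarith

theorem pos_iff_of_near {u v m : ℝ} (hu : m ≤ |u|) (h : |v - u| < m) : 0 < u ↔ 0 < v := by
  rw [abs_lt] at h
  rcases abs_cases u with ⟨hu', hu''⟩ | ⟨hu', hu''⟩ <;> constructor <;> intro <;> linarith

/-! ## Lines at a scale -/

/-- `K` is `ε s`-close to the line of direction `d` through `a` in the disc of radius `s`. -/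
def Line (K : Set ℂ) (a : ℂ) (s ε : ℝ) (d : ℂ) : Prop :=
  ‖d‖ = 1 ∧ (∀ y ∈ K, dist y a ≤ s → |nr d (y - a)| ≤ ε * s) ∧
    ∀ t : ℝ, |t| ≤ s → ∃ y ∈ K, dist y (a + t • d) ≤ ε * s

variable {K : Set ℂ} {a b : ℂ} {s s' ε : ℝ}

theorem mem_starSet_two {x w : ℂ} : w ∈ starSet 2 x d ↔ ∃ t : ℝ, w = x + t • d := by
  simp only [starSet, mem_iUnion, mem_image, mem_Ici, Fin.exists_fin_two]
  have e0 : Complex.exp (((2 * π * ((0 : Fin 2) : ℕ) / (2 : ℕ) : ℝ) : ℂ) * Complex.I) = 1 := by
    simp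
  have e1 : Complex.exp (((2 * π * ((1 : Fin 2) : ℕ) / (2 : ℕ) : ℝ) : ℂ) * Complex.I) = -1 := by
    simp [show (2 * π / 2 : ℝ) = π by ring, Complex.exp_pi_mul_I]
  rw [e0, e1]
  constructor
  · rintro (⟨t, -, rfl⟩ | ⟨t, -, rfl⟩)
    · exact ⟨t, by simp⟩
    · exact ⟨-t, by simp⟩
  · rintro ⟨t, rfl⟩
    rcases le_total 0 t with h | h
    · exact Or.inl ⟨t, h, by simp⟩
    · exact Or.inr ⟨-t, by linarith, by simp⟩

theorem exists_line (h : Flat K 2 a s ε) : ∃ d, Line K a s ε d := by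
  obtain ⟨d, hd, h1, h2⟩ := h
  refine ⟨d, hd, fun y hy hys => ?_, fun t ht => ?_⟩
  · obtain ⟨w, hw, hwy⟩ := h1 y ⟨hy, mem_closedBall.2 hys⟩
    obtain ⟨t, rfl⟩ := mem_starSet_two.1 hw
    have := abs_nr_le d (y - (a + t • d))
    rw [hd, mul_one, ← dist_eq_norm, show y - (a + t • d) = (y - a) - t • d by ring, nr_sub,
      nr_smul, nr_self hd, mul_zero, sub_zero] at this
    exact this.trans hwy
  · have hm : a + t • d ∈ closedBall a s := by
      simpa [dist_eq_norm, norm_smul, hd] using ht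
    obtain ⟨y, hy, hyt⟩ := h2 _ ⟨mem_starSet_two.2 ⟨t, rfl⟩, hm⟩
    exact ⟨y, hy, hyt⟩

theorem Line.neg (h : Line K a s ε d) : Line K a s ε (-d) := by
  refine ⟨by rw [norm_neg]; exact h.1, fun y hy hys => ?_, fun t ht => ?_⟩
  · rw [nr_neg_left, abs_neg]; exact h.2.1 y hy hys
  · simpa using h.2.2 (-t) (by rwa [abs_neg])

theorem Line.orient {c : ℂ} (h : Line K a s ε d) : Line K a s ε (LineTopo.orient c d) := by
  unfold LineTopo.orient; split_ifs
  · exact h
  · exact h.neg

theorem tilt (hd : Line K a s ε d) (he : Line K b s' ε e) (hb : b ∈ K) (hs' : 0 < s')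
    (hε : 0 ≤ ε) (h : dist b a + (1 / 4 + ε) * s' ≤ s) :
    |nr d e| ≤ 4 * ε + 8 * ε * (s / s') := by
  obtain ⟨y, hy, hyd⟩ := he.2.2 (s' / 4) (by rw [abs_of_pos (by linarith)]; linarith)
  have h1 : dist (b + (s' / 4) • e) b = s' / 4 := by
    simp [dist_eq_norm, he.1, abs_of_pos hs']
  have hys : dist y a ≤ s := by
    linarith [dist_triangle y (b + (s' / 4) • e) a, dist_triangle (b + (s' / 4) • e) b a]
  have hba : dist b a ≤ s := by nlinarith
  have h2 := abs_nr_le d (y - (b + (s' / 4) • e))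
  rw [hd.1, mul_one, ← dist_eq_norm,
    show y - (b + (s' / 4) • e) = (y - a) - (b - a) - (s' / 4) • e by ring, nr_sub, nr_sub,
    nr_smul] at h2
  have h2' := abs_le.1 (h2.trans hyd)
  have h3 := abs_le.1 (hd.2.1 y hy hys)
  have h4 := abs_le.1 (hd.2.1 b hb hba)
  have key : s' * |nr d e| ≤ 4 * ε * s' + 8 * ε * s := by
    rw [← abs_of_pos hs', ← abs_mul, abs_of_pos hs', abs_le]
    constructor <;> linarith
  rw [show 4 * ε + 8 * ε * (s / s') = (4 * ε * s' + 8 * ε * s) / s' by field_simp,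
    le_div_iff₀ hs']
  linarith

/-! ## Coherent directions -/

/-- A direction of `K` at `a` at scale `s`. -/
def dir (K : Set ℂ) (a : ℂ) (s ε : ℝ) : ℂ :=
  Classical.epsilon fun d => Line K a s ε d

/-- The dyadic scales. -/
def sc (r : ℝ) (k : ℕ) : ℝ := 2 * r / 2 ^ k

/-- The direction at `z` at the top scale. -/
def top (K : Set ℂ) (z : ℂ) (r ε : ℝ) : ℂ := dir K z (4 * sc r 0) ε

/-- The directions at dyadic scales, each turned to the side of the previous one. -/
def dirs (K : Set ℂ) (z : ℂ) (r ε : ℝ) : ℕ → ℂ → ℂ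
  | 0, a => orient (top K z r ε) (dir K a (4 * sc r 0) ε)
  | k + 1, a => orient (dirs K z r ε k a) (dir K a (4 * sc r (k + 1)) ε)

/-- The hypotheses in one disc. -/
structure Ctx (K : Set ℂ) (z : ℂ) (r ε : ℝ) : Prop where
  r_pos : 0 < r
  eps_pos : 0 < ε
  eps_le : ε ≤ 1 / 10000
  mem : z ∈ K
  compact : IsCompact (K ∩ closedBall z (4 * r))
  flat : ∀ a ∈ K, dist a z ≤ 2 * r → ∀ t : ℝ, 0 < t → t ≤ 8 * r → Flat K 2 a t ε

variable {r : ℝ}

theorem sc_pos (hr : 0 < r) (k : ℕ) : 0 < sc r k := by unfold sc; positivity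

theorem sc_zero (r : ℝ) : sc r 0 = 2 * r := by simp [sc]

theorem sc_succ (r : ℝ) (k : ℕ) : sc r (k + 1) = sc r k / 2 := by
  simp [sc, pow_succ]; ring

theorem sc_le_zero (hr : 0 < r) (k : ℕ) : sc r k ≤ 2 * r :=
  div_le_self (by linarith) (one_le_pow₀ one_le_two)

theorem exists_sc {c δ : ℝ} (hδ : 0 < δ) (h : δ ≤ c * (2 * r)) :
    ∃ k, c * sc r k / 2 < δ ∧ δ ≤ c * sc r k := by
  obtain ⟨k, h1, h2⟩ := exists_nat_pow_near (x := c * (2 * r) / δ) (y := (2 : ℝ))
    (by rwa [le_div_iff₀ hδ, one_mul]) one_lt_two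
  refine ⟨k, ?_, ?_⟩
  · rw [div_lt_iff₀ hδ, pow_succ] at h2
    unfold sc
    rw [mul_div_assoc', div_div, div_lt_iff₀ (by positivity)]
    linarith
  · rw [le_div_iff₀ hδ] at h1
    unfold sc
    rw [mul_div_assoc', le_div_iff₀ (by positivity)]
    linarith

theorem index_le (hr : 0 < r) {k k' : ℕ} (h : sc r k / 16 ≤ sc r k') : k' ≤ k + 4 := by
  by_contra! hk
  have h1 : (2 : ℝ) ^ (k + 5) ≤ 2 ^ k' := pow_le_pow_right₀ one_le_two hk
  have h2 : sc r k' ≤ sc r (k + 5) := by
    unfold sc; gcongr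
  have h3 : sc r (k + 5) = sc r k / 32 := by simp [sc, pow_add]; ring
  linarith [sc_pos hr k]

namespace Ctx

variable (C : Ctx K z r ε)
include C

theorem line_dir (ha : a ∈ K) (hz : dist a z ≤ 2 * r) (k : ℕ) :
    Line K a (4 * sc r k) ε (dir K a (4 * sc r k) ε) :=
  Classical.epsilon_spec (exists_line (C.flat a ha hz _ (by linarith [sc_pos C.r_pos k])
    (by linarith [sc_le_zero C.r_pos k])))

theorem mem_self : dist z z ≤ 2 * r := by simpa using C.r_pos.le

theorem line_top : Line K z (8 * r) ε (top K z r ε) := by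
  have := C.line_dir C.mem C.mem_self 0
  rwa [sc_zero, show 4 * (2 * r) = 8 * r by ring, show dir K z (8 * r) ε = top K z r ε by
    rw [top, sc_zero, show 4 * (2 * r) = 8 * r by ring]] at this

theorem top_unit : ‖top K z r ε‖ = 1 := C.line_top.1

theorem line_dirs (ha : a ∈ K) (hz : dist a z ≤ 2 * r) :
    ∀ k, Line K a (4 * sc r k) ε (dirs K z r ε k a)
  | 0 => by rw [dirs]; exact (C.line_dir ha hz 0).orient
  | k + 1 => by rw [dirs]; exact (C.line_dir ha hz (k + 1)).orient

theorem dirs_top : dirs K z r ε 0 z = top K z r ε := by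
  rw [dirs, show dir K z (4 * sc r 0) ε = top K z r ε from rfl, orient,
    if_pos (by rw [al_self C.top_unit]; norm_num)]

theorem top_close (ha : a ∈ K) (hz : dist a z ≤ 2 * r) :
    ‖dirs K z r ε 0 a - top K z r ε‖ ≤ 24 * ε := by
  have h := C.line_dirs ha hz 0
  rw [sc_zero] at h
  have hr := C.r_pos
  have ht := tilt C.line_top h ha (by linarith) C.eps_pos.le (by nlinarith [C.eps_le])
  rw [show 8 * r / (4 * (2 * r)) = 1 by field_simp; norm_num] at ht
  refine (close_of_nr C.top_unit h.1 ht ?_).trans (by linarith [C.eps_pos])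
  rw [dirs]; exact orient_al _ _

theorem step_close (ha : a ∈ K) (hz : dist a z ≤ 2 * r) (k : ℕ) :
    ‖dirs K z r ε (k + 1) a - dirs K z r ε k a‖ ≤ 40 * ε := by
  have hk := sc_pos C.r_pos k
  have h1 := C.line_dirs ha hz k
  have h2 := C.line_dirs ha hz (k + 1)
  have ht := tilt h1 h2 ha (by linarith [sc_pos C.r_pos (k + 1)]) C.eps_pos.le (by
    rw [dist_self, sc_succ]; nlinarith [C.eps_le])
  rw [sc_succ, show 4 * sc r k / (4 * (sc r k / 2)) = 2 by field_simp] at ht
  refine (close_of_nr h1.1 h2.1 ht ?_).trans (by linarith [C.eps_pos])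
  rw [dirs]; exact orient_al _ _

theorem chain_close (ha : a ∈ K) (hz : dist a z ≤ 2 * r) (k : ℕ) :
    ∀ j : ℕ, ‖dirs K z r ε (k + j) a - dirs K z r ε k a‖ ≤ 40 * ε * j
  | 0 => by simp
  | j + 1 => by
    rw [← Nat.add_assoc]
    push_cast
    linarith [norm_sub_le_norm_sub_add_norm_sub (dirs K z r ε (k + j + 1) a)
      (dirs K z r ε (k + j) a) (dirs K z r ε k a), C.step_close ha hz (k + j),
      chain_close ha hz k j]

theorem pair_close (ha : a ∈ K) (hza : dist a z ≤ 2 * r) (hb : b ∈ K) (hzb : dist b z ≤ 2 * r) :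
    ∀ k, dist b a ≤ 2 * sc r k → ‖dirs K z r ε k b - dirs K z r ε k a‖ ≤ 24 * ε := by
  have key : ∀ k, dist b a ≤ 2 * sc r k →
      ‖dirs K z r ε k b - dirs K z r ε k a‖ ≤ 200 * ε →
      ‖dirs K z r ε k b - dirs K z r ε k a‖ ≤ 24 * ε := by
    intro k hk hc
    have h1 := C.line_dirs ha hza k
    have h2 := C.line_dirs hb hzb k
    have hs := sc_pos C.r_pos k
    have ht := tilt h1 h2 hb (by linarith) C.eps_pos.le (by nlinarith [C.eps_le])
    rw [div_self (by positivity : (4 : ℝ) * sc r k ≠ 0)] at ht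
    refine (close_of_nr h1.1 h2.1 ht ?_).trans (by linarith [C.eps_pos])
    have := (abs_le.1 (abs_al_le (dirs K z r ε k a)
      (dirs K z r ε k b - dirs K z r ε k a))).1
    rw [h1.1, mul_one, al_sub, al_self h1.1] at this
    linarith [C.eps_le]
  intro k
  induction k with
  | zero =>
    intro hk
    refine key 0 hk ?_
    have h := C.top_close ha hza
    rw [norm_sub_rev] at h
    linarith [norm_sub_le_norm_sub_add_norm_sub (dirs K z r ε 0 b) (top K z r ε)
      (dirs K z r ε 0 a), C.top_close hb hzb, C.eps_pos]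
  | succ k ih =>
    intro hk
    refine key (k + 1) hk ?_
    have h0 := ih (by linarith [sc_succ r k, sc_pos C.r_pos k])
    have h := C.step_close ha hza k
    rw [norm_sub_rev] at h
    linarith [norm_sub_le_norm_sub_add_norm_sub (dirs K z r ε (k + 1) b) (dirs K z r ε k b)
      (dirs K z r ε (k + 1) a), norm_sub_le_norm_sub_add_norm_sub (dirs K z r ε k b)
      (dirs K z r ε k a) (dirs K z r ε (k + 1) a), C.step_close hb hzb k, C.eps_pos]

theorem band (hb : b ∈ K) (h : dist b z ≤ 8 * r) : |nr (top K z r ε) (b - z)| ≤ 8 * ε * r := by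
  linarith [C.line_top.2.1 b hb h]

/-! ## Connected pieces -/

/-- A connected piece of `K` between two points, inside a slightly enlarged convex set. -/
theorem joined (he : ‖e‖ = 1) {ρ c : ℝ} (ha : a ∈ K) (hb : b ∈ K) (haρ : dist a z ≤ ρ)
    (hbρ : dist b z ≤ ρ) (hac : c ≤ al e (a - z)) (hbc : c ≤ al e (b - z))
    (hρ : ρ + 8 * ε * dist a b ≤ 2 * r) :
    ∃ S ⊆ K, IsPreconnected S ∧ IsClosed S ∧ a ∈ S ∧ b ∈ S ∧
      ∀ y ∈ S, dist y z ≤ ρ + 8 * ε * dist a b ∧ c - 8 * ε * dist a b ≤ al e (y - z) := by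
  classical
  have hr := C.r_pos
  have hε := C.eps_pos
  have hεle := C.eps_le
  set M := 8 * ε with hM
  set h : ℂ → ℝ := fun y => max (max (dist y z - ρ) (c - al e (y - z))) 0 with hh
  have hcont : Continuous h :=
    ((continuous_id.dist continuous_const).sub continuous_const).max
      (continuous_const.sub (by unfold al; fun_prop)) |>.max continuous_const
  set L := M * dist a b with hL
  have hL0 : 0 ≤ L := by positivity
  set N := K ∩ closedBall z (4 * r) ∩ {y | h y ≤ L} with hN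
  have hNc : IsCompact N := C.compact.inter_right (isClosed_le hcont continuous_const)
  have hNz : ∀ y ∈ N, dist y z ≤ ρ + L ∧ c - L ≤ al e (y - z) := by
    intro y hy
    have h1 : h y ≤ L := hy.2
    simp only [h, max_le_iff] at h1
    constructor <;> linarith [h1.1.1, h1.1.2]
  have haN : a ∈ N := ⟨⟨ha, mem_closedBall.2 (by linarith)⟩, by
    show h a ≤ L
    simp only [h, max_le_iff]; refine ⟨⟨?_, ?_⟩, hL0⟩ <;> linarith⟩
  have hbN : b ∈ N := ⟨⟨hb, mem_closedBall.2 (by linarith)⟩, by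
    show h b ≤ L
    simp only [h, max_le_iff]; refine ⟨⟨?_, ?_⟩, hL0⟩ <;> linarith⟩
  have : CompactSpace N := isCompact_iff_compactSpace.1 hNc
  set a₀ : N := ⟨a, haN⟩
  set b₀ : N := ⟨b, hbN⟩
  suffices hab : b₀ ∈ connectedComponent a₀ by
    refine ⟨Subtype.val '' connectedComponent a₀, ?_,
      isPreconnected_connectedComponent.image _ continuous_subtype_val.continuousOn,
      hNc.isClosed.isClosedEmbedding_subtypeVal.isClosedMap _ isClosed_connectedComponent,
      ⟨a₀, mem_connectedComponent, rfl⟩, ⟨b₀, hab, rfl⟩, ?_⟩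
    · rintro _ ⟨y, -, rfl⟩; exact y.2.1.1
    · rintro _ ⟨y, -, rfl⟩; exact hNz _ y.2
  by_contra hab
  rw [connectedComponent_eq_iInter_isClopen, mem_iInter, not_forall] at hab
  obtain ⟨⟨U, hU, haU⟩, hbU⟩ := hab
  have hA : IsCompact (Subtype.val '' U) := hU.1.isCompact.image continuous_subtype_val
  have hB : IsCompact (Subtype.val '' Uᶜ) :=
    hU.compl.1.isCompact.image continuous_subtype_val
  obtain ⟨⟨a', b'⟩, ⟨⟨a₁, ha₁, (rfl : _ = a')⟩, ⟨b₁, hb₁, (rfl : _ = b')⟩⟩, hmin⟩ :=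
    (hA.prod hB).exists_isMinOn
      ⟨(a, b), ⟨a₀, haU, rfl⟩, ⟨b₀, hbU, rfl⟩⟩
      (f := fun p : ℂ × ℂ => M * dist p.1 p.2 + max (h p.1) (h p.2))
      (((continuous_fst.dist continuous_snd).const_mul M).add
        ((hcont.comp continuous_fst).max (hcont.comp continuous_snd))).continuousOn
  set a' : ℂ := (a₁ : ℂ)
  set b' : ℂ := (b₁ : ℂ)
  set δ := dist a' b' with hδ
  have hha : ∀ y : ℂ, dist y z ≤ ρ → c ≤ al e (y - z) → h y = 0 := fun y h1 h2 =>
    max_eq_right (max_le (by linarith) (by linarith))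
  have hφ : M * δ + max (h a') (h b') ≤ L := by
    have : M * δ + max (h a') (h b') ≤ M * dist a b + max (h a) (h b) :=
      isMinOn_iff.1 hmin (a, b) ⟨⟨a₀, haU, rfl⟩, ⟨b₀, hbU, rfl⟩⟩
    rwa [hha a haρ hac, hha b hbρ hbc, max_self, add_zero] at this
  have hmax0 : 0 ≤ max (h a') (h b') := (le_max_right _ (0 : ℝ)).trans (le_max_left (h a') (h b'))
  have hne : a' ≠ b' := fun he' => hb₁ (by rwa [← Subtype.ext he'])
  have hδ0 : 0 < δ := dist_pos.2 hne
  have hδle : δ ≤ dist a b := le_of_mul_le_mul_left (by linarith) (show (0 : ℝ) < M by linarith)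
  have hδr : δ ≤ 8 * r := by
    linarith [dist_triangle_right a b z]
  obtain ⟨d, hd⟩ := exists_line (C.flat a' a₁.2.1.1 (by linarith [(hNz _ a₁.2).1]) δ hδ0 hδr)
  have hn := hd.2.1 b' b₁.2.1.1 (by rw [dist_comm])
  set t := al d (b' - a')
  have ht : |t| ≤ δ := (abs_al_le _ _).trans_eq (by rw [hd.1, mul_one, hδ, dist_eq_norm, norm_sub_rev])
  obtain ⟨q, hq, hqd⟩ := hd.2.2 (t / 2) (by rw [abs_div, abs_two]; linarith [abs_nonneg t])
  set m := (2 : ℝ)⁻¹ • (a' + b') with hm
  have hqm : dist q m ≤ 2 * ε * δ := by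
    have : dist (a' + (t / 2) • d) m ≤ ε * δ / 2 := by
      rw [dist_comm, dist_eq_norm, show m - (a' + (t / 2) • d) = (2 : ℝ)⁻¹ • ((b' - a') - t • d) by
        rw [hm]; module, norm_smul, norm_inv, Real.norm_two]
      linarith [norm_sub_al hd.1 (b' - a')]
    nlinarith [dist_triangle q (a' + (t / 2) • d) m]
  have hma : dist m a' = δ / 2 ∧ dist m b' = δ / 2 := by
    constructor
    · rw [dist_eq_norm, show m - a' = (2 : ℝ)⁻¹ • (b' - a') by rw [hm]; module, norm_smul,
        norm_inv, Real.norm_two, hδ, dist_eq_norm, norm_sub_rev]; ring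
    · rw [dist_eq_norm, show m - b' = (2 : ℝ)⁻¹ • (a' - b') by rw [hm]; module, norm_smul,
        norm_inv, Real.norm_two, hδ, dist_eq_norm]; ring
  have hqh : h q ≤ max (h a') (h b') + 2 * ε * δ := by
    have h1 : dist q z - ρ ≤ max (h a') (h b') + 2 * ε * δ := by
      have : dist m z ≤ (dist a' z + dist b' z) / 2 := by
        rw [dist_eq_norm, show m - z = (2 : ℝ)⁻¹ • ((a' - z) + (b' - z)) by rw [hm]; module,
          norm_smul, norm_inv, Real.norm_two, dist_eq_norm, dist_eq_norm]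
        linarith [norm_add_le (a' - z) (b' - z)]
      linarith [dist_triangle q m z,
        ((le_max_left _ _).trans (le_max_left _ _)).trans (le_max_left (h a') (h b')),
        ((le_max_left _ _).trans (le_max_left _ _)).trans (le_max_right (h a') (h b'))]
    have h2 : c - al e (q - z) ≤ max (h a') (h b') + 2 * ε * δ := by
      have : al e (q - z) = (al e (a' - z) + al e (b' - z)) / 2 + al e (q - m) := by
        simp only [al, hm, Complex.real_smul, Complex.mul_re, Complex.sub_re, Complex.sub_im,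
          Complex.add_re, Complex.add_im, Complex.mul_im]
        norm_num
        ring
      have h3 := abs_le.1 (abs_al_le e (q - m))
      rw [he, mul_one, ← dist_eq_norm] at h3
      linarith [h3.1,
        ((le_max_right _ _).trans (le_max_left _ _)).trans (le_max_left (h a') (h b')),
        ((le_max_right _ _).trans (le_max_left _ _)).trans (le_max_right (h a') (h b'))]
    exact max_le (max_le h1 h2) (by positivity)
  have hlt : ∀ x : ℂ, dist q x ≤ δ / 2 + 2 * ε * δ → h x ≤ max (h a') (h b') →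
      M * dist q x + max (h q) (h x) < M * δ + max (h a') (h b') := by
    intro x hx hhx
    have : max (h q) (h x) ≤ max (h a') (h b') + 2 * ε * δ :=
      max_le hqh (by linarith [mul_pos hε hδ0])
    have h4 : M * dist q x ≤ M * (δ / 2 + 2 * ε * δ) := by gcongr
    nlinarith [mul_pos (mul_pos hε hδ0) (show (0 : ℝ) < 1 - 8 * ε by linarith)]
  have hqa := hlt a' (by linarith [dist_triangle q m a', hma.1]) (le_max_left _ _)
  have hqb := hlt b' (by linarith [dist_triangle q m b', hma.2]) (le_max_right _ _)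
  have hhq : h q ≤ L := by
    linarith [le_max_left (h q) (h b'), mul_nonneg (show (0 : ℝ) ≤ M by linarith)
      (dist_nonneg : 0 ≤ dist q b')]
  have hqN : q ∈ N := by
    refine ⟨⟨hq, mem_closedBall.2 ?_⟩, hhq⟩
    simp only [h, max_le_iff] at hhq
    linarith [hhq.1.1]
  by_cases hqU : (⟨q, hqN⟩ : N) ∈ U
  · have := isMinOn_iff.1 hmin (q, b') ⟨⟨_, hqU, rfl⟩, ⟨b₁, hb₁, rfl⟩⟩
    linarith
  · have : M * δ + max (h a') (h b') ≤ M * dist a' q + max (h a') (h q) :=
      isMinOn_iff.1 hmin (a', q) ⟨⟨a₁, ha₁, rfl⟩, ⟨_, hqU, rfl⟩⟩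
    rw [dist_comm a' q, max_comm (h a') (h q)] at this
    linarith

/-! ## Crossings -/

/-- `K` crosses the circle on the positive side of `e`, whenever `e` is along the top line. -/
theorem cross (he : Line K z (8 * r) ε e) :
    ∃ p ∈ K ∩ sphere z r, |nr e (p - z)| ≤ 8 * ε * r ∧ 0.9 * r ≤ al e (p - z) := by
  have hr := C.r_pos
  have hε := C.eps_pos
  have hεle := C.eps_le
  obtain ⟨y, hy, hyd⟩ := he.2.2 (1.5 * r) (by rw [abs_of_pos (by linarith)]; linarith)
  have h1 := abs_le.1 (abs_al_le e (y - (z + (1.5 * r) • e)))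
  rw [he.1, mul_one, ← dist_eq_norm, show y - (z + (1.5 * r) • e) = (y - z) - (1.5 * r) • e by ring,
    al_sub, al_smul, al_self he.1, mul_one] at h1
  have hyz : dist y z ≤ 1.5 * r + 8 * ε * r := by
    have : dist (z + (1.5 * r) • e) z = 1.5 * r := by
      rw [dist_eq_norm, add_sub_cancel_left, norm_smul, he.1, mul_one, Real.norm_eq_abs,
        abs_of_pos (by linarith)]
    linarith [dist_triangle y (z + (1.5 * r) • e) z]
  have hεr : ε * r ≤ r / 10000 := by nlinarith
  obtain ⟨S, hSK, hSc, -, hzS, hyS, hS⟩ := C.joined he.1 (ρ := 1.6 * r) (c := -(8 * ε * r))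
    C.mem hy (by rw [dist_self]; positivity) (by linarith)
    (by rw [sub_self]; simp [al]; positivity) (by linarith [h1.1])
    (by nlinarith [dist_comm z y])
  have hgt : r ≤ dist y z := by
    have := (abs_le.1 (abs_al_le e (y - z))).2
    rw [he.1, mul_one, ← dist_eq_norm] at this
    linarith [h1.1]
  obtain ⟨p, hpS, hp⟩ := hSc.intermediate_value hzS hyS
    (continuous_id.dist continuous_const).continuousOn
    (show r ∈ Icc (dist z z) (dist y z) from ⟨by simpa using hr.le, hgt⟩)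
  have hp' : dist p z = r := hp
  have hn : |nr e (p - z)| ≤ 8 * ε * r := by
    linarith [he.2.1 p (hSK hpS) (by linarith)]
  refine ⟨p, ⟨hSK hpS, mem_sphere.2 hp'⟩, hn, ?_⟩
  have h2 := norm_le_abs_add he.1 (p - z)
  rw [← dist_eq_norm, hp'] at h2
  have h3 : dist z y ≤ 2 * r := by rw [dist_comm]; linarith
  have h4 := (hS p hpS).2
  rcases abs_cases (al e (p - z)) with ⟨h5, -⟩ | ⟨h5, -⟩
  · linarith
  · nlinarith

/-- The two crossings. -/
theorem crossings :
    ∃ p q, (p ∈ K ∩ sphere z r ∧ q ∈ K ∩ sphere z r) ∧ 0.9 * r ≤ al (top K z r ε) (p - z) ∧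
      al (top K z r ε) (q - z) ≤ -(0.9 * r) ∧ ⟪p - z, q - z⟫ < 0 := by
  obtain ⟨p, hp, hpn, hpa⟩ := C.cross C.line_top
  obtain ⟨q, hq, hqn, hqa⟩ := C.cross C.line_top.neg
  rw [al_neg_left] at hqa
  rw [nr_neg_left, abs_neg] at hqn
  refine ⟨p, q, ⟨hp, hq⟩, hpa, by linarith, ?_⟩
  rw [inner_eq C.top_unit]
  have hr := C.r_pos
  have : |nr (top K z r ε) (p - z) * nr (top K z r ε) (q - z)| ≤ r * r / 100 := by
    rw [abs_mul]
    refine (mul_le_mul hpn hqn (abs_nonneg _) ((abs_nonneg _).trans hpn)).trans ?_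
    nlinarith [C.eps_le, C.eps_pos, mul_pos hr hr,
      mul_le_mul C.eps_le C.eps_le C.eps_pos.le (by norm_num : (0 : ℝ) ≤ 1 / 10000)]
  nlinarith [(abs_le.1 this).2]

end Ctx

/-! ## Before and after a point -/

/-- Scale witness for two points. -/
def Win (r : ℝ) (k : ℕ) (δ : ℝ) : Prop := sc r k / 16 ≤ δ ∧ δ ≤ sc r k

/-- `b` comes after `w`. -/
def After (K : Set ℂ) (z : ℂ) (r ε : ℝ) (w b : ℂ) : Prop :=
  ∃ k, Win r k (dist b w) ∧ 0 < al (dirs K z r ε k w) (b - w)

/-- `y` lies on the positive side. -/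
def Side (K : Set ℂ) (z : ℂ) (r ε : ℝ) (y : ℂ) : Prop :=
  ∃ k a, a ∈ K ∧ dist a z ≤ 2 * r ∧ dist y a ≤ sc r k ∧
    (∀ b ∈ K ∩ closedBall z (4 * r), sc r k / 16 ≤ dist y b) ∧
    0 < nr (dirs K z r ε k a) (y - a)

namespace Ctx

variable (C : Ctx K z r ε) {w : ℂ}
include C

theorem al_big (hw : w ∈ K) (hwz : dist w z ≤ 2 * r) (hb : b ∈ K) {k : ℕ}
    (h : Win r k (dist b w)) : sc r k / 32 ≤ |al (dirs K z r ε k w) (b - w)| := by
  have hl := C.line_dirs hw hwz k
  have hs := sc_pos C.r_pos k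
  have h1 := hl.2.1 b hb (by linarith [h.2])
  have h2 := norm_le_abs_add hl.1 (b - w)
  rw [← dist_eq_norm] at h2
  nlinarith [h.1, C.eps_le]

theorem after_iff (hw : w ∈ K) (hwz : dist w z ≤ 2 * r) (hb : b ∈ K) {k : ℕ}
    (h : Win r k (dist b w)) :
    After K z r ε w b ↔ 0 < al (dirs K z r ε k w) (b - w) := by
  refine ⟨fun ⟨j, hj, hpos⟩ => ?_, fun hpos => ⟨k, h, hpos⟩⟩
  have key : ∀ i l, i ≤ l → Win r i (dist b w) → Win r l (dist b w) →
      (0 < al (dirs K z r ε i w) (b - w) ↔ 0 < al (dirs K z r ε l w) (b - w)) := by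
    intro i l hil hi hl
    have hl4 : l ≤ i + 4 := index_le C.r_pos (hi.1.trans hl.2)
    have hs := sc_pos C.r_pos i
    refine pos_iff_of_near (C.al_big hw hwz hb hi) ?_
    rw [← al_sub_left]
    refine (abs_al_le _ _).trans_lt ?_
    rw [← dist_eq_norm]
    obtain ⟨j, rfl⟩ := Nat.exists_eq_add_of_le hil
    have hj4 : (j : ℝ) ≤ 4 := by exact_mod_cast (show j ≤ 4 by omega)
    calc dist b w * ‖dirs K z r ε (i + j) w - dirs K z r ε i w‖
        ≤ sc r i * (40 * ε * 4) := mul_le_mul hi.2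
          ((C.chain_close hw hwz i j).trans (mul_le_mul_of_nonneg_left hj4 (by linarith [C.eps_pos])))
          (norm_nonneg _) hs.le
      _ < sc r i / 32 := by nlinarith [C.eps_le]
  rcases le_total j k with hjk | hjk
  · exact (key j k hjk hj h).1 hpos
  · exact (key k j hjk h hj).2 hpos

theorem after_stable (hw : w ∈ K) (hwz : dist w z ≤ 2 * r) (hb : b ∈ K) (hbw : b ≠ w)
    (hb2 : dist b w ≤ 1.5 * r) :
    ∃ η > 0, ∀ y ∈ K, dist y b < η → (After K z r ε w y ↔ After K z r ε w b) := by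
  obtain ⟨k, h1, h2⟩ := exists_sc (r := r) (c := 3 / 4) (dist_pos.2 hbw)
    (by linarith)
  have hs := sc_pos C.r_pos k
  refine ⟨sc r k / 64, by positivity, fun y hy hyb => ?_⟩
  have hwb : Win r k (dist b w) := ⟨by linarith, by linarith⟩
  have hwy : Win r k (dist y w) := ⟨by linarith [dist_triangle_left b w y],
    by linarith [dist_triangle y b w]⟩
  rw [C.after_iff hw hwz hy hwy, C.after_iff hw hwz hb hwb]
  refine (pos_iff_of_near (C.al_big hw hwz hb hwb) ?_).symm
  rw [← al_sub, sub_sub_sub_cancel_right]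
  refine (abs_al_le _ _).trans_lt ?_
  rw [(C.line_dirs hw hwz k).1, mul_one, ← dist_eq_norm]
  linarith

theorem after_far (hw : w ∈ K) (hwz : dist w z ≤ r / 2) {p : ℂ} (hp : p ∈ K ∩ sphere z r) :
    (0.9 * r ≤ al (top K z r ε) (p - z) → After K z r ε w p) ∧
    (al (top K z r ε) (p - z) ≤ -(0.9 * r) → ¬ After K z r ε w p) := by
  have hr := C.r_pos
  have hpz : dist p z = r := mem_sphere.1 hp.2
  have hwin : Win r 0 (dist p w) := by
    rw [Win, sc_zero]
    constructor <;> linarith [dist_triangle p w z, dist_triangle_right p w z]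
  have hw2 : dist w z ≤ 2 * r := by linarith
  rw [C.after_iff hw hw2 hp.1 hwin]
  have h1 := abs_le.1 (abs_al_le (dirs K z r ε 0 w - top K z r ε) (p - w))
  have h2 := C.top_close hw hw2
  have h3 : ‖p - w‖ * ‖dirs K z r ε 0 w - top K z r ε‖ ≤ 2 * r * (24 * ε) :=
    mul_le_mul (by rw [← dist_eq_norm, ← sc_zero r]; exact hwin.2) h2 (norm_nonneg _) (by linarith)
  rw [al_sub_left] at h1
  have h4 := abs_le.1 (abs_al_le (top K z r ε) (w - z))
  rw [C.top_unit, mul_one, ← dist_eq_norm] at h4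
  have h5 : al (top K z r ε) (p - w) = al (top K z r ε) (p - z) - al (top K z r ε) (w - z) := by
    rw [← al_sub, sub_sub_sub_cancel_right]
  have h6 : ε * r ≤ r / 10000 := by nlinarith [C.eps_le]
  constructor
  · intro h; linarith
  · intro h hc; linarith

end Ctx

/-! ## Two set lemmas -/

theorem isPreconnected_left {A B : Set ℂ} {c : ℂ} (hA : IsClosed A) (hB : IsClosed B)
    (hu : IsPreconnected (A ∪ B)) (hAB : A ∩ B ⊆ {c}) : IsPreconnected A := by
  rw [isPreconnected_closed_iff] at hu ⊢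
  have key : ∀ t t', IsClosed t → IsClosed t' → A ⊆ t ∪ t' → (A ∩ t).Nonempty →
      (A ∩ t').Nonempty → c ∉ A ∩ t' → (A ∩ (t ∩ t')).Nonempty := by
    intro t t' ht ht' hcov ⟨u, huA, hut⟩ ⟨v, hvA, hvt⟩ hc
    obtain ⟨x, -, hxt, hxt'⟩ := hu (A ∩ t ∪ B) (A ∩ t') ((hA.inter ht).union hB) (hA.inter ht')
      (by
        rintro x (hx | hx)
        · exact (hcov hx).elim (fun h => Or.inl (Or.inl ⟨hx, h⟩)) (fun h => Or.inr ⟨hx, h⟩)
        · exact Or.inl (Or.inr hx))
      ⟨u, Or.inl huA, Or.inl ⟨huA, hut⟩⟩ ⟨v, Or.inl hvA, hvA, hvt⟩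
    rcases hxt with h | h
    · exact ⟨x, hxt'.1, h.2, hxt'.2⟩
    · have : x = c := hAB ⟨hxt'.1, h⟩
      exact absurd (this ▸ hxt') hc
  intro t t' ht ht' hcov h1 h2
  by_cases hc : c ∈ A ∩ t'
  · by_cases hc' : c ∈ t
    · exact ⟨c, hc.1, hc', hc.2⟩
    · rw [inter_comm t t']
      exact key t' t ht' ht (by rwa [union_comm]) h2 h1 fun h => hc' h.2
  · exact key t t' ht ht' hcov h1 h2 hc

theorem dist_le_length {S : Set ℂ} {p w : ℂ} (hS : IsPreconnected S) (hw : w ∈ S) (hp : p ∈ S) :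
    ENNReal.ofReal ‖p - w‖ ≤ μH[1] S := by
  have hf : LipschitzWith 1 fun y => dist y w := LipschitzWith.dist_left w
  have h1 : Icc (0 : ℝ) ‖p - w‖ ⊆ (fun y => dist y w) '' S := by
    have := hS.intermediate_value hw hp hf.continuous.continuousOn
    rwa [dist_self, dist_eq_norm] at this
  calc ENNReal.ofReal ‖p - w‖ = μH[1] (Icc (0 : ℝ) ‖p - w‖) := by
        rw [hausdorffMeasure_real, Real.volume_Icc, sub_zero]
    _ ≤ μH[1] ((fun y => dist y w) '' S) := measure_mono h1
    _ ≤ μH[1] S := by simpa using hf.hausdorffMeasure_image_le zero_le_one S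

namespace Ctx

variable (C : Ctx K z r ε)
include C

theorem length_bound {p q w : ℂ} (hpq : K ∩ sphere z r = {p, q})
    (hp : 0.9 * r ≤ al (top K z r ε) (p - z)) (hq : al (top K z r ε) (q - z) ≤ -(0.9 * r))
    (hw : w ∈ K ∩ closedBall z (r / 2)) :
    ENNReal.ofReal (‖p - w‖ + ‖w - q‖) ≤ μH[1] (K ∩ closedBall z r) := by
  have hr := C.r_pos
  have hεle := C.eps_le
  have hε := C.eps_pos
  have hpK : p ∈ K ∩ sphere z r := hpq ▸ mem_insert p {q}
  have hqK : q ∈ K ∩ sphere z r := hpq ▸ mem_insert_of_mem p rfl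
  have hwz : dist w z ≤ r / 2 := mem_closedBall.1 hw.2
  have piece : ∀ (e u u' : ℂ), ‖e‖ = 1 → u ∈ K ∩ sphere z r →
      (∀ y ∈ K ∩ sphere z r, y = u ∨ y = u') → 0.9 * r ≤ al e (u - z) →
      al e (u' - z) ≤ -(0.9 * r) →
      ∃ S ⊆ K ∩ closedBall z r, IsPreconnected S ∧ IsClosed S ∧ w ∈ S ∧ u ∈ S := by
    intro e u u' he hu hcov hue hu'e
    have h0 := (abs_le.1 (abs_al_le e (w - z))).1
    rw [he, mul_one, ← dist_eq_norm] at h0
    have huz : dist u z = r := mem_sphere.1 hu.2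
    have hd : dist w u ≤ 2 * r := by linarith [dist_triangle_right w u z]
    have hεr : ε * r ≤ r / 10000 := by nlinarith
    have hεd : ε * dist w u ≤ 2 * (r / 10000) := by nlinarith
    obtain ⟨S, hSK, hSc, hScl, hwS, huS, hS⟩ := C.joined he (ρ := r) (c := -(r / 2)) hw.1 hu.1
      (by linarith) huz.le (by linarith) (by linarith) (by linarith)
    refine ⟨S ∩ closedBall z r, inter_subset_inter_left _ hSK, ?_,
      hScl.inter isClosed_closedBall, ⟨hwS, mem_closedBall.2 (by linarith)⟩,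
      ⟨huS, mem_closedBall.2 huz.le⟩⟩
    refine isPreconnected_left (B := S ∩ {y | r ≤ dist y z}) (c := u)
      (hScl.inter isClosed_closedBall)
      (hScl.inter (isClosed_le continuous_const (continuous_id.dist continuous_const))) ?_ ?_
    · rw [← inter_union_distrib_left]
      rwa [show closedBall z r ∪ {y | r ≤ dist y z} = univ from
        eq_univ_of_forall fun y => (le_total (dist y z) r).imp mem_closedBall.2 id, inter_univ]
    · rintro y ⟨⟨hyS, hy1⟩, -, hy2⟩
      rcases hcov y ⟨hSK hyS, mem_sphere.2 (le_antisymm (mem_closedBall.1 hy1) hy2)⟩ with h | h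
      · exact h
      · subst h
        linarith [(hS _ hyS).2]
  obtain ⟨S₁, hS₁, hS₁c, hS₁l, hwS₁, hpS₁⟩ := piece (top K z r ε) p q C.top_unit hpK
    (fun y hy => by rw [hpq] at hy; exact hy) hp hq
  obtain ⟨S₂, hS₂, hS₂c, hS₂l, hwS₂, hqS₂⟩ := piece (-top K z r ε) q p
    (by rw [norm_neg]; exact C.top_unit) hqK (fun y hy => by rw [hpq] at hy; exact hy.symm)
    (by rw [al_neg_left]; linarith) (by rw [al_neg_left]; linarith)
  set S := S₁ ∪ S₂ with hSdef
  have hS : S ⊆ K ∩ closedBall z r := union_subset hS₁ hS₂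
  have hSc : IsPreconnected S := hS₁c.union w hwS₁ hwS₂ hS₂c
  have hSl : IsClosed S := hS₁l.union hS₂l
  set A := {b ∈ S | b = w ∨ After K z r ε w b}
  set B := {b ∈ S | b = w ∨ ¬ After K z r ε w b}
  have hw2 : dist w z ≤ 2 * r := by linarith
  have hcl : ∀ P : ℂ → Prop, (∀ b ∈ S, b ≠ w → ∃ η > 0, ∀ y ∈ S, dist y b < η → (P y ↔ P b)) →
      IsClosed {b ∈ S | b = w ∨ P b} := by
    intro P hP
    refine isClosed_of_closure_subset fun b hb => ?_
    have hbS : b ∈ S := hSl.closure_subset (closure_mono (fun y hy => hy.1) hb)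
    refine ⟨hbS, or_iff_not_imp_left.2 fun hbw => ?_⟩
    obtain ⟨η, hη, hst⟩ := hP b hbS hbw
    obtain ⟨y, hy, hyd⟩ := Metric.mem_closure_iff.1 hb (min η (dist b w))
      (lt_min hη (dist_pos.2 hbw))
    rcases hy.2 with rfl | h
    · exact absurd hyd (not_lt.2 (min_le_right _ _))
    · exact (hst y hy.1 (by rw [dist_comm]; exact hyd.trans_le (min_le_left _ _))).1 h
  have hst : ∀ b ∈ S, b ≠ w → ∃ η > 0, ∀ y ∈ S, dist y b < η →
      (After K z r ε w y ↔ After K z r ε w b) := by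
    intro b hb hbw
    obtain ⟨η, hη, h⟩ := C.after_stable hw.1 hw2 (hS hb).1 hbw
      (by linarith [dist_triangle_right b w z, mem_closedBall.1 (hS hb).2])
    exact ⟨η, hη, fun y hy => h y (hS hy).1⟩
  have hA : IsClosed A := hcl _ hst
  have hB : IsClosed B := hcl _ fun b hb hbw => by
    obtain ⟨η, hη, h⟩ := hst b hb hbw
    exact ⟨η, hη, fun y hy hd => not_congr (h y hy hd)⟩
  have hAB : A ∪ B = S := by
    refine subset_antisymm (union_subset (fun y hy => hy.1) fun y hy => hy.1) fun y hy => ?_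
    by_cases h : After K z r ε w y
    · exact Or.inl ⟨hy, Or.inr h⟩
    · exact Or.inr ⟨hy, Or.inr h⟩
  have hI : A ∩ B ⊆ {w} := by
    rintro y ⟨⟨-, h1⟩, -, h2⟩
    rcases h1 with h1 | h1
    · exact h1
    · exact h2.resolve_right (not_not.2 h1)
  have hAc : IsPreconnected A := isPreconnected_left hA hB (hAB ▸ hSc) hI
  have hBc : IsPreconnected B :=
    isPreconnected_left hB hA (by rwa [union_comm, hAB]) (by rwa [inter_comm])
  have hwS : w ∈ S := Or.inl hwS₁
  have h1 := dist_le_length hAc (show w ∈ A from ⟨hwS, Or.inl rfl⟩)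
    (show p ∈ A from ⟨Or.inl hpS₁, Or.inr ((C.after_far hw.1 hwz hpK).1 hp)⟩)
  have h2 := dist_le_length hBc (show w ∈ B from ⟨hwS, Or.inl rfl⟩)
    (show q ∈ B from ⟨Or.inr hqS₂, Or.inr ((C.after_far hw.1 hwz hqK).2 hq)⟩)
  have hnull : μH[1] (A ∩ B) = 0 :=
    measure_mono_null hI
      (@measure_singleton _ _ _ (Measure.nullSingletonClass_hausdorff ℂ zero_lt_one) w)
  calc ENNReal.ofReal (‖p - w‖ + ‖w - q‖)
      = ENNReal.ofReal ‖p - w‖ + ENNReal.ofReal ‖q - w‖ := by
        rw [ENNReal.ofReal_add (norm_nonneg _) (norm_nonneg _), norm_sub_rev w q]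
    _ ≤ μH[1] A + μH[1] B := add_le_add h1 h2
    _ = μH[1] S := by rw [← measure_union_add_inter A hB.measurableSet, hnull, add_zero, hAB]
    _ ≤ _ := measure_mono hS

/-! ## The two sides -/

theorem nr_big {k : ℕ} (hy : dist y z ≤ r) (ha : a ∈ K) (haz : dist a z ≤ 2 * r)
    (h1 : dist y a ≤ sc r k) (h2 : ∀ b ∈ K ∩ closedBall z (4 * r), sc r k / 16 ≤ dist y b) :
    sc r k / 32 ≤ |nr (dirs K z r ε k a) (y - a)| := by
  have hl := C.line_dirs ha haz k
  set d := dirs K z r ε k a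
  have hs := sc_pos C.r_pos k
  have hs2 := sc_le_zero C.r_pos k
  have h3 : |al d (y - a)| ≤ 4 * sc r k := (abs_al_le _ _).trans
    (by rw [hl.1, mul_one, ← dist_eq_norm]; linarith)
  have h4 : |nr d (y - a)| ≤ sc r k := (abs_nr_le _ _).trans
    (by rw [hl.1, mul_one, ← dist_eq_norm]; exact h1)
  obtain ⟨q, hq, hqd⟩ := hl.2.2 _ h3
  have h5 : dist y (a + al d (y - a) • d) ≤ |nr d (y - a)| := by
    rw [dist_eq_norm, show y - (a + al d (y - a) • d) = (y - a) - al d (y - a) • d by ring]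
    exact norm_sub_al hl.1 _
  have h6 : dist q y ≤ 4 * ε * sc r k + |nr d (y - a)| := by
    linarith [dist_triangle_right q y (a + al d (y - a) • d)]
  have h7 : ε * sc r k ≤ sc r k / 10000 := by nlinarith [C.eps_le]
  have h8 := h2 q ⟨hq, mem_closedBall.2 (by linarith [dist_triangle q y z])⟩
  rw [dist_comm] at h8
  linarith

theorem side_iff {k : ℕ} (hy : dist y z ≤ r) (ha : a ∈ K) (haz : dist a z ≤ 2 * r)
    (h1 : dist y a ≤ sc r k) (h2 : ∀ b ∈ K ∩ closedBall z (4 * r), sc r k / 16 ≤ dist y b) :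
    Side K z r ε y ↔ 0 < nr (dirs K z r ε k a) (y - a) := by
  refine ⟨fun ⟨j, c, hc, hcz, hj1, hj2, hpos⟩ => ?_, fun hpos => ⟨k, a, ha, haz, h1, h2, hpos⟩⟩
  have key : ∀ i l (u v : ℂ), i ≤ l → u ∈ K → dist u z ≤ 2 * r → v ∈ K → dist v z ≤ 2 * r →
      dist y u ≤ sc r i → (∀ b ∈ K ∩ closedBall z (4 * r), sc r i / 16 ≤ dist y b) →
      dist y v ≤ sc r l →
      (0 < nr (dirs K z r ε i u) (y - u) ↔ 0 < nr (dirs K z r ε l v) (y - v)) := by
    intro i l u v hil hu huz hv hvz hi1 hi2 hl1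
    have hs := sc_pos C.r_pos i
    have hl4 : l ≤ i + 4 := index_le C.r_pos
      ((hi2 v ⟨hv, mem_closedBall.2 (by linarith [C.r_pos])⟩).trans hl1)
    have hsl : sc r l ≤ sc r i := by
      unfold sc
      refine div_le_div_of_nonneg_left (by linarith [C.r_pos]) (by positivity)
        (pow_le_pow_right₀ one_le_two hil)
    refine pos_iff_of_near (C.nr_big hy hu huz hi1 hi2) ?_
    obtain ⟨m, rfl⟩ := Nat.exists_eq_add_of_le hil
    have hm4 : (m : ℝ) ≤ 4 := by exact_mod_cast (show m ≤ 4 by omega)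
    have hvu : dist v u ≤ 2 * sc r i := by linarith [dist_triangle_left v u y]
    have hd : ‖dirs K z r ε (i + m) v - dirs K z r ε i u‖ ≤ 184 * ε := by
      have h5 : 40 * ε * m ≤ 40 * ε * 4 := mul_le_mul_of_nonneg_left hm4 (by linarith [C.eps_pos])
      linarith [norm_sub_le_norm_sub_add_norm_sub (dirs K z r ε (i + m) v)
        (dirs K z r ε i v) (dirs K z r ε i u), C.chain_close hv hvz i m,
        C.pair_close hu huz hv hvz i hvu]
    have e : nr (dirs K z r ε (i + m) v) (y - v) - nr (dirs K z r ε i u) (y - u) =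
        nr (dirs K z r ε (i + m) v - dirs K z r ε i u) (y - v) -
          nr (dirs K z r ε i u) (v - u) := by
      rw [nr_sub_left, nr_sub _ v u, nr_sub _ y u, nr_sub (dirs K z r ε i u) y v]; ring
    rw [e]
    refine (abs_sub _ _).trans_lt ?_
    have h6 : |nr (dirs K z r ε i u) (v - u)| ≤ ε * (4 * sc r i) :=
      (C.line_dirs hu huz i).2.1 v hv (by linarith)
    have h7 : |nr (dirs K z r ε (i + m) v - dirs K z r ε i u) (y - v)| ≤ sc r i * (184 * ε) :=
      (abs_nr_le _ _).trans (mul_le_mul (by rw [← dist_eq_norm]; linarith) hd (norm_nonneg _) hs.le)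
    nlinarith [C.eps_le]
  rcases le_total j k with hjk | hjk
  · exact (key j k c a hjk hc hcz ha haz hj1 hj2 h1).1 hpos
  · exact (key k j a c hjk ha haz hc hcz h1 h2 hj1).2 hpos

theorem side_stable (hy : y ∈ closedBall z r \ K) :
    ∃ η > 0, ∀ u ∈ closedBall z r, dist u y < η → (Side K z r ε u ↔ Side K z r ε y) := by
  have hr := C.r_pos
  have hyz : dist y z ≤ r := mem_closedBall.1 hy.1
  obtain ⟨a, ⟨ha, -⟩, hmin⟩ := C.compact.exists_isMinOn
    ⟨z, C.mem, mem_closedBall_self (by linarith)⟩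
    (continuous_const.dist continuous_id).continuousOn (f := fun b => dist y b)
  have hmin' : ∀ b ∈ K ∩ closedBall z (4 * r), dist y a ≤ dist y b := isMinOn_iff.1 hmin
  have hδ : 0 < dist y a := dist_pos.2 fun h => hy.2 (h ▸ ha)
  have hδr : dist y a ≤ r :=
    (hmin' z ⟨C.mem, mem_closedBall_self (by linarith)⟩).trans hyz
  have haz : dist a z ≤ 2 * r := by linarith [dist_triangle_left a z y]
  obtain ⟨k, h1, h2⟩ := exists_sc (r := r) (c := 1 / 2) hδ (by linarith)
  have hs := sc_pos hr k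
  refine ⟨sc r k / 64, by positivity, fun u hu huy => ?_⟩
  have hy1 : dist y a ≤ sc r k := by linarith
  have hy2 : ∀ b ∈ K ∩ closedBall z (4 * r), sc r k / 16 ≤ dist y b := fun b hb => by
    linarith [hmin' b hb]
  have hu1 : dist u a ≤ sc r k := by linarith [dist_triangle u y a]
  have hu2 : ∀ b ∈ K ∩ closedBall z (4 * r), sc r k / 16 ≤ dist u b := fun b hb => by
    linarith [hmin' b hb, dist_triangle_left y b u]
  rw [C.side_iff (mem_closedBall.1 hu) ha haz hu1 hu2, C.side_iff hyz ha haz hy1 hy2]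
  refine (pos_iff_of_near (C.nr_big hyz ha haz hy1 hy2) ?_).symm
  rw [← nr_sub, sub_sub_sub_cancel_right]
  refine (abs_nr_le _ _).trans_lt ?_
  rw [(C.line_dirs ha haz k).1, mul_one, ← dist_eq_norm]
  linarith

omit C in
theorem cos_sin_ne {u v : ℝ} (h0 : u < v) (h1 : v < u + 2 * π)
    (hc : Real.cos u = Real.cos v) (hs : Real.sin u = Real.sin v) : False := by
  have h := Real.cos_sub v u
  rw [hc, hs, ← sq, ← sq, Real.cos_sq_add_sin_sq] at h
  linarith [(Real.cos_eq_one_iff_of_lt_of_lt (by linarith [Real.pi_pos]) (by linarith)).1 h]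

theorem separated {p q : ℂ} (hpq : K ∩ sphere z r = {p, q})
    (hp : 0.9 * r ≤ al (top K z r ε) (p - z)) (hq : al (top K z r ε) (q - z) ≤ -(0.9 * r)) :
    Separated K z r := by
  classical
  have hr := C.r_pos
  have hpK : p ∈ K ∩ sphere z r := hpq ▸ mem_insert p {q}
  have hqK : q ∈ K ∩ sphere z r := hpq ▸ mem_insert_of_mem p rfl
  set D := top K z r ε with hD
  have hDu : ‖D‖ = 1 := C.top_unit
  set σ : ℂ → Bool := fun y => decide (Side K z r ε y) with hσ
  have hσc : ContinuousOn σ (closedBall z r \ K) := by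
    intro y hy
    obtain ⟨η, hη, h⟩ := C.side_stable hy
    refine (continuousWithinAt_const (b := σ y)).congr_of_eventuallyEq ?_ rfl
    filter_upwards [self_mem_nhdsWithin, mem_nhdsWithin_of_mem_nhds (ball_mem_nhds y hη)]
      with u hu hu'
    simp only [σ, decide_eq_decide]
    exact h u hu.1 (mem_ball.1 hu')
  refine ⟨σ, hσc, ?_⟩
  set g : ℝ → ℂ := fun θ => z + (r : ℂ) * Complex.exp (θ * Complex.I) * D with hg
  have hgc : Continuous g := by fun_prop
  have hgs : ∀ θ, g θ ∈ sphere z r := fun θ => by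
    simp [g, hDu, Complex.norm_exp_ofReal_mul_I, abs_of_pos hr]
  have hgm : ∀ θ : ℝ, (g θ - z) * conj D = (r : ℂ) * Complex.exp (θ * Complex.I) := fun θ => by
    simp only [g, add_sub_cancel_left]
    rw [mul_assoc, mul_conj_unit hDu, mul_one]
  have hgal : ∀ θ, al D (g θ - z) = r * Real.cos θ ∧ nr D (g θ - z) = r * Real.sin θ := fun θ => by
    constructor <;>
      simp [al, nr, hgm, Complex.exp_ofReal_mul_I_re, Complex.exp_ofReal_mul_I_im]
  have hinj : ∀ u v : ℝ, g u = g v → u < v → v < u + 2 * π → False := fun u v e h0 h1 => by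
    have h2 := (hgal u).1
    have h3 := (hgal u).2
    rw [e, (hgal v).1] at h2
    rw [e, (hgal v).2] at h3
    exact cos_sin_ne h0 h1 (mul_left_cancel₀ hr.ne' h2.symm) (mul_left_cancel₀ hr.ne' h3.symm)
  have harg : ∀ y, y ∈ sphere z r → g (((y - z) * conj D).arg) = y := fun y hy => by
    have hn : ‖(y - z) * conj D‖ = r := by
      rw [norm_mul, Complex.norm_conj, hDu, mul_one, ← dist_eq_norm]; exact hy
    have h := Complex.norm_mul_exp_arg_mul_I ((y - z) * conj D)
    rw [hn] at h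
    simp only [g]
    rw [h, mul_assoc, mul_comm (conj D) D, mul_conj_unit hDu]
    ring
  have hper : ∀ θ, g (θ + 2 * π) = g θ := fun θ => by
    simp only [g]; push_cast; rw [add_mul, Complex.exp_add, Complex.exp_two_pi_mul_I, mul_one]
  set tp := ((p - z) * conj D).arg with htp
  set tq := ((-(q - z)) * conj D).arg + π with htq
  have htp2 : |tp| < π / 2 := Complex.abs_arg_lt_pi_div_two_iff.2 (Or.inl
    (show 0 < al D (p - z) by linarith))
  have htq2 : |tq - π| < π / 2 := by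
    rw [htq, add_sub_cancel_right]
    exact Complex.abs_arg_lt_pi_div_two_iff.2 (Or.inl
      (show 0 < al D (-(q - z)) by rw [al_neg]; linarith))
  rw [abs_lt] at htp2 htq2
  have hgp : g tp = p := harg p hpK.2
  have hgq : g tq = q := by
    have hsp : 2 * z - q ∈ sphere z r := by
      have := mem_sphere.1 hqK.2
      rw [dist_eq_norm] at this
      rw [mem_sphere, dist_eq_norm, show 2 * z - q - z = -(q - z) by ring, norm_neg, this]
    have h := harg _ hsp
    rw [show 2 * z - q - z = -(q - z) by ring] at h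
    simp only [g] at h ⊢
    rw [htq]; push_cast
    rw [add_mul, Complex.exp_add, Complex.exp_pi_mul_I]
    linear_combination -h
  have hpi := Real.pi_pos
  set I₁ := Ioo tp tq
  set I₂ := Ioo tq (tp + 2 * π)
  have hav : ∀ θ ∈ I₁ ∪ I₂, g θ ∈ sphere z r \ K := by
    intro θ hθ
    refine ⟨hgs θ, fun hK => ?_⟩
    have hmem : g θ ∈ ({p, q} : Set ℂ) := hpq ▸ ⟨hK, hgs θ⟩
    rcases hθ with ⟨h1, h2⟩ | ⟨h1, h2⟩ <;> rcases hmem with e | e
    · exact hinj tp θ (hgp.trans e.symm) h1 (by linarith)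
    · exact hinj θ tq (e.trans (hgq.symm)) h2 (by linarith)
    · exact hinj tp θ (hgp.trans e.symm) (by linarith) h2
    · exact hinj tq θ (hgq.trans (Eq.symm e)) h1 (by linarith)
  have hsub : sphere z r \ K ⊆ g '' I₁ ∪ g '' I₂ := by
    rintro y ⟨hy, hyK⟩
    set θ := ((y - z) * conj D).arg
    have hθ := Complex.arg_mem_Ioc ((y - z) * conj D)
    obtain ⟨φ, hφ1, hφ2, hgφ⟩ : ∃ φ, tp < φ ∧ φ ≤ tp + 2 * π ∧ g φ = y := by
      by_cases h : tp < θ
      · exact ⟨θ, h, by linarith [hθ.2], harg y hy⟩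
      · exact ⟨θ + 2 * π, by linarith [hθ.1], by linarith, (hper θ).trans (harg y hy)⟩
    rcases lt_trichotomy φ tq with h | h | h
    · exact Or.inl ⟨φ, ⟨hφ1, h⟩, hgφ⟩
    · exact absurd (by rw [← hgφ, h, hgq]; exact hqK.1) hyK
    · rcases hφ2.lt_or_eq with h' | h'
      · exact Or.inr ⟨φ, ⟨h, h'⟩, hgφ⟩
      · exact absurd (by rw [← hgφ, h', hper, hgp]; exact hpK.1) hyK
  have hval : ∀ θ, |Real.sin θ| = 1 → (Side K z r ε (g θ) ↔ 0 < Real.sin θ) := by
    intro θ hθ
    have hd : dist (g θ) z = r := hgs θ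
    rw [C.side_iff (k := 0) hd.le C.mem C.mem_self (by rw [sc_zero]; linarith) ?_, C.dirs_top,
      (hgal θ).2]
    · exact ⟨fun h => pos_of_mul_pos_right h hr.le, fun h => mul_pos hr h⟩
    · intro b hb
      have h1 := C.band hb.1 (by linarith [mem_closedBall.1 hb.2])
      have h2 := abs_nr_le D (g θ - b)
      rw [hDu, mul_one, ← dist_eq_norm,
        show g θ - b = (g θ - z) - (b - z) by ring, nr_sub, (hgal θ).2] at h2
      have h3 : |r * Real.sin θ| = r := by rw [abs_mul, hθ, mul_one, abs_of_pos hr]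
      have h4 := abs_sub_abs_le_abs_sub (r * Real.sin θ) (nr D (b - z))
      rw [sc_zero]
      nlinarith [C.eps_le]
  have hI : ∀ I : Set ℝ, I ⊆ I₁ ∪ I₂ → IsPreconnected I → ∀ s ∈ I, ∀ t ∈ I,
      σ (g s) = σ (g t) ∧ g t ∈ connectedComponentIn (sphere z r \ K) (g s) := by
    intro I hIs hIc s hs t ht
    have hc := hIc.image g hgc.continuousOn
    have hm : g '' I ⊆ sphere z r \ K := by
      rintro _ ⟨u, hu, rfl⟩; exact hav u (hIs hu)
    exact ⟨hc.constant (hσc.mono (hm.trans (sdiff_subset_sdiff_left sphere_subset_closedBall)))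
        (mem_image_of_mem g hs) (mem_image_of_mem g ht),
      hc.subset_connectedComponentIn (mem_image_of_mem g hs) hm (mem_image_of_mem g ht)⟩
  have hs1 : π / 2 ∈ I₁ := ⟨by linarith, by linarith⟩
  have hs2 : 3 * π / 2 ∈ I₂ := ⟨by linarith, by linarith⟩
  have hdiff : ∀ s ∈ I₁, ∀ t ∈ I₂, σ (g s) ≠ σ (g t) := by
    intro s hs t ht
    rw [(hI I₁ subset_union_left isPreconnected_Ioo s hs _ hs1).1,
      (hI I₂ subset_union_right isPreconnected_Ioo t ht _ hs2).1]
    have e1 : Real.sin (π / 2) = 1 := Real.sin_pi_div_two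
    have e2 : Real.sin (3 * π / 2) = -1 := by
      rw [show 3 * π / 2 = π / 2 + π by ring, Real.sin_add_pi, Real.sin_pi_div_two]
    have h1 := (hval (π / 2) (by rw [e1, abs_one])).2 (by rw [e1]; norm_num)
    have h2 : ¬ Side K z r ε (g (3 * π / 2)) := fun h => by
      have := (hval (3 * π / 2) (by rw [e2, abs_neg, abs_one])).1 h
      linarith
    simp [σ, h1, h2]
  intro y hy w hw he
  rcases hsub hy with ⟨s, hs, rfl⟩ | ⟨s, hs, rfl⟩ <;>
    rcases hsub hw with ⟨t, ht, rfl⟩ | ⟨t, ht, rfl⟩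
  · exact (hI I₁ subset_union_left isPreconnected_Ioo s hs t ht).2
  · exact absurd he (hdiff s hs t ht)
  · exact absurd he.symm (hdiff t ht s hs)
  · exact (hI I₂ subset_union_right isPreconnected_Ioo s hs t ht).2

end Ctx

end LineTopo

open LineTopo in
/-- R2: topology of bilaterally flat sets. -/
theorem lineTopo : LineTopoSpec := by
  refine ⟨1 / 10000, by norm_num, fun K x R hR hx hcl _ hflat z hz r hr => ?_⟩
  have hzx : dist z x ≤ R / 2 := mem_closedBall.1 hz.2
  have hsub : closedBall z (4 * r) ⊆ closedBall x (3 * R) :=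
    closedBall_subset_closedBall' (by linarith [hr.2])
  have C : Ctx K z r (1 / 10000) :=
    { r_pos := hr.1
      eps_pos := by norm_num
      eps_le := le_rfl
      mem := hz.1
      compact := by
        rw [show K ∩ closedBall z (4 * r) = K ∩ closedBall x (3 * R) ∩ closedBall z (4 * r) by
          rw [inter_assoc, inter_eq_right.2 hsub]]
        exact (isCompact_closedBall z _).inter_left hcl
      flat := fun a ha haz t ht htr => hflat a
        ⟨ha, mem_closedBall.2 (by linarith [dist_triangle a z x, hr.2])⟩ t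
        ⟨ht, by linarith [hr.2]⟩ }
  obtain ⟨p₀, q₀, ⟨hp₀, hq₀⟩, hpa, hqa, hneg⟩ := C.crossings
  refine ⟨⟨p₀, hp₀, q₀, hq₀, hneg⟩, fun p q _ hpq => ?_⟩
  have hp' : p₀ ∈ ({p, q} : Set ℂ) := hpq ▸ hp₀
  have hq' : q₀ ∈ ({p, q} : Set ℂ) := hpq ▸ hq₀
  have hne : p₀ ≠ q₀ := fun h => by
    rw [h] at hpa; linarith [hr.1]
  have hset : K ∩ sphere z r = {p₀, q₀} ∧
      ∀ w, ‖p - w‖ + ‖w - q‖ = ‖p₀ - w‖ + ‖w - q₀‖ := by
    rcases hp' with rfl | rfl <;> rcases hq' with rfl | rfl
    · exact absurd rfl hne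
    · exact ⟨hpq, fun w => rfl⟩
    · exact ⟨hpq.trans (pair_comm _ _),
        fun w => by rw [norm_sub_rev w, norm_sub_rev w, add_comm]⟩
    · exact absurd rfl hne
  refine ⟨C.separated hset.1 hpa hqa, fun w hw => ?_⟩
  rw [hset.2]
  exact C.length_bound hset.1 hpa hqa hw

end Vale.Agent.P128.Regularity
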