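import Vale.Agent.P128.Regularity.Glue

/-!
# P128 regularity: Q1 from the pieces
-/

open MeasureTheory Set Metric Filter
open scoped ENNReal NNReal Topology Real RealInnerProductSpace

noncomputable section

namespace Vale.Agent.P128.Regularity

open Vale.Agent.P128.Bridge

theorem isClosed_inter_closedBall {U K : Set ℂ} {u : ℂ → ℝ} {G : ℂ → ℂ} {A M Λ : ℝ}
    (h : IsAlmostMin U K u G A M Λ) {x : ℂ} {r : ℝ} (hr : closedBall x r ⊆ U) :
    IsClosed (K ∩ closedBall x r) := by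
  have : K ∩ closedBall x r = closedBall x r \ (U \ K) := by
    ext z
    exact ⟨fun hz => ⟨hz.2, fun h' => h'.2 hz.1⟩,
      fun hz => ⟨by_contra fun hK => hz.2 ⟨hr hz.1, hK⟩, hz.1⟩⟩
  rw [this]
  exact isClosed_closedBall.sdiff h.isOpen_compl

/-- A line region carries a graph at its centre, with uniform constants. -/
theorem exists_graph_of_lineHyp (hF : LineFlatSpec) (hG : LineGraphSpec) :
    ∃ ε₁ β C : ℝ, 0 < ε₁ ∧ ε₁ ≤ 1 ∧ 0 < β ∧ β ≤ 1 ∧ 0 < C ∧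
      ∀ (U K : Set ℂ) (u : ℂ → ℝ) (G : ℂ → ℂ) (A M Λ : ℝ), IsAlmostMin U K u G A M Λ →
        ∀ (z : ℂ) (R : ℝ), LineHyp U K G Λ z R ε₁ →
          ∃ (d : ℂ) (f f' : ℝ → ℝ), GraphAt K z d (R / 128) β C f f' := by
  obtain ⟨εF, CF, β, hεF, hCF, hβ, hβ1, hF⟩ := hF
  obtain ⟨εG, C, hεG, hC, hG⟩ := hG CF β hCF hβ hβ1
  refine ⟨min 1 (min εF εG), β, C, by positivity, min_le_left _ _, hβ, hβ1, hC, ?_⟩
  intro U K u G A M Λ hAM z R hL
  have hR := hL.pos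
  have hsub : closedBall z (R / 16) ⊆ closedBall z R := closedBall_subset_closedBall (by linarith)
  have hflat := hF U K u G A M Λ hAM z R
    (lineHyp_mono hL ((min_le_right _ _).trans (min_le_left _ _)))
  suffices h : ∀ w ∈ K ∩ closedBall z (R / 16), ∀ r ∈ Ioc (0 : ℝ) (R / 16),
      Flat K 2 w r εG ∧ Flat K 2 w r (CF * (r / (R / 16)) ^ β) by
    obtain ⟨d, f, f', hgr, -⟩ := hG K z (R / 16) (by linarith) hL.mem
      (isClosed_inter_closedBall hAM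
        ((closedBall_subset_closedBall (by linarith)).trans hL.ball_subset)) h
    refine ⟨d, f, f', ?_⟩
    rwa [show R / 128 = R / 16 / 8 by ring]
  intro w hw r hr
  obtain ⟨h1, -⟩ := hL.regime w ⟨hw.1, hsub hw.2⟩ r ⟨hr.1, by linarith [hr.2]⟩
  refine ⟨flat_mono h1 ((min_le_right _ _).trans (min_le_right _ _)) hr.1.le, ?_⟩
  refine flat_mono (hflat w ⟨hw.1, closedBall_subset_closedBall (by linarith) hw.2⟩ r hr) ?_ hr.1.le
  refine mul_le_mul_of_nonneg_left (Real.rpow_le_rpow (div_nonneg hr.1.le hR.le) ?_ hβ.le) hCF.le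
  exact div_le_div_of_nonneg_left hr.1.le (by linarith) (by linarith)

/-- Q1 from the pieces. -/
theorem q1_of_pieces (hReg : RegSpec) (hTri : TrichotomySpec) (hLF : LineFlatSpec)
    (hLG : LineGraphSpec) (hB : BranchSpec) (hSE : StarExcessSpec) (hTD : TipDecaySpec)
    (hSF : StarFlatSpec) (hA : ArcsSpec) : Q1Spec := by
  obtain ⟨ε₁, β, Cg, hε₁, hε₁1, hβ, hβ1, hCg, hgraph⟩ := exists_graph_of_lineHyp hLF hLG
  obtain ⟨εS, CS, κS, hεS, hCS, hκS, hSE⟩ := hSE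
  obtain ⟨εT, CT, κT, hεT, hCT, hκT, hTD⟩ := hTD
  have hκ : 0 < ε₁ / 4096 := by positivity
  obtain ⟨εB, hεB, hB⟩ := hB Cg β (ε₁ / 4096) hCg hβ hκ (by linarith)
  obtain ⟨C1, β1, hC1, hβ1', hβ11, hSF1⟩ := hSF (max CT 1) κT (by positivity) hκT
  obtain ⟨C3, β3, hC3, hβ3, hβ31, hSF3⟩ := hSF CS κS hCS hκS
  intro Ω g P hΩ hg hmin hred x hx
  obtain ⟨R₀, hR₀, hR₀Ω, v, Gv, A, M, Λ, -, -, hAM⟩ := hReg Ω g P hΩ hg hmin x (P.subset hx)
  set U := ball x R₀ with hU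
  set K := P.K ∩ U with hK
  have hUΩ : U ⊆ Ω := ball_subset_closedBall.trans hR₀Ω
  have hredK : IsReducedIn U K := fun z hz s hs hsU =>
    lt_of_lt_of_le (hred z hz.1 s hs (hsU.trans hUΩ))
      (measure_mono fun y hy => ⟨⟨hy.1, hsU (ball_subset_closedBall hy.2)⟩, hy.2⟩)
  have hxK : x ∈ K := ⟨hx, mem_ball_self hR₀⟩
  have hKN : ∀ N : Set ℂ, N ⊆ U → P.K ∩ N = K ∩ N := fun N hN => by
    ext z; exact ⟨fun hz => ⟨⟨hz.1, hN hz.2⟩, hz.2⟩, fun hz => ⟨hz.1.1, hz.2⟩⟩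
  obtain ⟨n, hn, htri⟩ := hTri U K v Gv A M Λ hAM hredK x hxK
  obtain ⟨R₁, hR₁, hR₁U, hΛ₁, hreg₁, hring, hline⟩ := htri ε₁ hε₁ hε₁1
  by_cases hn2 : n = 2
  · obtain ⟨d, f, f', hgr⟩ := hgraph U K v Gv A M Λ hAM x R₁ (hline hn2)
    obtain ⟨N, hNo, hxN, hNsub, hint⟩ := interior_of_graphAt hgr
    have hNU : N ⊆ U :=
      hNsub.trans ((closedBall_subset_closedBall (by linarith)).trans hR₁U)
    refine ⟨N, β, hNo, hxN, hNU.trans hUΩ, hβ, Or.inl ?_⟩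
    obtain ⟨γ, γ', h1, h2, h3⟩ := hint
    exact ⟨γ, γ', h1, h2, (hKN N hNU).trans h3⟩
  have hn13 : n = 1 ∨ n = 3 := by omega
  set ε₂ := min 1 (min εB (min εS εT)) with hε₂def
  have hε₂ : 0 < ε₂ := by positivity
  have hε₂B : ε₂ ≤ εB := (min_le_right _ _).trans (min_le_left _ _)
  have hε₂S : ε₂ ≤ εS := ((min_le_right _ _).trans (min_le_right _ _)).trans (min_le_left _ _)
  have hε₂T : ε₂ ≤ εT := ((min_le_right _ _).trans (min_le_right _ _)).trans (min_le_right _ _)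
  obtain ⟨R₂, hR₂, hR₂U, hΛ₂, hreg₂, -, -⟩ := htri ε₂ hε₂ (min_le_left _ _)
  set R := min R₁ R₂ with hRdef
  have hR : 0 < R := lt_min hR₁ hR₂
  have hRU : closedBall x (4 * R) ⊆ U :=
    (closedBall_subset_closedBall (by linarith [min_le_left R₁ R₂])).trans hR₁U
  have hgraphs : ∀ z ∈ K ∩ closedBall x R, z ≠ x →
      ∃ (d : ℂ) (f f' : ℝ → ℝ), GraphAt K z d (ε₁ / 4096 * dist z x) β Cg f f' := by
    intro z hz hzx
    have hzR : z ∈ K ∩ closedBall x R₁ :=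
      ⟨hz.1, closedBall_subset_closedBall (min_le_left _ _) hz.2⟩
    obtain ⟨d, f, f', hgr⟩ := hgraph U K v Gv A M Λ hAM z _ (hring z hzR hzx)
    refine ⟨d, f, f', ?_⟩
    rwa [show ε₁ / 4096 * dist z x = ε₁ * dist z x / 32 / 128 by ring]
  obtain ⟨γ, γ', hbr⟩ := hB K n x R hn13 hR hxK
    (isClosed_inter_closedBall hAM ((closedBall_subset_closedBall (by linarith)).trans hRU))
    (fun r hr => flat_mono (hreg₂ r ⟨hr.1, hr.2.trans (min_le_right _ _)⟩).1 hε₂B hr.1.le) hgraphs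
  set Rb := R / 4 with hRb
  have hRb0 : 0 < Rb := by linarith
  have hRbU : closedBall x Rb ⊆ U := (closedBall_subset_closedBall (by linarith)).trans hRU
  have hΛ0 : 0 ≤ Λ := le_trans (mul_nonneg hAM.A_nonneg hAM.M_nonneg) hAM.AM_le
  have hΛb : Λ * Rb ≤ ε₂ :=
    (mul_le_mul_of_nonneg_left (by linarith [min_le_right R₁ R₂]) hΛ0).trans hΛ₂
  have hregb : Regime K Gv n x Rb ε₂ := regime_mono hreg₂ (by linarith [min_le_right R₁ R₂]) le_rfl
  obtain ⟨C', β', hC', hβ', hβ'1, hflat⟩ : ∃ C' β' : ℝ, 0 < C' ∧ 0 < β' ∧ β' ≤ 1 ∧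
      ∀ r ∈ Ioc (0 : ℝ) (Rb / 8), Flat K n x r (C' * (r / Rb) ^ β') := by
    rcases hn13 with rfl | rfl
    · refine ⟨C1, β1, hC1, hβ1', hβ11, hSF1 K 1 x Rb γ γ' (Or.inl rfl) hbr fun r hr => ?_⟩
      refine ⟨r, ⟨le_rfl, by linarith [hr.1]⟩, fun a _ ha => ?_⟩
      have hall : ∀ ε > 0, ∃ R' > 0, Regime K Gv 1 x R' ε := by
        intro ε hε
        obtain ⟨R', hR', -, -, hreg', -, -⟩ := htri (min ε 1) (by positivity) (min_le_right _ _)
        exact ⟨R', hR', regime_mono hreg' le_rfl (min_le_left _ _)⟩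
      refine (hTD U K v Gv A M Λ hAM x Rb γ γ' hbr hRbU (hΛb.trans hε₂T)
        (regime_mono hregb le_rfl hε₂T) hall r hr).trans (ENNReal.ofReal_le_ofReal ?_)
      rw [Fin.sum_univ_one, ha rfl, hbr.radial 0 r ⟨hr.1, by linarith [hr.2]⟩]
      have : 0 ≤ r * (r / Rb) ^ κT := mul_nonneg hr.1.le (Real.rpow_nonneg (by
        exact div_nonneg hr.1.le hRb0.le) _)
      nlinarith [mul_le_mul_of_nonneg_right (le_max_left CT 1) this]
    · refine ⟨C3, β3, hC3, hβ3, hβ31, hSF3 K 3 x Rb γ γ' (Or.inr rfl) hbr fun r hr => ?_⟩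
      obtain ⟨s, hs, hsa⟩ := hSE U K v Gv A M Λ hAM x Rb γ γ' hbr hRbU (hΛb.trans hε₂S)
        (regime_mono hregb le_rfl hε₂S) r hr
      exact ⟨s, hs, fun a ha _ => hsa a ha⟩
  set Ra := Rb / 8 with hRa
  have hRa0 : 0 < Ra := by linarith
  set β₀ := min β β' with hβ₀
  set C₀ := max (2 * Cg) C' with hC₀
  have hbrA := branches_mono hbr hRa0 (by linarith)
  have hflat' : ∀ r ∈ Ioc (0 : ℝ) Ra, Flat K n x r (C₀ * (r / Ra) ^ β₀) := by
    intro r hr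
    refine flat_mono (hflat r hr) ?_ hr.1.le
    have h0 : 0 ≤ r / Rb := div_nonneg hr.1.le hRb0.le
    have h1 : r / Rb ≤ r / Ra := div_le_div_of_nonneg_left hr.1.le hRa0 (by linarith)
    have h2 : r / Rb ≤ 1 := (div_le_one hRb0).2 (by linarith [hr.2])
    calc C' * (r / Rb) ^ β' ≤ C₀ * (r / Rb) ^ β₀ := by
          refine mul_le_mul (le_max_right _ _) ?_ (by positivity) (by positivity)
          exact Real.rpow_le_rpow_of_exponent_ge (div_pos hr.1 hRb0) h2 (min_le_right _ _)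
      _ ≤ C₀ * (r / Ra) ^ β₀ := by gcongr
  have hgraphsA : ∀ z ∈ K ∩ ball x Ra, z ≠ x →
      ∃ (d : ℂ) (f f' : ℝ → ℝ), GraphAt K z d (ε₁ / 4096 * dist z x) β₀ C₀ f f' := by
    intro z hz hzx
    obtain ⟨d, f, f', hgr⟩ := hgraphs z
      ⟨hz.1, closedBall_subset_closedBall (by linarith) (ball_subset_closedBall hz.2)⟩ hzx
    exact ⟨d, f, f', graphAt_mono hgr hCg.le (lt_min hβ hβ') (min_le_left _ _) hβ1 (le_max_left _ _)⟩
  obtain ⟨N, α, hNo, hxN, hNsub, hα, hcase⟩ :=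
    hA C₀ β₀ (ε₁ / 4096) (by positivity) (lt_min hβ hβ') ((min_le_left _ _).trans hβ1) hκ
      K n x Ra γ γ' hn13 hbrA hflat' hgraphsA
  have hNU : N ⊆ U := hNsub.trans
    (ball_subset_closedBall.trans ((closedBall_subset_closedBall (by linarith)).trans hRU))
  refine ⟨N, α, hNo, hxN, hNU.trans hUΩ, hα, Or.inr ?_⟩
  rcases hcase with ⟨-, γ₁, γ₁', h1, h2, h3⟩ | ⟨-, γ₁, γ₁', h1, h2, h3, h4, h5⟩
  · exact Or.inl ⟨γ₁, γ₁', h1, h2, (hKN N hNU).trans h3⟩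
  · exact Or.inr ⟨γ₁, γ₁', h1, h2, (hKN N hNU).trans h3, h4, h5⟩

end Vale.Agent.P128.Regularity
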