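import Vale.Agent.P128.Regularity.GoodRadius

/-!
# P128 regularity R8b: length excess at a triple point
-/

open MeasureTheory Set Metric Filter
open scoped ENNReal Topology Real

noncomputable section

namespace Vale.Agent.P128.Regularity

open Vale.Agent.P128.Bridge

/-- The crossings of a small circle with the branches. -/
theorem sphere_inter_of_branches {K : Set ℂ} {n : ℕ} {x : ℂ} {R : ℝ} {γ γ' : Fin n → ℝ → ℂ}
    (hB : Branches K n x R γ γ') {s : ℝ} (hs : s ∈ Ioo (0 : ℝ) R) :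
    K ∩ sphere x s = ↑(Finset.univ.image fun i => γ i s) := by
  ext y
  simp only [Finset.coe_image, Finset.coe_univ, image_univ, mem_inter_iff, mem_sphere, mem_range]
  constructor
  · rintro ⟨hyK, hys⟩
    have hy : y ∈ K ∩ ball x R := ⟨hyK, mem_ball.2 (hys ▸ hs.2)⟩
    rw [hB.cover, mem_insert_iff, mem_iUnion] at hy
    rcases hy with rfl | ⟨i, t, ht, rfl⟩
    · rw [dist_self] at hys; exact absurd hys hs.1.ne
    · rw [dist_eq_norm, hB.radial i t ht] at hys
      exact ⟨i, by rw [hys]⟩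
  · rintro ⟨i, rfl⟩
    have hd : dist (γ i s) x = s := by rw [dist_eq_norm, hB.radial i s hs]
    have : γ i s ∈ K ∩ ball x R := by
      rw [hB.cover]
      exact mem_insert_of_mem _ (mem_iUnion.2 ⟨i, mem_image_of_mem _ hs⟩)
    exact ⟨this.1, hd⟩

/-- R8b. -/
theorem starExcess (hD : StarDecaySpec) (hE : ExcessSpec) : StarExcessSpec := by
  classical
  obtain ⟨ε₁, C₁, κ, hε₁, hC₁, hκ, hdec⟩ := hD
  obtain ⟨C₂, hC₂, hexc⟩ := hE
  set κ' := min (κ / 2) 1 with hκ'
  have hκ'0 : 0 < κ' := lt_min (half_pos hκ) one_pos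
  set K₁ := 4 * (C₁ + 1) * (2 : ℝ) ^ κ with hK₁
  have hK₁0 : 0 < K₁ := by positivity
  refine ⟨min ε₁ 1, C₂ / 4 + 4 * C₂ * K₁ + 1, κ', lt_min hε₁ one_pos, by positivity, hκ'0, ?_⟩
  intro U K u G A M Λ h x R γ γ' hB hsub hΛ hreg r hr
  have hR := hB.pos
  obtain ⟨hr0, hr4⟩ := hr
  have hΛ0 := h.Lambda_nonneg
  have hreg' : Regime K G 3 x R ε₁ := fun t ht => by
    obtain ⟨⟨d, hd, h1, h2⟩, hH, hd1, hd2⟩ := hreg t ht
    have hmono : min ε₁ 1 * t ≤ ε₁ * t := mul_le_mul_of_nonneg_right (min_le_left _ _) ht.1.le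
    refine ⟨⟨d, hd, fun z hz => ?_, fun z hz => ?_⟩, hH.trans (ENNReal.ofReal_le_ofReal ?_),
      fun hne => (hd1 hne).trans (ENNReal.ofReal_le_ofReal hmono),
      fun he => absurd he (by norm_num)⟩
    · obtain ⟨w, hw, hwz⟩ := h1 z hz
      exact ⟨w, hw, hwz.trans hmono⟩
    · obtain ⟨w, hw, hwz⟩ := h2 z hz
      exact ⟨w, hw, hwz.trans hmono⟩
    · exact mul_le_mul_of_nonneg_right (by linarith [min_le_left ε₁ 1]) ht.1.le
  have hq : 0 < 2 * r / R := by positivity
  set D := (C₁ + 1) * (2 * r) * (2 * r / R) ^ κ with hDdef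
  have hD0 : 0 < D := by positivity
  have hdb : dball K G x (2 * r) ≤ ENNReal.ofReal D := by
    refine (hdec U K u G A M Λ h x R γ γ' hB hsub (hΛ.trans (min_le_left _ _)) hreg' (2 * r)
      ⟨by positivity, by linarith⟩).trans (ENNReal.ofReal_le_ofReal ?_)
    rw [hDdef]
    gcongr
    linarith
  have hfin : ∀ s ∈ Ioo r (2 * r), (K ∩ sphere x s).Finite := fun s hs => by
    rw [sphere_inter_of_branches hB ⟨hr0.trans hs.1, lt_of_lt_of_le hs.2 (by linarith)⟩]
    exact Finset.finite_toSet _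
  obtain ⟨s, hs, hsE⟩ := Radius.exists_small_energy h hr0.le (by linarith)
    ((closedBall_subset_closedBall (by linarith)).trans hsub) hD0 hdb hfin
  refine ⟨s, ⟨hs.1.le, hs.2.le⟩, fun a ha => ?_⟩
  have hs0 : 0 < s := hr0.trans hs.1
  have hsR : s < R := lt_of_lt_of_le hs.2 (by linarith)
  have hsR1 : s / R ≤ 1 := (div_le_one hR).2 hsR.le
  set q := (s / R) ^ (κ / 2) with hqdef
  have hq0 : 0 < q := Real.rpow_pos_of_pos (by positivity) _
  have hq1 : q ≤ 1 := Real.rpow_le_one (by positivity) hsR1 (by positivity)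
  have hEq : 2 * D / (2 * r - r) ≤ K₁ * q ^ 2 := by
    rw [show 2 * r - r = r by ring, hqdef, ← Real.rpow_natCast, ← Real.rpow_mul (by positivity),
      show κ / 2 * ((2 : ℕ) : ℝ) = κ by push_cast; ring, hDdef,
      show 2 * ((C₁ + 1) * (2 * r) * (2 * r / R) ^ κ) / r = 4 * (C₁ + 1) * (2 * r / R) ^ κ by
        field_simp; ring]
    rw [show 2 * r / R = 2 * (r / R) by ring, Real.mul_rpow two_pos.le (by positivity), ← mul_assoc,
      ← hK₁]
    refine mul_le_mul_of_nonneg_left (Real.rpow_le_rpow (by positivity) ?_ hκ.le) hK₁0.le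
    gcongr
    exact hs.1.le
  have hγinj : ∀ i j : Fin 3, γ i s = γ j s → i = j := fun i j hij => by
    by_contra hne
    have := hB.apart i j hne s ⟨hs0, hsR⟩
    rw [hij, sub_self, norm_zero] at this
    linarith
  have hsum : ∑ p ∈ Finset.univ.image (fun i => γ i s), ‖p - a‖ = ∑ i, ‖γ i s - a‖ :=
    Finset.sum_image fun i _ j _ hij => hγinj i j hij
  have hmain := hexc U K u G A M Λ h x s hs0
    ((closedBall_subset_closedBall hsR.le).trans hsub) _
    (sphere_inter_of_branches hB ⟨hs0, hsR⟩)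
    (Finset.card_image_le.trans (by simp)) a ha (q / 4) ⟨by positivity, by linarith⟩
  have hsq : (0 : ℝ) ≤ ∑ i, ‖γ i s - a‖ := Finset.sum_nonneg fun i _ => norm_nonneg _
  rw [hsum] at hmain
  refine (le_add_self.trans hmain).trans ((add_le_add le_rfl
    (mul_le_mul_right (hsE.trans (ENNReal.ofReal_le_ofReal hEq)) _)).trans ?_)
  rw [← ENNReal.ofReal_mul (by positivity), ← ENNReal.ofReal_add (by positivity) (by positivity)]
  refine ENNReal.ofReal_le_ofReal ?_
  have hqq : q ≤ (s / R) ^ κ' :=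
    Real.rpow_le_rpow_of_exponent_ge (by positivity) hsR1 (min_le_left _ _)
  have hsq' : s / R ≤ (s / R) ^ κ' := by
    calc s / R = (s / R) ^ (1 : ℝ) := (Real.rpow_one _).symm
      _ ≤ _ := Real.rpow_le_rpow_of_exponent_ge (by positivity) hsR1 (min_le_right _ _)
  have e : C₂ * s / (q / 4) * (K₁ * q ^ 2) = 4 * C₂ * K₁ * (s * q) := by field_simp
  have hΛs : Λ * s ^ 2 ≤ s * (s / R) := by
    calc Λ * s ^ 2 = Λ * R * (s * (s / R)) := by field_simp
      _ ≤ 1 * (s * (s / R)) :=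
        mul_le_mul_of_nonneg_right (hΛ.trans (min_le_right _ _)) (by positivity)
      _ = s * (s / R) := one_mul _
  rw [e]
  calc ∑ i, ‖γ i s - a‖ + C₂ * (q / 4) * s + Λ * s ^ 2 + 4 * C₂ * K₁ * (s * q)
      ≤ ∑ i, ‖γ i s - a‖ + C₂ / 4 * s * (s / R) ^ κ' + s * (s / R) ^ κ' +
          4 * C₂ * K₁ * (s * (s / R) ^ κ') := by
        refine add_le_add (add_le_add (add_le_add le_rfl ?_) (hΛs.trans ?_)) ?_
        · calc C₂ * (q / 4) * s = C₂ / 4 * s * q := by ring
            _ ≤ _ := mul_le_mul_of_nonneg_left hqq (by positivity)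
        · exact mul_le_mul_of_nonneg_left hsq' hs0.le
        · exact mul_le_mul_of_nonneg_left (mul_le_mul_of_nonneg_left hqq hs0.le) (by positivity)
    _ = _ := by ring

end Vale.Agent.P128.Regularity
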