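import Vale.Agent.P128.Regularity.Spec

/-!
# P128 regularity, piece R12: small length excess gives decaying flatness

A connected piece of `K` through `z = γ i t` and the other branches bound the length from below;
the excess puts every point near its chord, and moving the centre forces equal angles.
-/

open MeasureTheory Set Metric Filter
open scoped ENNReal Topology Real RealInnerProductSpace

noncomputable section

namespace Vale.Agent.P128.Regularity

open Vale.Agent.P128.Bridge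

namespace StarFlat

/-- The `μH¹` measure of a continuous arc is at least the distance of its end points. -/
theorem dist_le_arc {γ : ℝ → ℂ} {a b : ℝ} (hab : a ≤ b) (hc : ContinuousOn γ (Icc a b)) :
    ENNReal.ofReal ‖γ a - γ b‖ ≤ μH[1] (γ '' Icc a b) := by
  set f : ℂ → ℝ := fun z => dist z (γ a) with hf
  have hsub : Icc (0 : ℝ) ‖γ a - γ b‖ ⊆ f '' (γ '' Icc a b) := by
    rw [image_image]
    have := intermediate_value_Icc hab
      ((LipschitzWith.dist_left (γ a)).continuous.comp_continuousOn hc)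
    simpa [hf, Function.comp_def, dist_comm, ← dist_eq_norm] using this
  have h1 : μH[1] (f '' (γ '' Icc a b)) ≤ μH[1] (γ '' Icc a b) := by
    simpa using (LipschitzWith.dist_left (γ a)).hausdorffMeasure_image_le (d := 1) zero_le_one
      (γ '' Icc a b)
  refine le_trans ?_ ((measure_mono hsub).trans h1)
  rw [hausdorffMeasure_real, Real.volume_Icc, sub_zero]

variable {K : Set ℂ} {n : ℕ} {x : ℂ} {R : ℝ} {γ γ' : Fin n → ℝ → ℂ}

theorem continuousOn_branch (hB : Branches K n x R γ γ') (i : Fin n) {a b : ℝ} (ha : 0 < a)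
    (hb : b < R) : ContinuousOn (γ i) (Icc a b) := fun t ht =>
  (hB.deriv i t ⟨ha.trans_le ht.1, ht.2.trans_lt hb⟩).1.continuousAt.continuousWithinAt

theorem eq_of_branch (hB : Branches K n x R γ γ') {i j : Fin n} {t t' : ℝ}
    (ht : t ∈ Ioo (0 : ℝ) R) (ht' : t' ∈ Ioo (0 : ℝ) R) (h : γ i t = γ j t') : i = j ∧ t = t' := by
  have e : t = t' := by rw [← hB.radial i t ht, ← hB.radial j t' ht', h]
  subst e
  refine ⟨by_contra fun hne => ?_, rfl⟩
  have := hB.apart i j hne t ht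
  rw [h, sub_self, norm_zero] at this
  linarith [ht.1]

/-- Lower bound for the length through one chosen point of one branch. -/
theorem length_lower (hB : Branches K n x R γ γ') (i : Fin n) {t s : ℝ} (ht : 0 < t) (hts : t ≤ s)
    (hs : s < R) :
    ENNReal.ofReal (((n : ℝ) - 1) * s + t + ‖γ i t - γ i s‖) ≤ μH[1] (K ∩ closedBall x s) := by
  refine le_of_tendsto (x := 𝓝[>] (0 : ℝ))
    (f := fun η => ENNReal.ofReal (((n : ℝ) - 1) * (s - η) + (t - η) + ‖γ i t - γ i s‖)) ?_ ?_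
  · refine ENNReal.tendsto_ofReal (Tendsto.mono_left ?_ nhdsWithin_le_nhds)
    have : Continuous fun η : ℝ => ((n : ℝ) - 1) * (s - η) + (t - η) + ‖γ i t - γ i s‖ := by
      fun_prop
    simpa using this.tendsto 0
  filter_upwards [Ioo_mem_nhdsGT ht] with η hη
  have hI : ∀ {a b : ℝ}, η ≤ a → b ≤ s → ∀ y ∈ Icc a b, y ∈ Ioo (0 : ℝ) R := fun ha hb y hy =>
    ⟨hη.1.trans_le (ha.trans hy.1), (hy.2.trans hb).trans_lt hs⟩
  have hIη : η ∈ Ioo (0 : ℝ) R := hI le_rfl le_rfl η ⟨le_rfl, hη.2.le.trans hts⟩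
  have hIs : s ∈ Ioo (0 : ℝ) R := hI le_rfl le_rfl s ⟨hη.2.le.trans hts, le_rfl⟩
  have hIt : t ∈ Ioo (0 : ℝ) R := hI le_rfl le_rfl t ⟨hη.2.le, hts⟩
  set A : Fin n → Set ℂ := fun j => γ j '' Icc η s with hA
  have hcomp : ∀ j, IsCompact (A j) := fun j =>
    isCompact_Icc.image_of_continuousOn (continuousOn_branch hB j hη.1 hs)
  have hdisj : Pairwise fun j k => Disjoint (A j) (A k) := by
    intro j k hjk
    refine disjoint_left.2 ?_
    rintro _ ⟨a, ha, rfl⟩ ⟨b, hb, hab⟩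
    exact hjk (eq_of_branch hB (hI le_rfl le_rfl a ha) (hI le_rfl le_rfl b hb) hab.symm).1
  have hsub : (⋃ j, A j) ⊆ K ∩ closedBall x s := by
    refine iUnion_subset fun j => ?_
    rintro _ ⟨a, ha, rfl⟩
    have ha' := hI le_rfl le_rfl a ha
    refine ⟨?_, ?_⟩
    · have : γ j a ∈ K ∩ ball x R := by
        rw [hB.cover]
        exact mem_insert_of_mem _ (mem_iUnion.2 ⟨j, mem_image_of_mem _ ha'⟩)
      exact this.1
    · rw [mem_closedBall, dist_eq_norm, hB.radial j a ha']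
      exact ha.2
  have hrad : ∀ j, ∀ a ∈ Ioo (0 : ℝ) R, a - η ≤ ‖γ j η - γ j a‖ := by
    intro j a ha
    have := norm_sub_le_norm_sub_add_norm_sub (γ j a) (γ j η) x
    rw [hB.radial j a ha, hB.radial j η hIη, norm_sub_rev (γ j a)] at this
    linarith
  have hAj : ∀ j, ENNReal.ofReal (s - η) ≤ μH[1] (A j) := fun j =>
    (ENNReal.ofReal_le_ofReal (hrad j s hIs)).trans
      (dist_le_arc (hη.2.le.trans hts) (continuousOn_branch hB j hη.1 hs))
  have hAi : ENNReal.ofReal ((t - η) + ‖γ i t - γ i s‖) ≤ μH[1] (A i) := by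
    have hP : IsCompact (γ i '' Icc t s) :=
      isCompact_Icc.image_of_continuousOn (continuousOn_branch hB i ht hs)
    have hinter : γ i '' Icc η t ∩ γ i '' Icc t s ⊆ {γ i t} := by
      rintro _ ⟨⟨a, ha, rfl⟩, ⟨b, hb, hab⟩⟩
      have := (eq_of_branch hB (hI le_rfl hts a ha) (hI hη.2.le le_rfl b hb) hab.symm).2
      have : a = t := le_antisymm ha.2 (this ▸ hb.1)
      simp [this]
    have hU : γ i '' Icc η t ∪ γ i '' Icc t s = A i := by
      rw [← image_union, Icc_union_Icc_eq_Icc hη.2.le hts]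
    have h0 : μH[1] (γ i '' Icc η t ∩ γ i '' Icc t s) = 0 := by
      have := Measure.nullSingletonClass_hausdorff ℂ (d := (1 : ℝ)) one_pos
      exact measure_mono_null hinter (measure_singleton _)
    have hadd := measure_union_add_inter (μ := μH[1]) (γ i '' Icc η t) hP.measurableSet
    rw [hU, h0, add_zero] at hadd
    rw [hadd]
    refine le_trans ?_ (add_le_add
      (dist_le_arc hη.2.le (continuousOn_branch hB i hη.1 (hts.trans_lt hs)))
      (dist_le_arc hts (continuousOn_branch hB i ht hs)))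
    rw [← ENNReal.ofReal_add (norm_nonneg _) (norm_nonneg _)]
    refine ENNReal.ofReal_le_ofReal ?_
    linarith [hrad i t hIt]
  set b : Fin n → ℝ := Function.update (fun _ => s - η) i ((t - η) + ‖γ i t - γ i s‖) with hb
  have hb0 : ∀ j, 0 ≤ b j := fun j => by
    by_cases h : j = i
    · subst h; simp only [hb, Function.update_self]; linarith [norm_nonneg (γ j t - γ j s), hη.2]
    · simp only [hb, Function.update_of_ne h]; linarith [hη.2]
  have hsum : ∑ j, b j = ((n : ℝ) - 1) * (s - η) + ((t - η) + ‖γ i t - γ i s‖) := by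
    rw [hb, Finset.sum_update_of_mem (Finset.mem_univ i)]
    simp [Finset.card_sdiff, Nat.cast_sub (Nat.succ_le_of_lt i.pos)]
    ring
  calc ENNReal.ofReal (((n : ℝ) - 1) * (s - η) + (t - η) + ‖γ i t - γ i s‖)
      = ∑ j, ENNReal.ofReal (b j) := by
        rw [← ENNReal.ofReal_sum_of_nonneg fun j _ => hb0 j, hsum, add_assoc]
    _ ≤ ∑ j, μH[1] (A j) := by
        refine Finset.sum_le_sum fun j _ => ?_
        by_cases h : j = i
        · subst h; simpa only [hb, Function.update_self] using hAi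
        · simpa only [hb, Function.update_of_ne h] using hAj j
    _ = μH[1] (⋃ j, A j) := by
        rw [measure_iUnion hdisj fun j => (hcomp j).measurableSet, tsum_fintype]
    _ ≤ _ := measure_mono hsub

/-- A vector of length `t` with small detour towards one of length `s ≥ t` lies near its multiple. -/
theorem chord_close {z p : ℂ} {t s E : ℝ} (ht : 0 ≤ t) (hts : t ≤ s) (hs : 0 < s) (hE : 0 ≤ E)
    (hz : ‖z‖ = t) (hp : ‖p‖ = s) (h : ‖z - p‖ ≤ s - t + E) :
    ‖z - (t / s) • p‖ ^ 2 ≤ 2 * s * E + E ^ 2 := by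
  have h1 : ‖z - p‖ ^ 2 ≤ (s - t + E) ^ 2 := pow_le_pow_left₀ (norm_nonneg _) h 2
  rw [norm_sub_sq_real, hz, hp] at h1
  have hcs : ⟪z, p⟫ ≤ t * s := by
    simpa [hz, hp] using real_inner_le_norm z p
  rw [norm_sub_sq_real, norm_smul, hz, hp, real_inner_smul_right, Real.norm_eq_abs,
    abs_of_nonneg (div_nonneg ht hs.le), div_mul_cancel₀ t hs.ne']
  have h2 : t / s * (t * s - ⟪z, p⟫) ≤ t * s - ⟪z, p⟫ :=
    mul_le_of_le_one_left (by linarith) ((div_le_one hs).2 hts)
  have h3 : t / s * (t * s) = t ^ 2 := by field_simp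
  nlinarith [mul_nonneg ht hE]

/-- Primitive cube roots of unity in coordinates. -/
theorem exp_third (k : ℕ) (hk : k = 1 ∨ k = 2) :
    Complex.exp (((2 * π * (k : ℕ) / (3 : ℕ) : ℝ) : ℂ) * Complex.I) =
      ⟨-(1 / 2), if k = 1 then √3 / 2 else -(√3 / 2)⟩ := by
  have e1 : Real.cos (2 * π / 3) = -(1 / 2) := by
    rw [show 2 * π / 3 = π - π / 3 by ring, Real.cos_pi_sub, Real.cos_pi_div_three]
  have e2 : Real.sin (2 * π / 3) = √3 / 2 := by
    rw [show 2 * π / 3 = π - π / 3 by ring, Real.sin_pi_sub, Real.sin_pi_div_three]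
  have e3 : Real.cos (2 * π * 2 / 3) = -(1 / 2) := by
    rw [show 2 * π * 2 / 3 = π / 3 + π by ring, Real.cos_add_pi, Real.cos_pi_div_three]
  have e4 : Real.sin (2 * π * 2 / 3) = -(√3 / 2) := by
    rw [show 2 * π * 2 / 3 = π / 3 + π by ring, Real.sin_add_pi, Real.sin_pi_div_three]
  rcases hk with rfl | rfl <;>
    apply Complex.ext <;>
    simp only [Complex.exp_ofReal_mul_I_re, Complex.exp_ofReal_mul_I_im] <;>
    norm_num [e1, e2, e3, e4]

theorem root_close {y c δ : ℝ} (hy : 0 ≤ y) (hc : 3 / 4 ≤ c) (h : |y ^ 2 - c ^ 2| ≤ 4 * δ) :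
    |y - c| ≤ 11 / 2 * δ := by
  have h0 : 0 ≤ δ := by linarith [abs_nonneg (y ^ 2 - c ^ 2)]
  rw [sq_sub_sq, abs_mul, abs_of_nonneg (by linarith : 0 ≤ y + c)] at h
  linarith [mul_le_mul_of_nonneg_right (by linarith : (3 : ℝ) / 4 ≤ y + c) (abs_nonneg (y - c))]

/-- Two unit numbers whose sum with `1` is small are near the primitive cube roots of unity. -/
theorem near_roots {a b : ℂ} {δ : ℝ} (ha : ‖a‖ = 1) (hb : ‖b‖ = 1) (hS : ‖1 + a + b‖ ≤ δ)
    (hδ : δ ≤ 1 / 2) :
    (‖a - ⟨-(1 / 2), √3 / 2⟩‖ ≤ 9 * δ ∧ ‖b - ⟨-(1 / 2), -(√3 / 2)⟩‖ ≤ 9 * δ) ∨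
      (‖a - ⟨-(1 / 2), -(√3 / 2)⟩‖ ≤ 9 * δ ∧ ‖b - ⟨-(1 / 2), √3 / 2⟩‖ ≤ 9 * δ) := by
  have hδ0 : 0 ≤ δ := (norm_nonneg _).trans hS
  have hre := abs_le.1 ((Complex.abs_re_le_norm _).trans hS)
  have him := abs_le.1 ((Complex.abs_im_le_norm _).trans hS)
  simp only [Complex.add_re, Complex.one_re] at hre
  simp only [Complex.add_im, Complex.one_im, zero_add] at him
  have ha2 : a.re ^ 2 + a.im ^ 2 = 1 := by
    rw [← one_pow 2, ← ha, Complex.sq_norm, Complex.normSq_apply]; ring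
  have hb2 : b.re ^ 2 + b.im ^ 2 = 1 := by
    rw [← one_pow 2, ← hb, Complex.sq_norm, Complex.normSq_apply]; ring
  have haim : |a.im| ≤ 1 := (Complex.abs_im_le_norm a).trans ha.le
  have hbim : |b.im| ≤ 1 := (Complex.abs_im_le_norm b).trans hb.le
  rw [abs_le] at haim hbim
  have hare : |a.re| ≤ 1 := (Complex.abs_re_le_norm a).trans ha.le
  rw [abs_le] at hare
  have hd : |a.re - b.re| ≤ 4 * δ := by
    have hP : (1 : ℝ) / 2 ≤ -(a.re + b.re) := by linarith
    have hprod : |(a.re - b.re) * (a.re + b.re)| ≤ 2 * δ := by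
      rw [show (a.re - b.re) * (a.re + b.re) = (b.im - a.im) * (b.im + a.im) by
        linear_combination ha2 - hb2, abs_mul]
      exact mul_le_mul (abs_le.2 ⟨by linarith, by linarith⟩) (abs_le.2 ⟨by linarith, by linarith⟩)
        (abs_nonneg _) zero_le_two
    rw [abs_mul, abs_of_nonpos (by linarith : a.re + b.re ≤ 0)] at hprod
    linarith [mul_le_mul_of_nonneg_left hP (abs_nonneg (a.re - b.re))]
  rw [abs_le] at hd
  have hs3 : (√3 / 2) ^ 2 = 3 / 4 := by
    rw [div_pow, Real.sq_sqrt (by norm_num)]; norm_num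
  have hs3' : (3 : ℝ) / 4 ≤ √3 / 2 := by
    have : (3 : ℝ) / 2 ≤ √3 := Real.le_sqrt_of_sq_le (by norm_num)
    linarith
  have hq2 : |a.im ^ 2 - (√3 / 2) ^ 2| ≤ 4 * δ := by
    rw [hs3, show a.im ^ 2 - 3 / 4 = (1 / 2 - a.re) * (1 / 2 + a.re) by linear_combination ha2,
      abs_mul]
    calc |1 / 2 - a.re| * |1 / 2 + a.re| ≤ (3 / 2) * (5 / 2 * δ) :=
          mul_le_mul (abs_le.2 ⟨by linarith, by linarith⟩) (abs_le.2 ⟨by linarith, by linarith⟩)
            (abs_nonneg _) (by norm_num)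
      _ ≤ 4 * δ := by linarith
  have key : ∀ w : ℂ, ∀ c : ℝ, |w.re + 1 / 2| ≤ 5 / 2 * δ → |w.im - c| ≤ 13 / 2 * δ →
      ‖w - ⟨-(1 / 2), c⟩‖ ≤ 9 * δ := fun w c h1 h2 => by
    refine (Complex.norm_le_abs_re_add_abs_im _).trans ?_
    simp only [Complex.sub_re, Complex.sub_im, sub_neg_eq_add]
    linarith
  have hra : |a.re + 1 / 2| ≤ 5 / 2 * δ := abs_le.2 ⟨by linarith, by linarith⟩
  have hrb : |b.re + 1 / 2| ≤ 5 / 2 * δ := abs_le.2 ⟨by linarith, by linarith⟩
  rcases le_total 0 a.im with hp | hp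
  · have : |a.im - √3 / 2| ≤ 11 / 2 * δ := root_close hp hs3' hq2
    rw [abs_le] at this
    exact Or.inl ⟨key a _ hra (abs_le.2 ⟨by linarith, by linarith⟩),
      key b _ hrb (abs_le.2 ⟨by linarith, by linarith⟩)⟩
  · have : |a.im + √3 / 2| ≤ 11 / 2 * δ := by
      have := root_close (neg_nonneg.2 hp) hs3' (by rwa [neg_sq])
      rwa [show -a.im - √3 / 2 = -(a.im + √3 / 2) by ring, abs_neg] at this
    rw [abs_le] at this
    exact Or.inr ⟨key a _ hra (abs_le.2 ⟨by linarith, by linarith⟩),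
      key b _ hrb (abs_le.2 ⟨by linarith, by linarith⟩)⟩

/-- The end points of three branches, after moving the centre, are nearly at equal angles. -/
theorem sum_unit_small {v : Fin 3 → ℂ} {e : ℝ} (hv : ∀ i, ‖v i‖ = 1)
    (h : ∀ w : ℂ, ‖w‖ ≤ 1 / 2 → 3 ≤ (∑ i, ‖v i - w‖) + e) : ‖∑ i, v i‖ ^ 2 ≤ 8 * e := by
  set S := ∑ i, v i with hS
  have hSn : ‖S‖ ≤ 3 := (norm_sum_le _ _).trans (by simp [hv])
  have hw : ‖(1 / 6 : ℝ) • S‖ = ‖S‖ / 6 := by
    rw [norm_smul, Real.norm_of_nonneg (by norm_num)]; ring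
  have h0 := h ((1 / 6 : ℝ) • S) (by rw [hw]; linarith)
  have hi : ∀ i, ‖v i - (1 / 6 : ℝ) • S‖ ≤ 1 - 1 / 6 * ⟪v i, S⟫ + (‖S‖ / 6) ^ 2 / 2 := fun i => by
    have := norm_sub_sq_real (v i) ((1 / 6 : ℝ) • S)
    rw [hv, hw, real_inner_smul_right] at this
    nlinarith [sq_nonneg (‖v i - (1 / 6 : ℝ) • S‖ - 1)]
  have hsum := (Finset.sum_le_sum (s := Finset.univ) fun i _ => hi i)
  simp only [Finset.sum_add_distrib, Finset.sum_sub_distrib, ← Finset.mul_sum, ← sum_inner, ← hS,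
    real_inner_self_eq_norm_sq, Finset.sum_const, Finset.card_univ, Fintype.card_fin,
    nsmul_eq_mul] at hsum
  push_cast at hsum
  nlinarith

end StarFlat

open StarFlat in
/-- **R12.** -/
theorem starFlat : StarFlatSpec := by
  intro C κ hC hκ
  set β := min 1 (κ / 2) with hβ
  set M := √(C * 2 ^ κ) with hM
  have hM0 : 0 < M := Real.sqrt_pos.2 (by positivity)
  refine ⟨100 * M, β, by positivity, lt_min one_pos (by linarith), min_le_left _ _, ?_⟩
  intro K n x R γ γ' hn hB hH r hr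
  obtain ⟨hr0, hr8⟩ := hr
  have hR := hB.pos
  set ρ := r / R with hρ
  have hρ0 : 0 < ρ := div_pos hr0 hR
  have hρ1 : ρ ≤ 1 := (div_le_one hR).2 (by linarith)
  set ε := 100 * M * ρ ^ β with hε
  have hε0 : 0 < ε := by positivity
  have hx_star : ∀ d, x ∈ starSet n x d := fun d => by
    have : 0 < n := by omega
    exact mem_iUnion.2 ⟨⟨0, this⟩, 0, self_mem_Ici, by simp⟩
  rcases le_or_gt 1 ε with hbig | hsmall
  · refine ⟨1, norm_one, fun z hz => ⟨x, hx_star 1, ?_⟩, fun w hw => ⟨x, hB.mem, ?_⟩⟩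
    · exact (mem_closedBall.1 hz.2).trans (le_mul_of_one_le_left hr0.le hbig)
    · rw [dist_comm]; exact (mem_closedBall.1 hw.2).trans (le_mul_of_one_le_left hr0.le hbig)
  obtain ⟨s, hs, hbound⟩ := hH r ⟨hr0, by linarith⟩
  have hs0 : 0 < s := hr0.trans_le hs.1
  have hsR : s < R := by linarith [hs.2]
  set e := C * (s / R) ^ κ with he
  have he0 : 0 ≤ e := by positivity
  set q := √e with hq
  have hq0 : 0 ≤ q := Real.sqrt_nonneg _
  have hqρ : q ≤ M * ρ ^ β := by
    have h1 : e ≤ C * 2 ^ κ * ρ ^ κ := by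
      rw [he, mul_assoc, ← Real.mul_rpow (by norm_num) hρ0.le]
      refine mul_le_mul_of_nonneg_left (Real.rpow_le_rpow (by positivity) ?_ hκ.le) hC.le
      rw [hρ, mul_div]
      exact div_le_div_of_nonneg_right hs.2 hR.le
    calc q ≤ √(C * 2 ^ κ * ρ ^ κ) := Real.sqrt_le_sqrt h1
      _ = M * ρ ^ (κ / 2) := by
        rw [Real.sqrt_mul (by positivity), Real.sqrt_eq_rpow (ρ ^ κ), ← Real.rpow_mul hρ0.le,
          mul_one_div, hM]
      _ ≤ M * ρ ^ β := mul_le_mul_of_nonneg_left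
          (Real.rpow_le_rpow_of_exponent_ge hρ0 hρ1 (min_le_right _ _)) hM0.le
  have hq1 : q ≤ 1 / 100 := by rw [hε] at hsmall; linarith
  have hqe : q ^ 2 = e := Real.sq_sqrt he0
  set v : Fin n → ℂ := fun i => (1 / s : ℝ) • (γ i s - x) with hv
  have hsI : s ∈ Ioo (0 : ℝ) R := ⟨hs0, hsR⟩
  have hvn : ∀ i, ‖v i‖ = 1 := fun i => by
    rw [hv, norm_smul, Real.norm_of_nonneg (by positivity), hB.radial i s hsI]
    field_simp
  have herr : C * s * (s / R) ^ κ = s * e := by rw [he]; ring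
  have hx_sum : ∑ i, ‖γ i s - x‖ = n * s := by simp [hB.radial _ s hsI]
  have hclose : ∀ i, ∀ t ∈ Ioc (0 : ℝ) s, ‖(γ i t - x) - t • v i‖ ≤ 2 * q * s := by
    intro i t ht
    have h1 := (length_lower hB i ht.1 ht.2 hsR).trans
      (hbound x (mem_closedBall_self (by linarith)) fun _ => rfl)
    rw [hx_sum, herr, ENNReal.ofReal_le_ofReal_iff (by positivity)] at h1
    have h2 := chord_close (E := s * e) ht.1.le ht.2 hs0 (by positivity)
      (hB.radial i t ⟨ht.1, ht.2.trans_lt hsR⟩) (hB.radial i s hsI)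
      (by rw [sub_sub_sub_cancel_right]; linarith)
    have e2 : (t / s) • (γ i s - x) = t • v i := by rw [hv, smul_smul, mul_one_div]
    rw [e2] at h2
    refine (pow_le_pow_iff_left₀ (norm_nonneg _) (by positivity) two_ne_zero).1 (h2.trans ?_)
    rw [← hqe]
    nlinarith [mul_le_mul hq1 hq1 hq0 (by norm_num), mul_nonneg (sq_nonneg q) (sq_nonneg s)]
  -- matching of the rays
  suffices hmatch : ∃ d : ℂ, ‖d‖ = 1 ∧ ∃ σ : Fin n → Fin n, Function.Surjective σ ∧ ∀ i,
      ‖v i - d * Complex.exp (((2 * π * ((σ i : ℕ)) / n : ℝ) : ℂ) * Complex.I)‖ ≤ 27 * q by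
    obtain ⟨d, hd, σ, hσ, hdist⟩ := hmatch
    have hbd : ∀ i, ∀ t ∈ Ioc (0 : ℝ) r, dist (γ i t)
        (x + t • (d * Complex.exp (((2 * π * ((σ i : ℕ)) / n : ℝ) : ℂ) * Complex.I))) ≤ ε * r := by
      intro i t ht
      set u := d * Complex.exp (((2 * π * ((σ i : ℕ)) / n : ℝ) : ℂ) * Complex.I)
      rw [dist_eq_norm, ← sub_sub]
      calc ‖γ i t - x - t • u‖ ≤ ‖γ i t - x - t • v i‖ + ‖t • v i - t • u‖ :=
            norm_sub_le_norm_sub_add_norm_sub _ _ _
        _ ≤ 2 * q * s + r * (27 * q) := by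
            refine add_le_add (hclose i t ⟨ht.1, ht.2.trans hs.1⟩) ?_
            rw [← smul_sub, norm_smul, Real.norm_of_nonneg ht.1.le]
            exact mul_le_mul ht.2 (hdist i) (norm_nonneg _) hr0.le
        _ ≤ 100 * (M * ρ ^ β) * r := by
            nlinarith [mul_le_mul_of_nonneg_left hs.2 hq0, mul_le_mul_of_nonneg_right hqρ hr0.le,
              mul_nonneg hq0 hr0.le]
        _ = ε * r := by rw [hε]; ring
    refine ⟨d, hd, ?_, ?_⟩
    · rintro z ⟨hzK, hzr⟩
      have hzball : z ∈ K ∩ ball x R := ⟨hzK, by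
        rw [mem_ball]; linarith [mem_closedBall.1 hzr]⟩
      rw [hB.cover] at hzball
      rcases hzball with rfl | hz
      · exact ⟨_, hx_star d, by rw [dist_self]; positivity⟩
      obtain ⟨i, t, ht, rfl⟩ := mem_iUnion.1 hz
      have htr : t ≤ r := by
        rw [mem_closedBall, dist_eq_norm, hB.radial i t ht] at hzr; exact hzr
      exact ⟨_, mem_iUnion.2 ⟨σ i, t, ht.1.le, rfl⟩, hbd i t ⟨ht.1, htr⟩⟩
    · rintro w ⟨hw, hwr⟩
      obtain ⟨k, t, ht, rfl⟩ := mem_iUnion.1 hw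
      rcases (mem_Ici.1 ht).eq_or_lt with h0 | h0
      · subst h0
        exact ⟨x, hB.mem, by simp only [zero_smul, add_zero, dist_self]; positivity⟩
      obtain ⟨i, rfl⟩ := hσ k
      have htr : t ≤ r := by
        rw [mem_closedBall, dist_eq_norm, add_sub_cancel_left, norm_smul, norm_mul, hd,
          Complex.norm_exp_ofReal_mul_I, Real.norm_of_nonneg h0.le] at hwr
        linarith
      have hmem : γ i t ∈ K ∩ ball x R := by
        rw [hB.cover]
        exact mem_insert_of_mem _ (mem_iUnion.2 ⟨i, mem_image_of_mem _ ⟨h0, by linarith⟩⟩)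
      exact ⟨γ i t, hmem.1, hbd i t ⟨h0, htr⟩⟩
  rcases hn with rfl | rfl
  · refine ⟨v 0, hvn 0, id, Function.surjective_id, fun i => ?_⟩
    rw [Subsingleton.elim i 0]
    simpa using hq0
  · have hsum : ‖∑ i, v i‖ ^ 2 ≤ 8 * e := by
      refine sum_unit_small hvn fun w hw => ?_
      have ha : x + s • w ∈ closedBall x (s / 2) := by
        rw [mem_closedBall, dist_eq_norm, add_sub_cancel_left, norm_smul,
          Real.norm_of_nonneg hs0.le]
        nlinarith
      have h1 := (length_lower hB 0 hs0 le_rfl hsR).trans (hbound _ ha (by norm_num))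
      rw [herr, ENNReal.ofReal_le_ofReal_iff
        (add_nonneg (Finset.sum_nonneg fun _ _ => norm_nonneg _) (by positivity))] at h1
      have e3 : ∀ i, ‖γ i s - (x + s • w)‖ = s * ‖v i - w‖ := fun i => by
        rw [show γ i s - (x + s • w) = s • (v i - w) by
          rw [hv, smul_sub, smul_smul, mul_one_div_cancel hs0.ne', one_smul]; abel,
          norm_smul, Real.norm_of_nonneg hs0.le]
      simp only [e3, ← Finset.mul_sum, sub_self, norm_zero, add_zero, Nat.cast_ofNat] at h1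
      refine le_of_mul_le_mul_left ?_ hs0
      linarith
    set d := v 0 with hd0
    have hdn : ‖d‖ = 1 := hvn 0
    have hdne : d ≠ 0 := norm_ne_zero_iff.1 (by rw [hdn]; exact one_ne_zero)
    have hS : ‖1 + v 1 / d + v 2 / d‖ ≤ 3 * q := by
      rw [show 1 + v 1 / d + v 2 / d = (∑ i, v i) / d by
        rw [Fin.sum_univ_three, ← hd0]; field_simp, norm_div, hdn, div_one]
      refine (pow_le_pow_iff_left₀ (norm_nonneg _) (by positivity) two_ne_zero).1 (hsum.trans ?_)
      rw [← hqe]; nlinarith [sq_nonneg q]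
    have hback : ∀ (i : Fin 3) (c : ℂ), ‖v i / d - c‖ ≤ 9 * (3 * q) → ‖v i - d * c‖ ≤ 27 * q := by
      intro i c h
      rw [show v i - d * c = d * (v i / d - c) by field_simp, norm_mul, hdn, one_mul]
      linarith
    have h0 : ‖v 0 - d * Complex.exp (((2 * π * (((0 : Fin 3) : ℕ)) / (3 : ℕ) : ℝ) : ℂ) *
        Complex.I)‖ ≤ 27 * q := by simp [← hd0, hq0]
    have w1 := exp_third 1 (Or.inl rfl)
    have w2 := exp_third 2 (Or.inr rfl)
    simp only [↓reduceIte, OfNat.ofNat_ne_one] at w1 w2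
    rcases near_roots (by rw [norm_div, hvn, hdn, div_one]) (by rw [norm_div, hvn, hdn, div_one]) hS
      (by linarith) with ⟨h1, h2⟩ | ⟨h1, h2⟩
    · refine ⟨d, hdn, id, Function.surjective_id, fun i => ?_⟩
      fin_cases i
      · exact h0
      · show ‖v 1 - d * Complex.exp (((2 * π * ((1 : ℕ) : ℝ) / ((3 : ℕ) : ℝ) : ℝ) : ℂ) * Complex.I)‖ ≤ _
        rw [w1]; exact hback 1 _ h1
      · show ‖v 2 - d * Complex.exp (((2 * π * ((2 : ℕ) : ℝ) / ((3 : ℕ) : ℝ) : ℝ) : ℂ) * Complex.I)‖ ≤ _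
        rw [w2]; exact hback 2 _ h2
    · refine ⟨d, hdn, Equiv.swap 1 2, (Equiv.swap 1 2).surjective, fun i => ?_⟩
      fin_cases i
      · exact h0
      · show ‖v 1 - d * Complex.exp (((2 * π * ((2 : ℕ) : ℝ) / ((3 : ℕ) : ℝ) : ℝ) : ℂ) * Complex.I)‖ ≤ _
        rw [w2]; exact hback 1 _ h1
      · show ‖v 2 - d * Complex.exp (((2 * π * ((1 : ℕ) : ℝ) / ((3 : ℕ) : ℝ) : ℝ) : ℂ) * Complex.I)‖ ≤ _
        rw [w1]; exact hback 2 _ h2

end Vale.Agent.P128.Regularity
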