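import Vale.Agent.P128.Regularity.Defs
import Vale.Agent.P128.Topo.Components

/-!
# P128 regularity R9: the translation map and the length of the moved arc
-/

open MeasureTheory Set Metric Filter
open scoped ENNReal NNReal Topology Real RealInnerProductSpace

noncomputable section

namespace Vale.Agent.P128.Regularity.Translate

variable {x e : ℂ} {a b q : ℝ}

/-- The profile: `b - a` inside, linear on the annulus, zero outside. -/
def prof (x : ℂ) (a b : ℝ) (z : ℂ) : ℝ := max 0 (min (b - a) (b - ‖z - x‖))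

/-- Translation by `-q (b - a) e` inside, cut off on the annulus. -/
def tmap (x e : ℂ) (a b q : ℝ) (z : ℂ) : ℂ := z - (q * prof x a b z) • e

/-- The derivative of `tmap`, `n` being the unit radial vector or zero. -/
def tlin (n e : ℂ) (q : ℝ) : ℂ →L[ℝ] ℂ :=
  ContinuousLinearMap.id ℝ ℂ + ((q • innerSL ℝ n) : ℂ →L[ℝ] ℝ).smulRight e

theorem tlin_apply (n e : ℂ) (q : ℝ) (h : ℂ) : tlin n e q h = h + (q * ⟪n, h⟫) • e := by
  simp [tlin]

theorem det_tlin (n e : ℂ) (q : ℝ) : (tlin n e q).det = 1 + q * ⟪n, e⟫ := by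
  rw [ContinuousLinearMap.det, ← LinearMap.det_toMatrix Complex.basisOneI, Matrix.det_fin_two]
  simp [LinearMap.toMatrix_apply, Complex.coe_basisOneI_repr, tlin_apply, Complex.inner]
  ring

theorem prof_nonneg (z : ℂ) : 0 ≤ prof x a b z := le_max_left _ _

theorem abs_prof_sub_le (z y : ℂ) : |prof x a b z - prof x a b y| ≤ ‖z - y‖ := by
  have h1 := abs_norm_sub_norm_le (y - x) (z - x)
  rw [sub_sub_sub_cancel_right, norm_sub_rev y z] at h1
  unfold prof
  refine (abs_max_sub_max_le_max _ _ _ _).trans ((max_le_max le_rfl le_rfl).trans ?_)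
  rw [sub_self, abs_zero, max_eq_right (abs_nonneg _)]
  refine (abs_min_sub_min_le_max _ _ _ _).trans (max_le (by simp) ?_)
  rwa [sub_sub_sub_cancel_left]

theorem norm_shift_sub_le (he : ‖e‖ = 1) (hq : 0 ≤ q) (z y : ℂ) :
    ‖(q * prof x a b z) • e - (q * prof x a b y) • e‖ ≤ q * ‖z - y‖ := by
  rw [← sub_smul, norm_smul, he, mul_one, ← mul_sub, Real.norm_eq_abs, abs_mul, abs_of_nonneg hq]
  exact mul_le_mul_of_nonneg_left (abs_prof_sub_le z y) hq

theorem tmap_eq_self {z : ℂ} (hb : ‖z - x‖ ≥ b) : tmap x e a b q z = z := by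
  have : prof x a b z = 0 := max_eq_left ((min_le_right _ _).trans (by linarith))
  simp [tmap, this]

theorem tmap_inner (hab : a ≤ b) {z : ℂ} (hz : ‖z - x‖ ≤ a) :
    tmap x e a b q z = z - (q * (b - a)) • e := by
  have : prof x a b z = b - a := by
    rw [prof, min_eq_left (by linarith), max_eq_right (by linarith)]
  rw [tmap, this]

theorem prof_annulus {z : ℂ} (ha : a ≤ ‖z - x‖) (hb : ‖z - x‖ ≤ b) :
    prof x a b z = b - ‖z - x‖ := by
  rw [prof, min_eq_right (by linarith), max_eq_right (by linarith)]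

theorem lipschitzWith_tmap (he : ‖e‖ = 1) (hq : 0 ≤ q) (hq1 : q ≤ 1 / 2) :
    LipschitzWith 2 (tmap x e a b q) := by
  refine LipschitzWith.of_dist_le_mul fun z y => ?_
  rw [dist_eq_norm, dist_eq_norm]
  have h := norm_shift_sub_le (x := x) (a := a) (b := b) he hq z y
  have h2 : q * ‖z - y‖ ≤ 1 * ‖z - y‖ := mul_le_mul_of_nonneg_right (by linarith) (norm_nonneg _)
  calc ‖tmap x e a b q z - tmap x e a b q y‖
      = ‖(z - y) - ((q * prof x a b z) • e - (q * prof x a b y) • e)‖ := by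
        simp only [tmap]; congr 1; abel
    _ ≤ ‖z - y‖ + q * ‖z - y‖ := (norm_sub_le _ _).trans (add_le_add le_rfl h)
    _ ≤ ((2 : ℝ≥0) : ℝ) * ‖z - y‖ := by push_cast; linarith

theorem antilipschitz_tmap (he : ‖e‖ = 1) (hq : 0 ≤ q) (hq1 : q ≤ 1 / 2) (z y : ℂ) :
    ‖z - y‖ ≤ 2 * ‖tmap x e a b q z - tmap x e a b q y‖ := by
  have h := norm_shift_sub_le (x := x) (a := a) (b := b) he hq z y
  have h2 : q * ‖z - y‖ ≤ 1 / 2 * ‖z - y‖ := mul_le_mul_of_nonneg_right hq1 (norm_nonneg _)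
  have h3 : ‖z - y‖ ≤ ‖tmap x e a b q z - tmap x e a b q y‖ +
      ‖(q * prof x a b z) • e - (q * prof x a b y) • e‖ := by
    refine le_trans (le_of_eq ?_) (norm_add_le _ _)
    simp only [tmap]; congr 1; abel
  linarith

theorem bijective_tmap (he : ‖e‖ = 1) (hq : 0 ≤ q) (hq1 : q ≤ 1 / 2) :
    Function.Bijective (tmap x e a b q) := by
  refine ⟨fun z y hzy => ?_, fun y => ?_⟩
  · have := antilipschitz_tmap (x := x) (a := a) (b := b) he hq hq1 z y
    rw [hzy, sub_self, norm_zero, mul_zero, norm_le_zero_iff, sub_eq_zero] at this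
    exact this
  · have hc : ContractingWith (1 / 2) fun z : ℂ => y + (q * prof x a b z) • e := by
      refine ⟨by norm_num, LipschitzWith.of_dist_le_mul fun z w => ?_⟩
      rw [dist_eq_norm, dist_eq_norm, add_sub_add_left_eq_sub]
      refine (norm_shift_sub_le he hq z w).trans (mul_le_mul_of_nonneg_right ?_ (norm_nonneg _))
      push_cast; linarith
    refine ⟨ContractingWith.fixedPoint _ hc, ?_⟩
    have := hc.fixedPoint_isFixedPt.eq
    rw [tmap, sub_eq_iff_eq_add]
    exact this.symm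

theorem tmap_mem_closedBall (he : ‖e‖ = 1) (hq : 0 ≤ q) (hq1 : q ≤ 1) {z : ℂ}
    (hz : ‖z - x‖ ≤ b) : ‖tmap x e a b q z - x‖ ≤ b := by
  have h1 : prof x a b z ≤ b - ‖z - x‖ := max_le (by linarith) (min_le_right _ _)
  have h2 : q * prof x a b z ≤ 1 * (b - ‖z - x‖) :=
    mul_le_mul hq1 h1 (prof_nonneg _) zero_le_one
  calc ‖tmap x e a b q z - x‖ = ‖(z - x) - (q * prof x a b z) • e‖ := by
        simp only [tmap]; congr 1; abel
    _ ≤ ‖z - x‖ + q * prof x a b z := by
        refine (norm_sub_le _ _).trans (le_of_eq ?_)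
        rw [norm_smul, he, mul_one, Real.norm_eq_abs,
          abs_of_nonneg (mul_nonneg hq (prof_nonneg _))]
    _ ≤ b := by linarith

theorem hasFDerivAt_tmap_inner (hab : a ≤ b) {z : ℂ} (hz : ‖z - x‖ < a) :
    HasFDerivAt (tmap x e a b q) (tlin 0 e q) z := by
  have h0 : tlin 0 e q = ContinuousLinearMap.id ℝ ℂ := by ext; simp [tlin_apply]
  rw [h0]
  refine ((hasFDerivAt_id z).sub_const ((q * (b - a)) • e)).congr_of_eventuallyEq ?_
  filter_upwards [(isOpen_lt (show Continuous fun y : ℂ => ‖y - x‖ by fun_prop)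
    continuous_const).mem_nhds hz] with y hy
  exact tmap_inner hab (le_of_lt hy)

theorem hasFDerivAt_tmap_annulus {z : ℂ} (hx : 0 < ‖z - x‖) (ha : a < ‖z - x‖)
    (hb : ‖z - x‖ < b) :
    HasFDerivAt (tmap x e a b q) (tlin (‖z - x‖⁻¹ • (z - x)) e q) z := by
  have hn : HasFDerivAt (fun y : ℂ => ‖y - x‖) (innerSL ℝ (‖z - x‖⁻¹ • (z - x))) z := by
    have h1 : HasFDerivAt (fun y : ℂ => ‖y - x‖ ^ 2) _ z :=
      ((hasFDerivAt_id z).sub_const x).norm_sq
    have h2 := h1.sqrt (by positivity)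
    have h3 : (fun y : ℂ => Real.sqrt (‖y - x‖ ^ 2)) = fun y => ‖y - x‖ :=
      funext fun y => Real.sqrt_sq (norm_nonneg _)
    rw [h3, Real.sqrt_sq (norm_nonneg _)] at h2
    refine h2.congr_fderiv ?_
    ext h
    simp [Complex.inner]
    field_simp
    ring
  have h4 := (((hn.const_sub b).const_mul q).smul_const e)
  refine (((hasFDerivAt_id z).sub h4).congr_of_eventuallyEq ?_).congr_fderiv ?_
  · have hcn : Continuous fun y : ℂ => ‖y - x‖ := by fun_prop
    have ho : IsOpen {y : ℂ | a < ‖y - x‖ ∧ ‖y - x‖ < b} :=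
      (isOpen_lt continuous_const hcn).inter (isOpen_lt hcn continuous_const)
    filter_upwards [ho.mem_nhds ⟨ha, hb⟩] with y hy
    simp [tmap, prof_annulus hy.1.le hy.2.le]
  · ext h
    simp [tlin_apply]

/-- The pointwise inequality behind the translation competitor. -/
theorem energy_density_le {G P n : ℂ} (he : ‖e‖ = 1) (hn : ‖n‖ ≤ 1) (hq : 0 ≤ q)
    (hq1 : q ≤ 1 / 2) (hP : ∀ h : ℂ, ⟪P, tlin n e q h⟫ = ⟪G, h⟫) :
    0 < 1 + q * ⟪n, e⟫ ∧ (1 + q * ⟪n, e⟫) * ‖P‖ ^ 2 ≤
      (1 + 2 * q ^ 2) * ‖G‖ ^ 2 - q * (2 * ⟪n, G⟫ * ⟪e, G⟫ - ‖G‖ ^ 2 * ⟪n, e⟫) := by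
  have hc : |q * ⟪n, e⟫| ≤ 1 / 2 := by
    rw [abs_mul, abs_of_nonneg hq]
    have := abs_real_inner_le_norm n e
    rw [he, mul_one] at this
    exact le_trans (mul_le_mul hq1 (this.trans hn) (abs_nonneg _) (by norm_num)) (by norm_num)
  have hd : 1 / 2 ≤ 1 + q * ⟪n, e⟫ := by linarith [(abs_le.1 hc).1]
  refine ⟨by linarith, ?_⟩
  have hPe : ⟪e, G⟫ = (1 + q * ⟪n, e⟫) * ⟪P, e⟫ := by
    rw [real_inner_comm G e, ← hP e, tlin_apply, inner_add_right, real_inner_smul_right]
    ring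
  have hGP : G = P + (q * ⟪P, e⟫) • n := by
    refine ext_inner_right ℝ fun h => ?_
    rw [← hP h, tlin_apply, inner_add_right, real_inner_smul_right, inner_add_left,
      real_inner_smul_left]
    ring
  set d := 1 + q * ⟪n, e⟫ with hdd
  have hne : d * ‖P‖ ^ 2 = d * ‖G‖ ^ 2 - 2 * q * ⟪e, G⟫ * ⟪n, G⟫ +
      q ^ 2 * ⟪P, e⟫ * ⟪e, G⟫ * ‖n‖ ^ 2 := by
    have hP' : P = G - (q * ⟪P, e⟫) • n := eq_sub_of_add_eq hGP.symm
    have : ‖P‖ ^ 2 = ‖G‖ ^ 2 - 2 * (q * ⟪P, e⟫) * ⟪n, G⟫ + (q * ⟪P, e⟫) ^ 2 * ‖n‖ ^ 2 := by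
      conv_lhs => rw [hP']
      rw [norm_sub_sq_real, real_inner_smul_right, norm_smul, mul_pow, Real.norm_eq_abs, sq_abs,
        real_inner_comm n G]
      ring
    rw [this, hPe]
    ring
  have h2 : ⟪P, e⟫ * ⟪e, G⟫ * ‖n‖ ^ 2 ≤ 2 * ‖G‖ ^ 2 := by
    have e1 : ⟪P, e⟫ * ⟪e, G⟫ = ⟪e, G⟫ ^ 2 / d := by
      rw [eq_div_iff (by linarith : d ≠ 0)]
      linear_combination (-⟪e, G⟫) * hPe
    have e2 : ⟪e, G⟫ ^ 2 ≤ ‖G‖ ^ 2 := by
      have := abs_real_inner_le_norm e G
      rw [he, one_mul] at this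
      exact sq_le_sq' (abs_le.1 this).1 (abs_le.1 this).2
    have e3 : ⟪e, G⟫ ^ 2 / d ≤ 2 * ‖G‖ ^ 2 := by
      rw [div_le_iff₀ (by linarith)]
      nlinarith [mul_le_mul_of_nonneg_left hd (sq_nonneg ‖G‖)]
    rw [e1]
    exact le_trans (mul_le_of_le_one_right (div_nonneg (sq_nonneg _) (by linarith))
      (pow_le_one₀ (norm_nonneg _) hn)) e3
  have h3 := mul_le_mul_of_nonneg_left h2 (sq_nonneg q)
  rw [hne, hdd]
  linarith

/-! ## The moved arc -/

/-- On a short interval the moved arc is not much longer. -/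
theorem length_step (he : ‖e‖ = 1) (hq : 0 ≤ q) {γ γ' : ℝ → ℂ} {s t ε : ℝ} (hst : s ≤ t)
    (hε : 0 ≤ ε) (hd : ∀ u ∈ Icc s t, HasDerivWithinAt γ (γ' u) (Icc s t) u)
    (hc : ∀ u ∈ Icc s t, ‖γ' u - γ' s‖ ≤ ε) :
    μH[1] ((fun u => γ u - (q * (b - u)) • e) '' Icc s t) ≤
      μH[1] (γ '' Icc s t) + ENNReal.ofReal ((2 * ε + q) * (t - s)) := by
  set A := γ' s
  have hbound : ∀ u ∈ Icc s t, ∀ v ∈ Icc s t, ‖γ v - γ u - (v - u) • A‖ ≤ ε * |v - u| := by
    intro u hu v hv
    have := (convex_Icc s t).norm_image_sub_le_of_norm_hasDerivWithin_le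
      (f := fun r => γ r - r • A) (f' := fun r => γ' r - A)
      (fun r hr => ((hd r hr).sub ((hasDerivWithinAt_id r _).smul_const A)).congr_deriv (by simp))
      hc hu hv
    rw [Real.norm_eq_abs] at this
    refine le_trans (le_of_eq ?_) this
    rw [sub_smul]; congr 1; abel
  have hlow : ENNReal.ofReal ((‖A‖ - ε) * (t - s)) ≤ μH[1] (γ '' Icc s t) := by
    have h1 := hbound s (left_mem_Icc.2 hst) t (right_mem_Icc.2 hst)
    have h2 : (‖A‖ - ε) * (t - s) ≤ ‖γ t - γ s‖ := by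
      have := norm_sub_norm_le ((t - s) • A) (γ t - γ s)
      rw [norm_sub_rev ((t - s) • A)] at this
      rw [norm_smul, Real.norm_eq_abs, abs_of_nonneg (by linarith)] at this
      rw [abs_of_nonneg (by linarith)] at h1
      linarith
    refine (ENNReal.ofReal_le_ofReal h2).trans ?_
    have hcont : ContinuousOn γ (Icc s t) := fun u hu => (hd u hu).continuousWithinAt
    have h3 := Topo.length_le_of_isPreconnected (a := γ s) (R := ‖γ t - γ s‖)
      (isPreconnected_Icc.image _ hcont) (mem_image_of_mem γ (left_mem_Icc.2 hst))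
      (mem_image_of_mem γ (right_mem_Icc.2 hst)) (by rw [dist_eq_norm])
    rw [dist_self, sub_zero] at h3
    exact h3.trans (measure_mono inter_subset_left)
  have hlip : LipschitzOnWith (Real.toNNReal (‖A‖ + ε + q))
      (fun u => γ u - (q * (b - u)) • e) (Icc s t) := by
    refine LipschitzOnWith.of_dist_le_mul fun u hu v hv => ?_
    rw [Real.coe_toNNReal _ (by positivity), dist_eq_norm, Real.dist_eq]
    have h1 := hbound v hv u hu
    calc ‖γ u - (q * (b - u)) • e - (γ v - (q * (b - v)) • e)‖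
        = ‖(γ u - γ v - (u - v) • A) + ((u - v) • A + (q * (u - v)) • e)‖ := by
          congr 1
          rw [show q * (b - u) = q * (b - v) - q * (u - v) by ring, sub_smul _ (q * (u - v))]
          abel
      _ ≤ ε * |u - v| + (|u - v| * ‖A‖ + q * |u - v|) := by
          refine (norm_add_le _ _).trans (add_le_add h1 ((norm_add_le _ _).trans (le_of_eq ?_)))
          rw [norm_smul, norm_smul, he, mul_one, Real.norm_eq_abs, Real.norm_eq_abs, abs_mul,
            abs_of_nonneg hq]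
      _ = _ := by ring
  refine (hlip.hausdorffMeasure_image_le zero_le_one).trans ?_
  rw [hausdorffMeasure_real, Real.volume_Icc, ENNReal.rpow_one]
  calc ((Real.toNNReal (‖A‖ + ε + q) : ℝ≥0) : ℝ≥0∞) * ENNReal.ofReal (t - s)
      = ENNReal.ofReal ((‖A‖ + ε + q) * (t - s)) := by
        rw [ENNReal.ofReal_mul (by positivity)]; rfl
    _ ≤ ENNReal.ofReal ((‖A‖ - ε) * (t - s)) + ENNReal.ofReal ((2 * ε + q) * (t - s)) :=
        (ENNReal.ofReal_le_ofReal (by linarith)).trans ENNReal.ofReal_add_le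
    _ ≤ _ := add_le_add hlow le_rfl

/-- The moved arc is at most `q (b - a)` longer. -/
theorem length_moved (he : ‖e‖ = 1) (hq : 0 ≤ q) {γ γ' : ℝ → ℂ} {a b : ℝ} (hab : a ≤ b)
    (hd : ∀ u ∈ Icc a b, HasDerivWithinAt γ (γ' u) (Icc a b) u)
    (hc : ContinuousOn γ' (Icc a b)) (hinj : InjOn γ (Icc a b)) :
    μH[1] ((fun u => γ u - (q * (b - u)) • e) '' Icc a b) ≤
      μH[1] (γ '' Icc a b) + ENNReal.ofReal (q * (b - a)) := by
  refine ENNReal.le_of_forall_pos_le_add fun η hη _ => ?_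
  set ε : ℝ := (η : ℝ) / (2 * (b - a) + 1)
  have hη' : (0 : ℝ) < η := hη
  have hε : 0 < ε := div_pos hη' (by linarith)
  obtain ⟨δ, hδ, huc⟩ := Metric.uniformContinuousOn_iff.1
    (isCompact_Icc.uniformContinuousOn_of_continuous hc) ε hε
  obtain ⟨N, hN⟩ := exists_nat_gt ((b - a) / δ)
  have hN0 : (0 : ℝ) < N := lt_of_le_of_lt (div_nonneg (by linarith) hδ.le) hN
  set Δ := (b - a) / N with hΔ
  have hΔ0 : 0 ≤ Δ := div_nonneg (by linarith) hN0.le
  have hΔδ : Δ < δ := by
    rw [hΔ, div_lt_iff₀ hN0]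
    rw [div_lt_iff₀ hδ] at hN
    linarith
  set g := fun u => γ u - (q * (b - u)) • e
  have hcont : ContinuousOn γ (Icc a b) := fun u hu => (hd u hu).continuousWithinAt
  have key : ∀ k : ℕ, k ≤ N → μH[1] (g '' Icc a (a + k * Δ)) ≤
      μH[1] (γ '' Icc a (a + k * Δ)) + ENNReal.ofReal ((2 * ε + q) * (k * Δ)) := by
    intro k
    induction k with
    | zero =>
      have := Measure.nullSingletonClass_hausdorff ℂ (zero_lt_one' ℝ)
      simp
    | succ k ih =>
      intro hk
      have hk' : (k : ℝ) + 1 ≤ N := by exact_mod_cast hk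
      have hNΔ : (N : ℝ) * Δ = b - a := by rw [hΔ]; field_simp
      set s := a + k * Δ
      set t := a + ((k + 1 : ℕ) : ℝ) * Δ
      have hkΔ : (0 : ℝ) ≤ k * Δ := by positivity
      have hs : a ≤ s := le_add_of_nonneg_right hkΔ
      have hts : t - s = Δ := by simp only [s, t]; push_cast; ring
      have htb : t ≤ b := by
        have := mul_le_mul_of_nonneg_right hk' hΔ0
        simp only [t]; push_cast; linarith
      have hsub : Icc s t ⊆ Icc a b := Icc_subset_Icc hs htb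
      have hstep := length_step (b := b) he hq (by linarith : s ≤ t) hε.le
        (fun u hu => (hd u (hsub hu)).mono hsub) fun u hu => by
          rw [← dist_eq_norm]
          refine (huc u (hsub hu) s (hsub (left_mem_Icc.2 (by linarith))) ?_).le
          rw [Real.dist_eq, abs_of_nonneg (by linarith [hu.1])]
          linarith [hu.2]
      rw [← Icc_union_Icc_eq_Icc hs (by linarith : s ≤ t), image_union, image_union]
      refine (measure_union_le _ _).trans ((add_le_add (ih (by omega)) hstep).trans (le_of_eq ?_))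
      have hm : MeasurableSet (γ '' Icc s t) :=
        (isCompact_Icc.image_of_continuousOn (hcont.mono hsub)).measurableSet
      have hnull : μH[1] (γ '' Icc a s ∩ γ '' Icc s t) = 0 := by
        have := Measure.nullSingletonClass_hausdorff ℂ (zero_lt_one' ℝ)
        rw [← hinj.image_inter (Icc_subset_Icc le_rfl (by linarith)) hsub]
        refine measure_mono_null (image_mono (t := {s}) ?_) (by simp)
        intro u hu
        exact le_antisymm hu.1.2 hu.2.1
      have hu := measure_union_add_inter (μ := (μH[1] : Measure ℂ)) (γ '' Icc a s) hm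
      rw [hnull, add_zero] at hu
      rw [hu, add_add_add_comm, ← ENNReal.ofReal_add (by positivity)
        (mul_nonneg (by positivity) (by linarith))]
      congr 2
      rw [hts]; push_cast; ring
  have := key N le_rfl
  rw [show (N : ℝ) * Δ = b - a by rw [hΔ]; field_simp, add_sub_cancel] at this
  refine this.trans ?_
  rw [add_assoc]
  refine add_le_add le_rfl ?_
  rw [show ((η : ℝ≥0∞)) = ENNReal.ofReal η by simp, ← ENNReal.ofReal_add
    (mul_nonneg hq (by linarith)) hη'.le]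
  refine ENNReal.ofReal_le_ofReal ?_
  have h1 : ε * (2 * (b - a) + 1) = η := div_mul_cancel₀ _ (by linarith)
  linarith

end Vale.Agent.P128.Regularity.Translate
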