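import Vale.Agent.P128.Regularity.Spec
import Vale.Agent.P128.Regularity.TranslateMap
import Vale.Agent.P128.Bridge.Sobolev
import Vale.Agent.P128.Bridge.Upper

/-!
# P128 regularity R9: the translation competitor at a tip
-/

open MeasureTheory Set Metric Filter
open scoped ENNReal NNReal Topology Real RealInnerProductSpace

noncomputable section

namespace Vale.Agent.P128.Regularity

open Vale.Agent.P128.Bridge

namespace Translate

variable {U K : Set ℂ} {u : ℂ → ℝ} {G : ℂ → ℂ} {A M Λ : ℝ}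

theorem locallyLipschitzOn_almostMin (h : IsAlmostMin U K u G A M Λ) :
    LocallyLipschitzOn (U \ K) u := by
  intro y hy
  have hcd : ContDiffAt ℝ 1 u y := by
    refine ContDiffOn.contDiffAt ?_ (h.isOpen_compl.mem_nhds hy)
    refine (contDiffOn_succ_iff_fderiv_of_isOpen (n := 0) h.isOpen_compl).2
      ⟨fun z hz => (h.hasGrad z hz).differentiableAt.differentiableWithinAt,
        fun hn => absurd hn (by simp), ?_⟩
    rw [contDiffOn_zero]
    exact ((innerSL ℝ).continuous.comp_continuousOn h.contGrad).congr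
      fun z hz => (h.hasGrad z hz).fderiv
  obtain ⟨c, t, ht, hl⟩ := hcd.exists_lipschitzOnWith
  exact ⟨c, t, nhdsWithin_le_nhds ht, hl⟩

theorem enorm_sq_eq (z : ℂ) : ‖z‖ₑ ^ 2 = ENNReal.ofReal (‖z‖ ^ 2) := by
  rw [← ofReal_norm, ENNReal.ofReal_pow (norm_nonneg _)]

/-- The radial unit vector on the annulus, zero inside. -/
def radial (x : ℂ) (a : ℝ) (z : ℂ) : ℂ :=
  if ‖z - x‖ ≤ a then 0 else ‖z - x‖⁻¹ • (z - x)

theorem translate_ineq (h : IsAlmostMin U K u G A M Λ) {x : ℂ} {R : ℝ} {γ γ' : Fin 1 → ℝ → ℂ}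
    (hB : Branches K 1 x R γ γ') (hRU : closedBall x R ⊆ U) {a b q : ℝ} (ha : 0 < a) (hab : a < b)
    (hbR : b < R) (hq : 0 < q) (hq1 : q ≤ 1 / 2) {e : ℂ} (he : ‖e‖ = 1) :
    q * ∫ z in (closedBall x b \ closedBall x a) \ K, stress G x e z ≤
      2 * q ^ 2 * (2 * π * b + Λ * b ^ 2) + q * (b - a) + Λ * b ^ 2 := by
  classical
  have hb : 0 < b := ha.trans hab
  have hΛ : 0 ≤ Λ := (mul_nonneg h.A_nonneg h.M_nonneg).trans h.AM_le
  have hbU : closedBall x b ⊆ U := (closedBall_subset_closedBall hbR.le).trans hRU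
  set Φ := tmap x e a b q with hΦdef
  have hbij : Function.Bijective Φ := bijective_tmap he hq.le hq1
  set Ψ : ℂ → ℂ := ⇑(Equiv.ofBijective Φ hbij).symm with hΨdef
  have hΦΨ : ∀ y, Φ (Ψ y) = y := fun y => (Equiv.ofBijective Φ hbij).apply_symm_apply y
  have hΨΦ : ∀ z, Ψ (Φ z) = z := fun z => (Equiv.ofBijective Φ hbij).symm_apply_apply z
  have hΨL : LipschitzWith 2 Ψ := by
    refine LipschitzWith.of_dist_le_mul fun y y' => ?_
    rw [dist_eq_norm, dist_eq_norm]
    have := antilipschitz_tmap (x := x) (a := a) (b := b) he hq.le hq1 (Ψ y) (Ψ y')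
    rw [← hΦdef, hΦΨ, hΦΨ] at this
    simpa using this
  have hout : ∀ z, z ∉ closedBall x b → Φ z = z := fun z hz => by
    rw [mem_closedBall, dist_eq_norm] at hz
    exact tmap_eq_self (by linarith)
  have hin : ∀ z, Φ z ∈ closedBall x b ↔ z ∈ closedBall x b := by
    intro z
    refine ⟨fun hz => ?_, fun hz => ?_⟩
    · by_contra hzn
      rw [hout z hzn] at hz
      exact hzn hz
    · rw [mem_closedBall, dist_eq_norm] at hz ⊢
      exact tmap_mem_closedBall he hq.le (by linarith) hz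
  have hUiff : ∀ z, Φ z ∈ U ↔ z ∈ U := by
    intro z
    by_cases hz : z ∈ closedBall x b
    · exact iff_of_true (hbU ((hin z).2 hz)) (hbU hz)
    · rw [hout z hz]
  set L := Φ '' K with hLdef
  have hmemL : ∀ z, Φ z ∈ L ↔ z ∈ K := fun z => hbij.1.mem_set_image
  have hLU : L ⊆ U := by
    rintro _ ⟨z, hz, rfl⟩
    exact (hUiff z).2 (h.subset hz)
  have hpre : U \ L = Ψ ⁻¹' (U \ K) := by
    ext y
    have h1 := hUiff (Ψ y)
    have h2 := hmemL (Ψ y)
    rw [hΦΨ] at h1 h2
    rw [mem_preimage, Set.mem_sdiff, Set.mem_sdiff, h1, h2]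
  have hLopen : IsOpen (U \ L) := hpre ▸ h.isOpen_compl.preimage hΨL.continuous
  have hLK : L \ closedBall x b = K \ closedBall x b := by
    ext y
    simp only [Set.mem_sdiff]
    refine and_congr_left fun hy => ?_
    have hy' : Φ y = y := hout y hy
    exact ⟨fun hyL => by rwa [← hy', hmemL] at hyL, fun hyK => hy' ▸ (hmemL y).2 hyK⟩
  set w : ℂ → ℝ := u ∘ Ψ with hw
  have hwlip : LocallyLipschitzOn (U \ L) w := by
    intro y hy
    rw [hpre] at hy
    obtain ⟨c, t, ht, hl⟩ := locallyLipschitzOn_almostMin h hy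
    rw [h.isOpen_compl.nhdsWithin_eq hy] at ht
    exact ⟨c * 2, Ψ ⁻¹' t, nhdsWithin_le_nhds (hΨL.continuous.continuousAt ht),
      hl.comp hΨL.lipschitzOnWith (mapsTo_preimage _ _)⟩
  have hwout : ∀ᵐ y ∂volume.restrict (U \ closedBall x b), w y = u y := by
    filter_upwards [ae_restrict_mem (h.isOpen.measurableSet.diff measurableSet_closedBall)]
      with y hy
    show u (Ψ y) = u y
    congr 1
    apply hbij.1
    rw [hΦΨ, hout y hy.2]
  have hcomp := h.almostMin x b hb hbU L w (gradOf w) hLU hLopen hLK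
    (isSobolevOn_of_locallyLipschitzOn hLopen hwlip) hwout
  -- the sets
  set O := closedBall x b \ K with hOdef
  have hO : MeasurableSet O := by
    have : O = closedBall x b ∩ (U \ K) :=
      ext fun z => ⟨fun hz => ⟨hz.1, hbU hz.1, hz.2⟩, fun hz => ⟨hz.1, hz.2.2⟩⟩
    rw [this]
    exact measurableSet_closedBall.inter h.isOpen_compl.measurableSet
  set An := ball x b \ closedBall x a with hAndef
  have hAn : IsOpen An := isOpen_ball.sdiff isClosed_closedBall
  set S := (ball x a ∪ An) ∩ (U \ K) with hSdef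
  have hS : IsOpen S := (isOpen_ball.union hAn).inter h.isOpen_compl
  have hSO : S ⊆ O := by
    rintro z ⟨hz | hz, hzK⟩
    · exact ⟨ball_subset_closedBall (ball_subset_ball hab.le hz), hzK.2⟩
    · exact ⟨ball_subset_closedBall hz.1, hzK.2⟩
  have hder : ∀ z ∈ S, HasFDerivAt Φ (tlin (radial x a z) e q) z := by
    rintro z ⟨hz | hz, -⟩
    · rw [mem_ball, dist_eq_norm] at hz
      rw [radial, if_pos hz.le]
      exact hasFDerivAt_tmap_inner hab.le hz
    · rw [hAndef, Set.mem_sdiff, mem_ball, mem_closedBall, dist_eq_norm, not_le] at hz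
      rw [radial, if_neg (not_le.2 hz.2)]
      exact hasFDerivAt_tmap_annulus (ha.trans hz.2) hz.2 hz.1
  have hradial : ∀ z, ‖radial x a z‖ ≤ 1 := by
    intro z
    rw [radial]
    split
    · simp
    · rw [norm_smul, norm_inv, norm_norm]
      exact inv_mul_le_one
  set F : ℂ → ℝ := fun z => (1 + 2 * q ^ 2) * ‖G z‖ ^ 2 - q * An.indicator (stress G x e) z
    with hFdef
  have hpt : ∀ z ∈ S, 0 ≤ F z ∧ ENNReal.ofReal |(tlin (radial x a z) e q).det| *
      ‖gradOf w (Φ z)‖ₑ ^ 2 ≤ ENNReal.ofReal (F z) := by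
    intro z hz
    set n := radial x a z with hn
    have hdet : (tlin n e q).det ≠ 0 := by
      rw [det_tlin]
      have := abs_real_inner_le_norm n e
      rw [he, mul_one] at this
      have := abs_le.1 (this.trans (hradial z))
      nlinarith
    set T := (tlin n e q).toContinuousLinearEquivOfDetNeZero hdet
    have hT : (T : ℂ →L[ℝ] ℂ) = tlin n e q :=
      ContinuousLinearMap.coe_toContinuousLinearEquivOfDetNeZero _ hdet
    have hΨd : HasFDerivAt Ψ (T.symm : ℂ →L[ℝ] ℂ) (Φ z) := by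
      refine HasFDerivAt.of_local_left_inverse hΨL.continuous.continuousAt ?_
        (Eventually.of_forall hΦΨ)
      rw [hΨΦ, hT]
      exact hder z hz
    have hu : HasFDerivAt u (innerSL ℝ (G z)) z := h.hasGrad z hz.2
    have hwd : DifferentiableAt ℝ w (Φ z) := by
      refine DifferentiableAt.comp _ ?_ hΨd.differentiableAt
      rw [hΨΦ]; exact hu.differentiableAt
    have hchain : (fderiv ℝ w (Φ z)).comp (tlin n e q) = innerSL ℝ (G z) := by
      have h1 := hwd.hasFDerivAt.comp z (hder z hz)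
      have h2 : w ∘ Φ = u := funext fun y => by simp [w, hΨΦ]
      rw [h2] at h1
      exact h1.unique hu
    obtain ⟨h1, h2⟩ := energy_density_le (P := gradOf w (Φ z)) (G := G z) he (hradial z) hq.le hq1
      fun k => by
        rw [inner_gradOf, ← ContinuousLinearMap.comp_apply, hchain, innerSL_apply_apply]
    have hF : (1 + 2 * q ^ 2) * ‖G z‖ ^ 2 -
        q * (2 * ⟪n, G z⟫ * ⟪e, G z⟫ - ‖G z‖ ^ 2 * ⟪n, e⟫) = F z := by
      rcases hz.1 with hza | hza
      · have hni : z ∉ An := fun hA => hA.2 (ball_subset_closedBall hza)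
        rw [mem_ball, dist_eq_norm] at hza
        have : n = 0 := if_pos hza.le
        simp [hFdef, this, indicator_of_notMem hni]
      · have hn' : n = ‖z - x‖⁻¹ • (z - x) := if_neg fun hle => hza.2 (by
          rwa [mem_closedBall, dist_eq_norm])
        simp only [hFdef, indicator_of_mem hza, stress, hn']
    rw [hF] at h2
    refine ⟨le_trans (mul_nonneg h1.le (sq_nonneg _)) h2, ?_⟩
    rw [enorm_sq_eq, det_tlin, ← ENNReal.ofReal_mul (abs_nonneg _), abs_of_pos h1]
    exact ENNReal.ofReal_le_ofReal h2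
  have hnull : volume (Φ '' sphere x a ∪ sphere x b) = 0 := by
    refine measure_union_null (measure_mono_null (t := sphere (x - (q * (b - a)) • e) a) ?_
      (Measure.addHaar_sphere _ _ _)) (Measure.addHaar_sphere _ _ _)
    rintro _ ⟨z, hz, rfl⟩
    rw [mem_sphere, dist_eq_norm] at hz ⊢
    rw [hΦdef, tmap_inner hab.le hz.le]
    simpa using hz
  have hcover : closedBall x b \ L ≤ᵐ[volume] (Φ '' S : Set ℂ) := by
    filter_upwards [measure_eq_zero_iff_ae_notMem.1 hnull] with y hy (hyL : y ∈ closedBall x b \ L)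
    show y ∈ Φ '' S
    have hz : Ψ y ∈ closedBall x b := (hin _).1 (by rw [hΦΨ]; exact hyL.1)
    have hzK : Ψ y ∉ K := fun hk => hyL.2 ⟨_, hk, hΦΨ y⟩
    refine ⟨Ψ y, ⟨?_, hbU hz, hzK⟩, hΦΨ y⟩
    simp only [mem_union, not_or] at hy
    have hne : ‖Ψ y - x‖ ≠ a := fun he' => hy.1 ⟨Ψ y, by rwa [mem_sphere, dist_eq_norm], hΦΨ y⟩
    have hnb : ‖Ψ y - x‖ ≠ b := fun hb' => hy.2 (by
      have h3 := tmap_eq_self (e := e) (a := a) (q := q) hb'.ge
      rw [← hΦdef, hΦΨ] at h3
      rw [h3, mem_sphere, dist_eq_norm]; exact hb')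
    rw [mem_closedBall, dist_eq_norm] at hz
    rcases lt_or_gt_of_ne hne with hlt | hgt
    · exact Or.inl (by rwa [mem_ball, dist_eq_norm])
    · refine Or.inr ⟨?_, ?_⟩
      · rw [mem_ball, dist_eq_norm]; exact lt_of_le_of_ne hz hnb
      · rw [mem_closedBall, dist_eq_norm, not_le]; exact hgt
  -- integrability
  have hfin : weakEnergy K G (closedBall x b) < ⊤ := h.finite _ (isCompact_closedBall x b) hbU
  have hD : ∫⁻ z in O, ‖G z‖ₑ ^ 2 ≠ ⊤ := (lt_of_le_of_lt le_self_add hfin).ne
  have hiG : IntegrableOn (fun z => ‖G z‖ ^ 2) O := by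
    refine ⟨?_, ?_⟩
    · exact ((h.contGrad.norm.pow 2).aestronglyMeasurable h.isOpen_compl.measurableSet).mono_measure
        (Measure.restrict_mono (fun z hz => show z ∈ U \ K from ⟨hbU hz.1, hz.2⟩) le_rfl)
    · rw [hasFiniteIntegral_iff_ofReal (ae_of_all _ fun z => sq_nonneg _)]
      simp only [← enorm_sq_eq]
      exact lt_top_iff_ne_top.2 hD
  have hAO : An ∩ (U \ K) ⊆ O := fun z hz => ⟨ball_subset_closedBall hz.1.1, hz.2.2⟩
  have hAopen : IsOpen (An ∩ (U \ K)) := hAn.inter h.isOpen_compl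
  have hcst : ContinuousOn (stress G x e) (An ∩ (U \ K)) := by
    have hG : ContinuousOn G (An ∩ (U \ K)) := h.contGrad.mono inter_subset_right
    have hn : ContinuousOn (fun z => (‖z - x‖)⁻¹ • (z - x)) (An ∩ (U \ K)) := by
      have hc : ContinuousOn (fun z : ℂ => ‖z - x‖) (An ∩ (U \ K)) := by fun_prop
      refine (hc.inv₀ fun z hz => ?_).smul (continuousOn_id.sub continuousOn_const)
      have : z ∉ closedBall x a := hz.1.2
      rw [mem_closedBall, dist_eq_norm, not_le] at this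
      exact (ha.trans this).ne'
    exact (((continuousOn_const.mul (hn.inner hG))).mul (continuousOn_const.inner hG)).sub
      ((hG.norm.pow 2).mul (hn.inner continuousOn_const))
  have hist : IntegrableOn (stress G x e) (An ∩ (U \ K)) := by
    refine Integrable.mono' ((hiG.mono_set hAO).const_mul 3)
      (hcst.aestronglyMeasurable hAopen.measurableSet) (Eventually.of_forall fun z => ?_)
    set n := (‖z - x‖)⁻¹ • (z - x)
    have hn1 : ‖n‖ ≤ 1 := by
      rw [norm_smul, norm_inv, norm_norm]; exact inv_mul_le_one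
    have b1 : |⟪n, G z⟫| ≤ ‖G z‖ :=
      (abs_real_inner_le_norm _ _).trans (mul_le_of_le_one_left (norm_nonneg _) hn1)
    have b2 : |⟪e, G z⟫| ≤ ‖G z‖ :=
      (abs_real_inner_le_norm _ _).trans (le_of_eq (by rw [he, one_mul]))
    have b3 : |⟪n, e⟫| ≤ 1 := (abs_real_inner_le_norm _ _).trans (by rw [he, mul_one]; exact hn1)
    rw [Real.norm_eq_abs]
    calc |stress G x e z| ≤ 2 * (|⟪n, G z⟫| * |⟪e, G z⟫|) + ‖G z‖ ^ 2 * |⟪n, e⟫| := by
          refine (abs_sub _ _).trans (le_of_eq ?_)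
          rw [abs_mul, abs_mul, abs_mul, abs_two, abs_of_nonneg (sq_nonneg ‖G z‖)]
          ring
      _ ≤ 2 * (‖G z‖ * ‖G z‖) + ‖G z‖ ^ 2 * 1 := by gcongr
      _ = 3 * ‖G z‖ ^ 2 := by ring
  have hSA : An ∩ (U \ K) = S ∩ An := by
    ext z
    simp only [hSdef, mem_inter_iff, mem_union]
    tauto
  have hiInd : IntegrableOn (An.indicator (stress G x e)) S := by
    rw [IntegrableOn, integrable_indicator_iff hAn.measurableSet, IntegrableOn,
      Measure.restrict_restrict hAn.measurableSet, inter_comm, ← hSA]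
    exact hist
  set D := ∫ z in O, ‖G z‖ ^ 2 with hDdef
  set I := ∫ z in (closedBall x b \ closedBall x a) \ K, stress G x e z with hIdef
  have hI : ∫ z in S, An.indicator (stress G x e) z = I := by
    rw [setIntegral_indicator hAn.measurableSet, ← hSA, hIdef]
    refine setIntegral_congr_set ?_
    filter_upwards [measure_eq_zero_iff_ae_notMem.1 (Measure.addHaar_sphere volume x b)]
      with z hz
    have hne : dist z x ≠ b := fun hd => hz hd
    show (z ∈ An ∩ (U \ K)) = (z ∈ (closedBall x b \ closedBall x a) \ K)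
    simp only [hAndef, mem_inter_iff, Set.mem_sdiff, mem_ball, mem_closedBall, eq_iff_iff]
    exact ⟨fun ⟨⟨h1, h2⟩, _, h3⟩ => ⟨⟨h1.le, h2⟩, h3⟩,
      fun ⟨⟨h1, h2⟩, h3⟩ => ⟨⟨lt_of_le_of_ne h1 hne, h2⟩, hbU h1, h3⟩⟩
  have hiF : IntegrableOn F S := ((hiG.mono_set hSO).const_mul _).sub (hiInd.const_mul q)
  have hX : ∫ z in S, F z ≤ (1 + 2 * q ^ 2) * D - q * I := by
    rw [hFdef, integral_sub ((hiG.mono_set hSO).const_mul _) (hiInd.const_mul q),
      integral_const_mul, integral_const_mul, hI]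
    have := setIntegral_mono_set hiG (ae_of_all _ fun z => sq_nonneg ‖G z‖) hSO.eventuallyLE
    have := mul_le_mul_of_nonneg_left this (show 0 ≤ 1 + 2 * q ^ 2 by positivity)
    linarith
  have hX0 : 0 ≤ ∫ z in S, F z := setIntegral_nonneg hS.measurableSet fun z hz => (hpt z hz).1
  have hDL : ∫⁻ z in closedBall x b \ L, ‖gradOf w z‖ₑ ^ 2 ≤
      ENNReal.ofReal ((1 + 2 * q ^ 2) * D - q * I) := by
    calc ∫⁻ z in closedBall x b \ L, ‖gradOf w z‖ₑ ^ 2
        ≤ ∫⁻ z in Φ '' S, ‖gradOf w z‖ₑ ^ 2 := lintegral_mono_set' hcover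
      _ = ∫⁻ z in S, ENNReal.ofReal |(tlin (radial x a z) e q).det| * ‖gradOf w (Φ z)‖ₑ ^ 2 :=
          lintegral_image_eq_lintegral_abs_det_fderiv_mul volume hS.measurableSet
            (fun z hz => (hder z hz).hasFDerivWithinAt) hbij.1.injOn _
      _ ≤ ∫⁻ z in S, ENNReal.ofReal (F z) :=
          setLIntegral_mono' hS.measurableSet fun z hz => (hpt z hz).2
      _ = ENNReal.ofReal (∫ z in S, F z) := (ofReal_integral_eq_lintegral_ofReal hiF
          (ae_restrict_of_forall_mem hS.measurableSet fun z hz => (hpt z hz).1)).symm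
      _ ≤ _ := ENNReal.ofReal_le_ofReal hX
  -- the length
  have hγK : ∀ t ∈ Icc a b, γ 0 t ∈ K ∧ ‖γ 0 t - x‖ = t := by
    intro t ht
    have ht' : t ∈ Ioo (0 : ℝ) R := ⟨ha.trans_le ht.1, lt_of_le_of_lt ht.2 hbR⟩
    have hm : γ 0 t ∈ K ∩ ball x R := by
      rw [hB.cover]
      exact Or.inr (mem_iUnion.2 ⟨0, mem_image_of_mem _ ht'⟩)
    exact ⟨hm.1, hB.radial 0 t ht'⟩
  have hIoo : Icc a b ⊆ Ioo (0 : ℝ) R := fun t ht =>
    ⟨ha.trans_le ht.1, lt_of_le_of_lt ht.2 hbR⟩
  have hdγ : ∀ t ∈ Icc a b, HasDerivWithinAt (γ 0) (γ' 0 t) (Icc a b) t := fun t ht =>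
    (hB.deriv 0 t (hIoo ht)).1.hasDerivWithinAt
  have hinj : InjOn (γ 0) (Icc a b) := fun s hs t ht hst => by
    rw [← (hγK s hs).2, ← (hγK t ht).2, hst]
  have hmove := length_moved (b := b) he hq.le hab.le hdγ ((hB.cont 0).mono hIoo) hinj
  have hHL : μH[1] (L ∩ closedBall x b) ≤
      μH[1] (K ∩ closedBall x b) + ENNReal.ofReal (q * (b - a)) := by
    have hsub : L ∩ closedBall x b ⊆
        (fun z => z - (q * (b - a)) • e) '' (K ∩ closedBall x a) ∪
          (fun t => γ 0 t - (q * (b - t)) • e) '' Icc a b := by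
      rintro _ ⟨⟨z, hzK, rfl⟩, hz⟩
      rw [hin, mem_closedBall, dist_eq_norm] at hz
      rcases le_or_gt ‖z - x‖ a with hza | hza
      · refine Or.inl ⟨z, ⟨hzK, by rwa [mem_closedBall, dist_eq_norm]⟩, ?_⟩
        exact (tmap_inner hab.le hza).symm
      · have hzb : z ∈ K ∩ ball x R := ⟨hzK, by rw [mem_ball, dist_eq_norm]; linarith⟩
        rw [hB.cover] at hzb
        rcases hzb with rfl | hzb
        · simp at hza; linarith
        obtain ⟨i, t, ht, rfl⟩ := mem_iUnion.1 hzb
        obtain rfl : i = 0 := Subsingleton.elim _ _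
        rw [hB.radial 0 t ht] at hza hz
        refine Or.inr ⟨t, ⟨hza.le, hz⟩, ?_⟩
        have hr := hB.radial 0 t ht
        show _ = tmap x e a b q (γ 0 t)
        rw [tmap, prof_annulus (by linarith) (by linarith), hr]
    have hiso : μH[1] ((fun z => z - (q * (b - a)) • e) '' (K ∩ closedBall x a)) =
        μH[1] (K ∩ closedBall x a) :=
      Isometry.hausdorffMeasure_image (Isometry.of_dist_eq fun y z => by simp)
        (Or.inl zero_le_one) _
    have hsplit : μH[1] (K ∩ closedBall x a) + μH[1] (γ 0 '' Icc a b) ≤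
        μH[1] (K ∩ closedBall x b) := by
      have hm : MeasurableSet (γ 0 '' Icc a b) :=
        (isCompact_Icc.image_of_continuousOn fun t ht => (hdγ t ht).continuousWithinAt).measurableSet
      have hnull : μH[1] (K ∩ closedBall x a ∩ γ 0 '' Icc a b) = 0 := by
        have := Measure.nullSingletonClass_hausdorff ℂ (zero_lt_one' ℝ)
        refine measure_mono_null (t := {γ 0 a}) ?_ (measure_singleton _)
        rintro _ ⟨⟨-, hz⟩, t, ht, rfl⟩
        rw [mem_closedBall, dist_eq_norm, (hγK t ht).2] at hz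
        rw [le_antisymm hz ht.1]; rfl
      have hu := measure_union_add_inter (μ := (μH[1] : Measure ℂ)) (K ∩ closedBall x a) hm
      rw [hnull, add_zero] at hu
      rw [← hu]
      refine measure_mono (union_subset (inter_subset_inter_right _
        (closedBall_subset_closedBall hab.le)) ?_)
      rintro _ ⟨t, ht, rfl⟩
      exact ⟨(hγK t ht).1, by rw [mem_closedBall, dist_eq_norm, (hγK t ht).2]; exact ht.2⟩
    refine (measure_mono hsub).trans ((measure_union_le _ _).trans ?_)
    rw [hiso]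
    refine (add_le_add le_rfl hmove).trans ?_
    rw [← add_assoc]
    exact add_le_add hsplit le_rfl
  -- conclusion
  set X := (1 + 2 * q ^ 2) * D - q * I
  have hX1 : 0 ≤ X := hX0.trans hX
  have hDe : ∫⁻ z in O, ‖G z‖ₑ ^ 2 = ENNReal.ofReal D := by
    simp only [enorm_sq_eq]
    exact (ofReal_integral_eq_lintegral_ofReal hiG (ae_of_all _ fun z => sq_nonneg _)).symm
  have hD0 : 0 ≤ D := setIntegral_nonneg hO fun z _ => sq_nonneg _
  have hHK : μH[1] (K ∩ closedBall x b) ≠ ⊤ := (lt_of_le_of_lt le_add_self hfin).ne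
  have hup : D ≤ 2 * π * b + Λ * b ^ 2 := by
    refine (ENNReal.ofReal_le_ofReal_iff (by positivity)).1 ?_
    rw [← hDe]
    exact le_self_add.trans (upper U K u G A M Λ h x b hb hbU)
  have hqw : 0 ≤ q * (b - a) := mul_nonneg hq.le (by linarith)
  have hmain : D ≤ X + q * (b - a) + Λ * b ^ 2 := by
    refine (ENNReal.ofReal_le_ofReal_iff (by positivity)).1 ?_
    refine (ENNReal.add_le_add_iff_right hHK).1 ?_
    rw [ENNReal.ofReal_add (by positivity) (by positivity), ENNReal.ofReal_add hX1 hqw, ← hDe]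
    refine hcomp.trans ((add_le_add (add_le_add hDL hHL) le_rfl).trans (le_of_eq ?_))
    ring
  have := mul_le_mul_of_nonneg_left hup (show 0 ≤ 2 * q ^ 2 by positivity)
  simp only [X] at hmain
  linarith

end Translate

open Translate in
/-- R9: the translation competitor. -/
theorem translate : TranslateSpec := by
  refine ⟨25, 1 / 4, by norm_num, by norm_num, ?_⟩
  intro U K u G A M Λ hAM x R γ γ' hB hRU a h ha hh hh2 hR hΛa e he
  have hΛ : 0 ≤ Λ := (mul_nonneg hAM.A_nonneg hAM.M_nonneg).trans hAM.AM_le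
  set b := a * (1 + h) with hb
  set I := ∫ z in (closedBall x b \ closedBall x a) \ K, stress G x e z
  have hab : a < b := by rw [hb]; exact lt_mul_of_one_lt_right ha (by linarith)
  have hb2 : b ≤ 3 / 2 * a := by rw [hb]; nlinarith
  have hD : 2 * π * b + Λ * b ^ 2 ≤ 11 * a := by
    have h1 : 2 * π * b ≤ 2 * 3.15 * (3 / 2 * a) := by
      gcongr; exact Real.pi_lt_d2.le
    have h2 : Λ * b ^ 2 ≤ Λ * (3 / 2 * a) ^ 2 := by gcongr
    have h3 : Λ * (3 / 2 * a) ^ 2 = Λ * a * (9 / 4 * a) := by ring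
    have h4 : Λ * a * (9 / 4 * a) ≤ 1 / 4 * (9 / 4 * a) :=
      mul_le_mul_of_nonneg_right hΛa (by linarith)
    norm_num at h1
    linarith
  have key : ∀ q : ℝ, 0 < q → q ≤ 1 / 2 →
      q * I ≤ 2 * q ^ 2 * (11 * a) + q * (a * h) + Λ * b ^ 2 := by
    intro q hq hq1
    have := translate_ineq hAM hB hRU ha hab hR hq hq1 he
    have := mul_le_mul_of_nonneg_left hD (show 0 ≤ 2 * q ^ 2 by positivity)
    rw [show b - a = a * h by rw [hb]; ring] at *
    linarith
  rcases (mul_nonneg hΛ ha.le).eq_or_lt with h0 | h0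
  · have hΛ0 : Λ = 0 := by
      rcases mul_eq_zero.1 h0.symm with h | h
      · exact h
      · exact absurd h ha.ne'
    subst hΛ0
    refine le_of_forall_pos_le_add fun η hη => ?_
    simp only [zero_mul, Real.sqrt_zero, mul_zero, add_zero]
    set q := min (1 / 2) (η / (22 * a)) with hq
    have hq0 : 0 < q := lt_min (by norm_num) (by positivity)
    have h1 := key q hq0 (min_le_left _ _)
    have h2 : 22 * a * q ≤ η := by
      have := min_le_right (1 / 2) (η / (22 * a))
      rw [← hq, le_div_iff₀ (by positivity)] at this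
      linarith
    refine le_of_mul_le_mul_left ?_ hq0
    have := mul_le_mul_of_nonneg_left h2 hq0.le
    linarith
  · set q := Real.sqrt (Λ * a)
    have hq0 : 0 < q := Real.sqrt_pos.2 h0
    have hq1 : q ≤ 1 / 2 := by
      rw [Real.sqrt_le_left (by norm_num)]; linarith
    have h1 := key q hq0 hq1
    have hq2 : q ^ 2 = Λ * a := Real.sq_sqrt h0.le
    have h2 : Λ * b ^ 2 ≤ Λ * (3 / 2 * a) ^ 2 := by gcongr
    have h3 : Λ * (3 / 2 * a) ^ 2 = 9 / 4 * a * q ^ 2 := by rw [hq2]; ring
    refine le_of_mul_le_mul_left ?_ hq0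
    have : q * (a * (h + 25 * q)) = q * (a * h) + 25 * a * q ^ 2 := by ring
    have : (0 : ℝ) ≤ a * q ^ 2 := by positivity
    linarith

end Vale.Agent.P128.Regularity
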