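import Vale.Agent.P128.Bridge.Assemble
import Vale.Agent.P128.Bridge.Reg
import Vale.Agent.P128.Regularity.Q1
import Vale.Agent.P128.Regularity.ClassGlue
import Vale.Agent.P128.Regularity.Trichotomy.Main
import Vale.Agent.P128.Regularity.LineTopo
import Vale.Agent.P128.Regularity.Excess
import Vale.Agent.P128.Regularity.LineFlat
import Vale.Agent.P128.Regularity.StarExcess
import Vale.Agent.P128.Regularity.StarFlat
import Vale.Agent.P128.Regularity.Branch
import Vale.Agent.P128.Regularity.Arcs
import Vale.Agent.P128.Regularity.Translate
import Vale.Agent.P128.Regularity.TipAlgebra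

/-!
# P128 regularity: assembly
-/

noncomputable section

namespace Vale.Agent.P128.Regularity

open Vale.Agent.P128.Bridge

/-- Q1 from the classification and the remaining pieces. -/
theorem q1_of (hClass : ClassSpec) (hLG : LineGraphSpec) (hLD : LineDecaySpec)
    (hSD : StarDecaySpec) (hTD : TipDecaySpec) : Q1Spec :=
  q1_of_pieces reg (trichotomy hClass compactSpec) (lineFlat lineTopo hLD excess) hLG branchSpec
    (starExcess hSD excess) hTD starFlat arcsSpec

end Vale.Agent.P128.Regularity
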