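import Vale.Agent.P128.Regularity.Spec
import Vale.Agent.P128.Regularity.Decay.Common
import Vale.Agent.P128.Circle.Eilenberg

/-!
# P128 regularity R3: energy decay in a line region
-/

open MeasureTheory Set Metric Filter
open scoped ENNReal NNReal Topology Real RealInnerProductSpace

noncomputable section

namespace Vale.Agent.P128.Regularity

open Vale.Agent.P128.Bridge Vale.Agent.P128.Regularity.Decay

namespace LineDecay

variable {K : Set ℂ} {z : ℂ} {s ε : ℝ}

/-- A point near a line through `z` is near a multiple of the direction. -/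
theorem exists_coeff {d w : ℂ} (hw : w ∈ starSet 2 z d) : ∃ a : ℝ, w - z = a • d := by
  obtain ⟨k, t, -, rfl⟩ := mem_iUnion.1 hw
  fin_cases k
  · exact ⟨t, by simp⟩
  · refine ⟨-t, ?_⟩
    simp [Complex.exp_pi_mul_I]

theorem spread_of_flat (hs : 0 < s) (hε1 : ε ≤ 1 / 100) {p q : ℂ}
    (hp : p ∈ K ∩ sphere z s) (hq : q ∈ K ∩ sphere z s) (hpq : ⟪p - z, q - z⟫ < 0)
    (hflat : Flat K 2 z s ε) (v : ℂ) (hv : ‖v‖ = 1) :
    ∃ y ∈ K ∩ sphere z s, -(3 / 100 * s) ≤ ⟪y - z, v⟫ := by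
  obtain ⟨d, hd, hnear, -⟩ := hflat
  obtain ⟨w, hw, hpw⟩ := hnear p ⟨hp.1, sphere_subset_closedBall hp.2⟩
  obtain ⟨w', hw', hqw⟩ := hnear q ⟨hq.1, sphere_subset_closedBall hq.2⟩
  obtain ⟨a, ha⟩ := exists_coeff hw
  obtain ⟨b, hb⟩ := exists_coeff hw'
  set e := p - w with he
  set e' := q - w' with he'
  have hp' : p - z = a • d + e := by rw [← ha, he]; abel
  have hq' : q - z = b • d + e' := by rw [← hb, he']; abel
  have hne : ‖e‖ ≤ ε * s := by rwa [he, ← dist_eq_norm]
  have hne' : ‖e'‖ ≤ ε * s := by rwa [he', ← dist_eq_norm]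
  have hεs : ε * s ≤ s / 100 := by
    calc ε * s ≤ 1 / 100 * s := mul_le_mul_of_nonneg_right hε1 hs.le
      _ = s / 100 := by ring
  have hnp : ‖p - z‖ = s := by rw [← dist_eq_norm]; exact hp.2
  have hnq : ‖q - z‖ = s := by rw [← dist_eq_norm]; exact hq.2
  have had : ‖a • d‖ = |a| := by rw [norm_smul, hd, mul_one, Real.norm_eq_abs]
  have hbd : ‖b • d‖ = |b| := by rw [norm_smul, hd, mul_one, Real.norm_eq_abs]
  have habs : 99 / 100 * s ≤ |a| ∧ |a| ≤ 101 / 100 * s := by
    have h1 := norm_add_le (a • d) e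
    have h2 := norm_le_add_norm_add (a • d) e
    rw [← hp', hnp, had] at h1 h2
    constructor <;> linarith
  have hbbs : 99 / 100 * s ≤ |b| ∧ |b| ≤ 101 / 100 * s := by
    have h1 := norm_add_le (b • d) e'
    have h2 := norm_le_add_norm_add (b • d) e'
    rw [← hq', hnq, hbd] at h1 h2
    constructor <;> linarith
  have hab : a * b < 0 := by
    have hexp : ⟪p - z, q - z⟫ = a * b + ⟪a • d, e'⟫ + ⟪e, q - z⟫ := by
      rw [hp', inner_add_left, hq', inner_add_right, real_inner_smul_left, real_inner_smul_right,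
        real_inner_self_eq_norm_sq, hd]
      ring
    have h1 : |⟪a • d, e'⟫| ≤ 101 / 100 * s * (s / 100) := by
      refine (abs_real_inner_le_norm _ _).trans ?_
      rw [had]
      exact mul_le_mul habs.2 (hne'.trans hεs) (norm_nonneg _) (by positivity)
    have h2 : |⟪e, q - z⟫| ≤ s / 100 * s := by
      refine (abs_real_inner_le_norm _ _).trans ?_
      rw [hnq]
      exact mul_le_mul_of_nonneg_right (hne.trans hεs) hs.le
    by_contra hnn
    rw [not_lt] at hnn
    have h3 : a * b = |a| * |b| := by rw [← abs_mul, abs_of_nonneg hnn]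
    have h4 : 99 / 100 * s * (99 / 100 * s) ≤ |a| * |b| :=
      mul_le_mul habs.1 hbbs.1 (by positivity) (abs_nonneg _)
    nlinarith [(abs_le.1 h1).1, (abs_le.1 h2).1, mul_pos hs hs]
  have hle : ∀ (c : ℝ) (y g : ℂ), y - z = c • d + g → ‖g‖ ≤ ε * s → 0 ≤ c * ⟪d, v⟫ →
      -(3 / 100 * s) ≤ ⟪y - z, v⟫ := by
    intro c y g hy hg hc
    rw [hy, inner_add_left, real_inner_smul_left]
    have := abs_real_inner_le_norm g v
    rw [hv, mul_one] at this
    linarith [(abs_le.1 (this.trans (hg.trans hεs))).1]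
  rcases le_total 0 (a * ⟪d, v⟫) with hc | hc
  · exact ⟨p, hp, hle a p e hp' hne hc⟩
  · refine ⟨q, hq, hle b q e' hq' hne' ?_⟩
    by_contra hneg
    rw [not_le] at hneg
    have h5 : 0 ≤ a * ⟪d, v⟫ * (b * ⟪d, v⟫) := mul_nonneg_of_nonpos_of_nonpos hc hneg.le
    have h6 : 0 < ⟪d, v⟫ * ⟪d, v⟫ := mul_self_pos.2 fun h0 => by simp [h0] at hneg
    nlinarith [mul_neg_of_neg_of_pos hab h6]

theorem label_of_separated (h : Separated K z s) :
    ∃ σ : ℂ → Fin 3, ContinuousOn σ (closedBall z s \ K) ∧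
      ∀ y ∈ sphere z s \ K, ∀ w ∈ sphere z s \ K, σ y = σ w →
        w ∈ connectedComponentIn (sphere z s \ K) y := by
  obtain ⟨σ, hσ, hsep⟩ := h
  refine ⟨fun y => if σ y then 1 else 0,
    (continuous_of_discreteTopology (f := fun b : Bool => if b then (1 : Fin 3) else 0))
      |>.comp_continuousOn hσ, fun y hy w hw he => hsep y hy w hw ?_⟩
  revert he
  show (if σ y then (1 : Fin 3) else 0) = (if σ w then (1 : Fin 3) else 0) → σ y = σ w
  cases σ y <;> cases σ w <;> simp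

end LineDecay

open LineDecay in
/-- R3: energy decay in a line region. -/
theorem lineDecay (hTopo : LineTopoSpec) : LineDecaySpec := by
  obtain ⟨ε₁, hε₁, htopo⟩ := hTopo
  refine ⟨min ε₁ (1 / 1000), 8, lt_min hε₁ (by norm_num), by norm_num, ?_⟩
  intro U K u G A M Λ h x R hL z hz r hr
  set ε := min ε₁ (1 / 1000) with hε
  have hR := hL.pos
  have hεle : ε ≤ 1 / 1000 := min_le_right _ _
  have hε0 : 0 < ε := lt_min hε₁ (by norm_num)
  have hsub3 : closedBall x (3 * R) ⊆ U :=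
    (closedBall_subset_closedBall (by linarith)).trans hL.ball_subset
  have hflat : ∀ y ∈ K ∩ closedBall x R, ∀ s ∈ Ioc (0 : ℝ) (2 * R), Flat K 2 y s ε₁ := by
    intro y hy s hs
    obtain ⟨d, hd, h1, h2⟩ := (hL.regime y hy s hs).1
    have hmono : ε * s ≤ ε₁ * s := mul_le_mul_of_nonneg_right (min_le_left _ _) hs.1.le
    exact ⟨d, hd, fun a ha => (h1 a ha).imp fun b hb => ⟨hb.1, hb.2.trans hmono⟩,
      fun a ha => (h2 a ha).imp fun b hb => ⟨hb.1, hb.2.trans hmono⟩⟩
  have ht := htopo K x R hR hL.mem (h.isCompact_inter hsub3).isClosed (weak_lt_top h hsub3).2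
    hflat z hz
  have hzR : z ∈ K ∩ closedBall x R := ⟨hz.1, closedBall_subset_closedBall (by linarith) hz.2⟩
  set S := R / 4 with hS
  have hS0 : 0 < S := by positivity
  have hsubS : closedBall z S ⊆ U :=
    (closedBall_subset_closedBall' (by linarith [mem_closedBall.1 hz.2])).trans hL.ball_subset
  have hreg : ∀ s ∈ Ioc 0 S, Flat K 2 z s ε ∧
      μH[1] (K ∩ closedBall z s) ≤ ENNReal.ofReal ((2 + ε) * s) ∧
      dball K G z s ≤ ENNReal.ofReal (ε * s) := fun s hs => by
    obtain ⟨h1, h2, h3, -⟩ := hL.regime z hzR s ⟨hs.1, hs.2.trans (by linarith)⟩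
    exact ⟨h1, by simpa using h2, h3 (by norm_num)⟩
  set B : ℝ → ℝ≥0∞ := fun s => ((K ∩ sphere z s).encard : ℝ≥0∞) - 2 with hBdef
  have hcnt : ∀ s ∈ Ioc 0 S, 2 ≤ (K ∩ sphere z s).encard ∧ (1 ≤ B s ∨ Sectored K z s) := by
    intro s hs
    obtain ⟨⟨p, hp, q, hq, hpq⟩, hsep⟩ := ht s hs
    have hne : p ≠ q := by
      rintro rfl
      rw [real_inner_self_eq_norm_sq] at hpq
      linarith [sq_nonneg ‖p - z‖]
    have hsub2 : ({p, q} : Set ℂ) ⊆ K ∩ sphere z s := Set.pair_subset hp hq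
    refine ⟨(encard_pair hne).symm.le.trans (encard_mono hsub2), ?_⟩
    by_cases heq : K ∩ sphere z s = {p, q}
    · refine Or.inr ⟨heq ▸ (Set.toFinite _),
        fun v hv => spread_of_flat hs.1 (hεle.trans (by norm_num)) hp hq hpq (hreg s hs).1 v hv,
        label_of_separated (hsep p q hne heq).1⟩
    · left
      obtain ⟨w, hw, hwn⟩ := Set.exists_of_ssubset (hsub2.ssubset_of_ne (Ne.symm heq))
      have h3 : (3 : ℕ∞) ≤ (K ∩ sphere z s).encard := by
        refine le_trans (le_of_eq ?_) (encard_mono (Set.insert_subset hw hsub2))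
        rw [encard_insert_of_notMem hwn, encard_pair hne]
        rfl
      have h3' : (3 : ℝ≥0∞) ≤ ((K ∩ sphere z s).encard : ℝ≥0∞) := by
        have := ENat.toENNReal_le.2 h3
        simpa using this
      refine le_trans (le_of_eq ?_) (tsub_le_tsub_right h3' 2)
      rw [show (3 : ℝ≥0∞) = 1 + 2 by norm_num, ENNReal.add_sub_cancel_right (by norm_num)]
  have hB : ∀ t ∈ Ioc 0 S, ∫⁻ s in Ioo 0 t, B s ≤ ENNReal.ofReal (t / 1000) := by
    intro t htI
    have h1 : ∫⁻ s in Ioo 0 t, ((K ∩ sphere z s).encard : ℝ≥0∞) ≤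
        ENNReal.ofReal ((2 + ε) * t) := by
      refine le_trans ?_ (((eilenberg_dist z (K ∩ closedBall z t))).trans (hreg t htI).2.1)
      refine le_trans (setLIntegral_mono' measurableSet_Ioo fun s hs => ?_)
        (setLIntegral_le_lintegral _ _)
      exact ENat.toENNReal_le.2
        (encard_mono fun y hy => ⟨⟨hy.1, mem_closedBall.2 (hy.2.le.trans hs.2.le)⟩, hy.2⟩)
    have h2 : ∫⁻ s in Ioo 0 t, ((K ∩ sphere z s).encard : ℝ≥0∞) =
        ENNReal.ofReal (2 * t) + ∫⁻ s in Ioo 0 t, B s := by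
      rw [ENNReal.ofReal_mul (by norm_num), ENNReal.ofReal_ofNat]
      conv_rhs => rw [← sub_zero t, ← Real.volume_Ioo, ← setLIntegral_const, sub_zero]
      rw [← lintegral_add_left measurable_const]
      refine setLIntegral_congr_fun measurableSet_Ioo fun s hs => ?_
      have h2le : (2 : ℝ≥0∞) ≤ ((K ∩ sphere z s).encard : ℝ≥0∞) := by
        have := ENat.toENNReal_le.2 (hcnt s ⟨hs.1, hs.2.le.trans htI.2⟩).1
        simpa using this
      simp only [hBdef]
      rw [add_tsub_cancel_of_le h2le]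
    rw [h2, show (2 + ε) * t = 2 * t + ε * t by ring,
      ENNReal.ofReal_add (by linarith [htI.1]) (mul_nonneg hε0.le htI.1.le),
      ENNReal.add_le_add_iff_left ENNReal.ofReal_ne_top] at h1
    refine h1.trans (ENNReal.ofReal_le_ofReal ?_)
    nlinarith [htI.1]
  have hgood : ∀ᵐ s ∂volume.restrict (Ioo 0 S), 1 ≤ B s ∨ Sectored K z s := by
    filter_upwards [ae_restrict_mem measurableSet_Ioo] with s hs
    exact (hcnt s ⟨hs.1, hs.2.le⟩).2
  refine (dball_decay h hS0 hsubS B hB hgood r hr).trans (ENNReal.ofReal_le_ofReal ?_)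
  have hDS : dirEn K G z S / S ≤ 1 := by
    rw [div_le_one hS0]
    refine (dirEn_le h hsubS (by positivity) (hreg S ⟨hS0, le_rfl⟩).2.2).trans ?_
    nlinarith
  have hΛ : 100 * (π * Λ) * S ≤ 1 := by
    nlinarith [hL.small, Real.pi_lt_four, h.Lambda_nonneg,
      mul_le_mul_of_nonneg_left Real.pi_lt_four.le (mul_nonneg h.Lambda_nonneg hR.le)]
  have hsq : Real.sqrt (r / S) = 2 * Real.sqrt (r / R) := by
    rw [hS, show r / (R / 4) = 4 * (r / R) by field_simp, Real.sqrt_mul (by norm_num),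
      show (4 : ℝ) = 2 ^ 2 by norm_num, Real.sqrt_sq (by norm_num)]
  rw [hsq]
  nlinarith [mul_le_mul_of_nonneg_right (show dirEn K G z S / S + 100 * (π * Λ) * S ≤ 2 by linarith)
    (mul_nonneg hr.1.le (Real.sqrt_nonneg (r / R)))]

end Vale.Agent.P128.Regularity
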