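import Vale.Agent.P128.Regularity.LineGraph.Tangent

/-!
# P128 regularity, R6: decaying flatness gives a `C^{1,β}` graph

In the frame of the tangent at `x`, chords between points of `K` are almost horizontal; the
projection is onto by a nearest-point argument, so `K` is a graph, whose slope is the tangent.
-/

open MeasureTheory Set Metric Filter
open scoped ENNReal Topology Real RealInnerProductSpace

noncomputable section

namespace Vale.Agent.P128.Regularity

open Vale.Agent.P128.Bridge LineGraph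

theorem lineGraph : LineGraphSpec := by
  intro C β hC hβ hβ1
  obtain ⟨ε₀, M, hε, hM, htan⟩ := exists_tangent C β hC hβ hβ1
  refine ⟨ε₀, 8 * M, hε, by positivity, fun K x R hR hx hclosed hflat => ?_⟩
  obtain ⟨T, hT⟩ := htan K x R hR hflat
  have hxB : x ∈ K ∩ closedBall x R := ⟨hx, mem_closedBall_self hR.le⟩
  set d : ℂ := T x with hd_def
  have hd : ‖d‖ = 1 := (hT x hxB).1
  set S : Set ℂ := K ∩ closedBall x (R / 2) with hS
  have hSB : S ⊆ K ∩ closedBall x R :=
    inter_subset_inter_right _ (closedBall_subset_closedBall (by linarith))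
  have hnorm : ∀ z ∈ S, ‖z - x‖ ≤ R / 2 := fun z hz => by
    rw [← dist_eq_norm]; exact mem_closedBall.1 hz.2
  have hclose : ∀ z ∈ S, ∀ p ∈ S, ‖p - z‖ ≤ R := fun z hz p hp => by
    calc ‖p - z‖ = ‖(p - x) - (z - x)‖ := by rw [sub_sub_sub_cancel_right]
      _ ≤ ‖p - x‖ + ‖z - x‖ := norm_sub_le _ _
      _ ≤ R := by linarith [hnorm z hz, hnorm p hp]
  -- the tangents are almost horizontal and Hölder
  have hTT : ∀ z ∈ S, ∀ p ∈ S, |sn (T z) (T p)| ≤ 1 / 200 ∧
      |sn (T z) (T p)| ≤ 2 * (M * (‖p - z‖ / R) ^ β) := fun z hz p hp => by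
    rcases eq_or_ne p z with rfl | hne
    · rw [sn_self]
      simp only [abs_zero, sub_self, norm_zero, zero_div]
      exact ⟨by norm_num, by positivity⟩
    have hs : 0 < ‖p - z‖ := norm_pos_iff.2 (sub_ne_zero.2 hne)
    obtain ⟨hTz, hcz, -⟩ := hT z (hSB hz)
    obtain ⟨hTp, hcp, -⟩ := hT p (hSB hp)
    have h1 := hcz p hp.1 (hclose z hz p hp)
    have h2 := hcp z hz.1 (hclose p hp z hz)
    have hneg : |sn (z - p) (T p)| = |sn (p - z) (T p)| := by
      rw [← neg_sub p z, sn, sn, inner_neg_left, abs_neg]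
    rw [norm_sub_rev z p, hneg] at h2
    have h := norm_mul_abs_sn_le (p - z) (T z) (T p) hTz hTp
    constructor <;> refine le_of_mul_le_mul_left ?_ hs
    · linarith [h1.1, h2.1]
    · linarith [h1.2, h2.2]
  have hTd : ∀ z ∈ S, |sn (T z) d| ≤ 1 / 200 := fun z hz =>
    (hTT z hz x ⟨hx, mem_closedBall_self (by linarith)⟩).1
  have hcos : ∀ z ∈ S, 199 / 200 ≤ |⟪T z, d⟫| := fun z hz => by
    have := norm_le_coord (T z) d hd
    rw [(hT z (hSB hz)).1] at this
    linarith [hTd z hz]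
  -- chords are almost horizontal
  have hchord : ∀ z ∈ S, ∀ p ∈ S,
      |sn (p - z) d| ≤ |⟪p - z, d⟫| / 100 ∧ ‖p - z‖ ≤ 101 / 100 * |⟪p - z, d⟫| :=
    fun z hz p hp => by
    obtain ⟨hTz, hcz, -⟩ := hT z (hSB hz)
    have h1 := (hcz p hp.1 (hclose z hz p hp)).1
    have h2 := abs_sn_trans (p - z) (T z) d hTz hd
    have h3 := mul_le_mul_of_nonneg_left (hTd z hz) (norm_nonneg (p - z))
    have h4 := norm_le_coord (p - z) d hd
    have h5 := abs_nonneg ⟪p - z, d⟫
    constructor <;> linarith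
  have huniq : ∀ z ∈ S, ∀ p ∈ S, ⟪z - x, d⟫ = ⟪p - x, d⟫ → z = p := fun z hz p hp he => by
    have h := (hchord p hp z hz).2
    rw [show z - p = (z - x) - (p - x) by ring, inner_sub_left, he, sub_self, abs_zero, mul_zero]
      at h
    exact sub_left_injective (sub_eq_zero.1 (norm_le_zero_iff.1 h))
  have hxS : x ∈ S := ⟨hx, mem_closedBall_self (by linarith)⟩
  -- every abscissa is attained
  have honto : ∀ t ∈ Icc (-(R / 8)) (R / 8), ∃ p ∈ S, ⟪p - x, d⟫ = t := by
    intro t ht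
    have ht' : |t| ≤ R / 8 := abs_le.2 ⟨ht.1, ht.2⟩
    have hScomp : IsCompact S := by
      have h : S = K ∩ closedBall x R ∩ closedBall x (R / 2) := by
        rw [hS, inter_assoc, inter_eq_self_of_subset_right
          (closedBall_subset_closedBall (by linarith))]
      rw [h]
      exact (isCompact_closedBall x (R / 2)).inter_left hclosed
    set A : Set ℝ := (fun p : ℂ => ⟪p - x, d⟫) '' (S ∩ {p | |⟪p - x, d⟫| ≤ R / 4})
    have hA : IsCompact A :=
      (hScomp.inter_right (isClosed_le (by fun_prop) continuous_const)).image (by fun_prop)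
    have h0 : (0 : ℝ) ∈ A := ⟨x, ⟨hxS, by simp; linarith⟩, by simp⟩
    obtain ⟨a, ⟨p, ⟨hpS, hpA⟩, hpa⟩, hinf⟩ := hA.exists_infDist_eq_dist ⟨0, h0⟩ t
    have hbest : ∀ b ∈ A, |t - a| ≤ |t - b| := fun b hb => by
      have := Metric.infDist_le_dist_of_mem (x := t) hb
      rwa [hinf, Real.dist_eq, Real.dist_eq] at this
    simp only at hpa
    by_contra hno
    have hne : a ≠ t := fun h => hno ⟨p, hpS, hpa.trans h⟩
    have hh : 0 < |t - a| := abs_pos.2 (sub_ne_zero.2 hne.symm)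
    have hhR : |t - a| ≤ R / 8 := (hbest 0 h0).trans (by rwa [sub_zero])
    obtain ⟨hTp, -, hscale⟩ := hT p (hSB hpS)
    obtain ⟨r, dp, hr, hrh, hdp, hnear, hdir⟩ := hscale _ ⟨hh, by linarith⟩
    have hdpd : |sn dp d| ≤ 1 / 100 := by
      have := abs_sn_trans dp (T p) d hTp hd
      rw [hdp] at this
      linarith [hTd p hpS]
    have hc : 99 / 100 ≤ |⟪dp, d⟫| ∧ |⟪dp, d⟫| ≤ 1 := by
      have := norm_le_coord dp d hd
      have := abs_inner_le dp d hd
      rw [hdp] at *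
      constructor <;> linarith
    obtain ⟨τ, hτ, hτsign⟩ : ∃ τ : ℝ, |τ| = r ∧ 0 ≤ τ * ⟪dp, d⟫ * (t - a) := by
      rcases le_total 0 (⟪dp, d⟫ * (t - a)) with h | h
      · exact ⟨r, abs_of_pos hr, by rw [mul_assoc]; exact mul_nonneg hr.le h⟩
      · exact ⟨-r, by rw [abs_neg, abs_of_pos hr],
          by rw [mul_assoc]; exact mul_nonneg_of_nonpos_of_nonpos (by linarith) h⟩
    obtain ⟨w, hwK, hwd⟩ := near_pt hdp hnear hτ.le
    have hwa : ⟪w - x, d⟫ = a + τ * ⟪dp, d⟫ + ⟪w - (p + τ • dp), d⟫ := by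
      rw [← hpa, ← real_inner_smul_left, ← inner_add_left, ← inner_add_left]
      congr 1
      ring
    have hη : |⟪w - (p + τ • dp), d⟫| ≤ 1 / 400 * r := (abs_inner_le _ _ hd).trans hwd
    have hc' : |τ * ⟪dp, d⟫| = r * |⟪dp, d⟫| := by rw [abs_mul, hτ]
    have hrc : 99 / 100 * r ≤ r * |⟪dp, d⟫| ∧ r * |⟪dp, d⟫| ≤ r :=
      ⟨by rw [mul_comm (99 / 100 : ℝ)]; exact mul_le_mul_of_nonneg_left hc.1 hr.le,
        mul_le_of_le_one_right hr.le hc.2⟩
    have hbetter : |t - ⟪w - x, d⟫| < |t - a| := by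
      rw [hwa]
      obtain ⟨hη1, hη2⟩ := abs_le.1 hη
      rcases hne.lt_or_gt with hlt | hlt
      · rw [abs_of_pos (sub_pos.2 hlt)] at hrh hh ⊢
        have h1 : 0 ≤ τ * ⟪dp, d⟫ := nonneg_of_mul_nonneg_left hτsign (sub_pos.2 hlt)
        rw [abs_of_nonneg h1] at hc'
        rw [abs_lt]
        constructor <;> linarith [hrc.1, hrc.2]
      · rw [abs_of_neg (sub_neg.2 hlt)] at hrh hh ⊢
        have h1 : τ * ⟪dp, d⟫ ≤ 0 := by
          by_contra hcon
          exact absurd hτsign (not_le.2 (mul_neg_of_pos_of_neg (not_le.1 hcon) (sub_neg.2 hlt)))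
        rw [abs_of_nonpos h1] at hc'
        rw [abs_lt]
        constructor <;> linarith [hrc.1, hrc.2]
    have hwA : |⟪w - x, d⟫| ≤ R / 4 := by
      have := abs_sub_abs_le_abs_sub ⟪w - x, d⟫ t
      rw [abs_sub_comm] at this
      linarith
    have hwS : w ∈ S := by
      refine ⟨hwK, ?_⟩
      rw [mem_closedBall, dist_eq_norm]
      have hp1 := (hchord x hxS p hpS).2
      have hp2 : ‖w - x‖ ≤ ‖p - x‖ + ‖w - (p + τ • dp)‖ + ‖τ • dp‖ := by
        rw [show w - x = (p - x) + (w - (p + τ • dp)) + τ • dp by ring]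
        exact (norm_add_le _ _).trans (by gcongr; exact norm_add_le _ _)
      rw [norm_smul, hdp, mul_one, Real.norm_eq_abs, hτ] at hp2
      rw [mem_ofPred_eq] at hpA
      linarith
    exact absurd (hbest _ ⟨w, ⟨hwS, hwA⟩, rfl⟩) (not_le.2 hbetter)
  choose! P hPS hPa using honto
  -- height and slope
  set f : ℝ → ℝ := fun t => sn (P t - x) d
  set f' : ℝ → ℝ := fun t => sn (T (P t)) d / ⟪T (P t), d⟫
  have hρ : (0 : ℝ) ∈ Icc (-(R / 8)) (R / 8) := ⟨by linarith, by linarith⟩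
  have hP0 : P 0 = x := huniq _ (hPS 0 hρ) _ hxS (by rw [hPa 0 hρ]; simp)
  have hdiff : ∀ s ∈ Icc (-(R / 8)) (R / 8), ∀ t ∈ Icc (-(R / 8)) (R / 8),
      ⟪P s - P t, d⟫ = s - t ∧ sn (P s - P t) d = f s - f t ∧
        ‖P s - P t‖ ≤ 101 / 100 * |s - t| := fun s hs t ht => by
    have e : ⟪P s - P t, d⟫ = s - t := by
      rw [show P s - P t = (P s - x) - (P t - x) by ring, inner_sub_left, hPa s hs, hPa t ht]
    refine ⟨e, ?_, e ▸ (hchord _ (hPS t ht) _ (hPS s hs)).2⟩
    change _ = sn (P s - x) d - sn (P t - x) d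
    rw [show P s - P t = (P s - x) - (P t - x) by ring, sn, inner_sub_left]
    rfl
  have hpow : ∀ s ∈ Icc (-(R / 8)) (R / 8), ∀ t ∈ Icc (-(R / 8)) (R / 8),
      (‖P s - P t‖ / R) ^ β ≤ (|s - t| / (R / 8)) ^ β := fun s hs t ht => by
    refine Real.rpow_le_rpow (by positivity) ?_ hβ.le
    rw [le_div_iff₀ (by linarith), div_mul_eq_mul_div, div_le_iff₀ hR]
    nlinarith [(hdiff s hs t ht).2.2, abs_nonneg (s - t)]
  refine ⟨d, f, f', ⟨hd, by linarith, ?_, fun t ht => ?_, fun t ht => ?_, fun s hs t ht => ?_,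
    fun z hza hzb => ?_⟩, ?_⟩
  · simp [f, hP0, sn]
  · rw [hasDerivWithinAt_iff_isLittleO, Asymptotics.isLittleO_iff]
    intro c hc
    have hz : Tendsto (fun y => 4 * M * (|y - t| / (R / 8)) ^ β)
        (𝓝[Icc (-(R / 8)) (R / 8)] t) (𝓝 0) := by
      have hcont : Continuous fun y : ℝ => 4 * M * (|y - t| / (R / 8)) ^ β :=
        continuous_const.mul ((by fun_prop : Continuous fun y : ℝ => |y - t| / (R / 8)).rpow_const
          fun _ => Or.inr hβ.le)
      have := hcont.tendsto t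
      rw [sub_self, abs_zero, zero_div, Real.zero_rpow hβ.ne', mul_zero] at this
      exact this.mono_left nhdsWithin_le_nhds
    filter_upwards [hz.eventually (eventually_le_nhds hc), self_mem_nhdsWithin] with y hy hyI
    obtain ⟨ha, hb, hn⟩ := hdiff y hyI t ht
    obtain ⟨-, hct, -⟩ := hT (P t) (hSB (hPS t ht))
    have hk := (hct (P y) (hPS y hyI).1 (hclose _ (hPS t ht) _ (hPS y hyI))).2
    have he := sn_frame (P y - P t) (T (P t)) d hd
    rw [ha, hb] at he
    have hct0 : ⟪T (P t), d⟫ ≠ 0 := fun h => by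
      have := hcos _ (hPS t ht)
      rw [h, abs_zero] at this
      linarith
    have hrw : f y - f t - (y - t) • f' t = sn (P y - P t) (T (P t)) / ⟪T (P t), d⟫ := by
      rw [he, smul_eq_mul, sub_div, mul_div_cancel_left₀ _ hct0, mul_div_assoc]
    rw [Real.norm_eq_abs, Real.norm_eq_abs, hrw, abs_div,
      div_le_iff₀ (abs_pos.2 hct0)]
    have hb0 : M * (‖P y - P t‖ / R) ^ β * ‖P y - P t‖ ≤
        M * (|y - t| / (R / 8)) ^ β * (2 * |y - t|) :=
      mul_le_mul (mul_le_mul_of_nonneg_left (hpow y hyI t ht) hM.le)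
        (by linarith [abs_nonneg (y - t)]) (norm_nonneg _) (by positivity)
    calc |sn (P y - P t) (T (P t))| ≤ (4 * M * (|y - t| / (R / 8)) ^ β) * |y - t| * (1 / 2) := by
          linarith [hk, hb0]
      _ ≤ c * |y - t| * |⟪T (P t), d⟫| :=
          mul_le_mul (mul_le_mul_of_nonneg_right hy (abs_nonneg _))
            (by linarith [hcos _ (hPS t ht)]) (by norm_num) (by positivity)
  · rw [abs_div, div_le_iff₀ (by linarith [hcos _ (hPS t ht)])]
    linarith [hTd _ (hPS t ht), hcos _ (hPS t ht)]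
  · have h1 := hcos _ (hPS s hs)
    have h2 := hcos _ (hPS t ht)
    have hs0 : ⟪T (P s), d⟫ ≠ 0 := fun h => by rw [h, abs_zero] at h1; linarith
    have ht0 : ⟪T (P t), d⟫ ≠ 0 := fun h => by rw [h, abs_zero] at h2; linarith
    have hrw : f' s - f' t = sn (T (P s)) (T (P t)) / (⟪T (P s), d⟫ * ⟪T (P t), d⟫) := by
      rw [sn_frame (T (P s)) (T (P t)) d hd, div_sub_div _ _ hs0 ht0]
      congr 1
      ring
    rw [hrw, abs_div, abs_mul, div_le_iff₀ (by positivity)]
    have h3 := (hTT _ (hPS s hs) _ (hPS t ht)).2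
    have h4 := mul_le_mul_of_nonneg_left (hpow t ht s hs) hM.le
    rw [abs_sub_comm t s] at h4
    have h5 : 1 / 4 ≤ |⟪T (P s), d⟫| * |⟪T (P t), d⟫| := by nlinarith
    have h6 := mul_le_mul_of_nonneg_left h5
      (show 0 ≤ 8 * M * (|s - t| / (R / 8)) ^ β by positivity)
    linarith
  · have hzS : z ∈ K → z ∈ S := fun hz => by
      refine ⟨hz, ?_⟩
      rw [mem_closedBall, dist_eq_norm]
      have := norm_le_coord (z - x) d hd
      change |sn (z - x) d| ≤ R / 8 at hzb
      linarith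
    have hI : ⟪z - x, d⟫ ∈ Icc (-(R / 8)) (R / 8) := abs_le.1 hza
    refine ⟨fun hz => ?_, fun hz => ?_⟩
    · have := huniq _ (hzS hz) _ (hPS _ hI) (hPa _ hI).symm
      change sn (z - x) d = sn (P ⟪z - x, d⟫ - x) d
      rw [← this]
    · change sn (z - x) d = sn (P ⟪z - x, d⟫ - x) d at hz
      have e1 : ⟪z - P ⟪z - x, d⟫, d⟫ = 0 := by
        rw [show z - P ⟪z - x, d⟫ = (z - x) - (P ⟪z - x, d⟫ - x) by ring, inner_sub_left,
          hPa _ hI, sub_self]
      have e2 : sn (z - P ⟪z - x, d⟫) d = 0 := by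
        rw [show z - P ⟪z - x, d⟫ = (z - x) - (P ⟪z - x, d⟫ - x) by ring, sn, inner_sub_left]
        exact sub_eq_zero.2 hz
      have h := norm_le_coord (z - P ⟪z - x, d⟫) d hd
      rw [e1, e2, abs_zero, add_zero, norm_le_zero_iff, sub_eq_zero] at h
      rw [h]
      exact (hPS _ hI).1
  · simp [f', hP0, ← hd_def, sn_self]

end Vale.Agent.P128.Regularity
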