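import Vale.Agent.P128.Regularity.Spec
import Vale.Agent.P128.Regularity.Decay.Common

/-!
# P128 regularity R8: energy decay at a triple point

The three branches give the labels: the sector of a point is named after the branch that precedes it
counterclockwise on its circle.
-/

open MeasureTheory Set Metric Filter
open scoped ENNReal NNReal Topology Real RealInnerProductSpace

noncomputable section

namespace Vale.Agent.P128.Regularity

open Vale.Agent.P128.Bridge Vale.Agent.P128.Regularity.Decay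

namespace StarDecay

variable {K : Set ℂ} {x : ℂ} {R : ℝ} {γ γ' : Fin 3 → ℝ → ℂ}

/-- Counterclockwise angle from branch `i` to `y` on the circle of `y`. -/
def ang (x : ℂ) (γ : Fin 3 → ℝ → ℂ) (i : Fin 3) (y : ℂ) : ℝ :=
  π + (-((y - x) / (γ i ‖y - x‖ - x))).arg

open Classical in
/-- The sector of `y`. -/
def sector (x : ℂ) (γ : Fin 3 → ℝ → ℂ) (y : ℂ) : Fin 3 :=
  if ang x γ 0 y < ang x γ 1 y ∧ ang x γ 0 y < ang x γ 2 y then 0
  else if ang x γ 1 y < ang x γ 2 y then 1 else 2

variable (hB : Branches K 3 x R γ γ')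
include hB

theorem crossings {s : ℝ} (hs : s ∈ Ioo 0 R) : K ∩ sphere x s = range fun i => γ i s := by
  ext y
  constructor
  · rintro ⟨hyK, hys⟩
    have hyb : y ∈ K ∩ ball x R := ⟨hyK, mem_ball.2 ((mem_sphere.1 hys).trans_lt hs.2)⟩
    rw [hB.cover] at hyb
    rcases hyb with rfl | hy
    · simp at hys; linarith [hs.1]
    · obtain ⟨i, t, ht, rfl⟩ := mem_iUnion.1 hy
      have : t = s := by
        rw [← hB.radial i t ht, ← dist_eq_norm]
        exact hys
      exact ⟨i, by rw [this]⟩
  · rintro ⟨i, rfl⟩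
    have h1 : γ i s ∈ K ∩ ball x R := by
      rw [hB.cover]
      exact Or.inr (mem_iUnion.2 ⟨i, s, hs, rfl⟩)
    exact ⟨h1.1, by rw [mem_sphere, dist_eq_norm]; exact hB.radial i s hs⟩

theorem ratio_norm {y : ℂ} (hy : ‖y - x‖ ∈ Ioo 0 R) (i : Fin 3) :
    ‖(y - x) / (γ i ‖y - x‖ - x)‖ = 1 := by
  rw [norm_div, hB.radial i _ hy, div_self hy.1.ne']

theorem exp_ang {y : ℂ} (hy : ‖y - x‖ ∈ Ioo 0 R) (i : Fin 3) :
    x + (γ i ‖y - x‖ - x) * Complex.exp (ang x γ i y * Complex.I) = y := by
  set q := (y - x) / (γ i ‖y - x‖ - x) with hq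
  have h1 := Complex.norm_mul_exp_arg_mul_I (-q)
  rw [norm_neg, hq, ratio_norm hB hy i, Complex.ofReal_one, one_mul] at h1
  have h0 : γ i ‖y - x‖ - x ≠ 0 := fun h0 => by
    have := hB.radial i _ hy
    rw [h0, norm_zero] at this
    exact hy.1.ne this
  rw [ang, Complex.ofReal_add, add_mul, Complex.exp_add, Complex.exp_pi_mul_I, h1]
  field_simp
  ring

theorem ang_mem {y : ℂ} (hy : ‖y - x‖ ∈ Ioo 0 R) (hyK : y ∉ K) (i : Fin 3) :
    -((y - x) / (γ i ‖y - x‖ - x)) ∈ Complex.slitPlane ∧ ang x γ i y ∈ Ioo 0 (2 * π) := by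
  have hne : ang x γ i y ≠ 2 * π := by
    intro he
    have h1 := exp_ang hB hy i
    rw [he, Complex.ofReal_mul, Complex.ofReal_ofNat, Complex.exp_two_pi_mul_I, mul_one,
      add_sub_cancel] at h1
    refine hyK ?_
    have h2 : γ i ‖y - x‖ ∈ K ∩ sphere x ‖y - x‖ := by
      rw [crossings hB hy]; exact ⟨i, rfl⟩
    rw [h1] at h2
    exact h2.1
  have h2 := Complex.neg_pi_lt_arg (-((y - x) / (γ i ‖y - x‖ - x)))
  have h3 := Complex.arg_le_pi (-((y - x) / (γ i ‖y - x‖ - x)))
  refine ⟨Complex.mem_slitPlane_iff_arg.2 ⟨fun he => hne (by rw [ang, he]; ring), ?_⟩,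
    by rw [ang]; linarith, lt_of_le_of_ne (by rw [ang]; linarith) hne⟩
  intro h0
  have := ratio_norm hB hy i
  rw [neg_eq_zero.1 h0, norm_zero] at this
  exact zero_ne_one this

theorem ang_ne {y : ℂ} (hy : ‖y - x‖ ∈ Ioo 0 R) {i j : Fin 3} (hij : i ≠ j) :
    ang x γ i y ≠ ang x γ j y := by
  intro he
  have h1 := (exp_ang hB hy i).trans (exp_ang hB hy j).symm
  rw [he, add_right_inj] at h1
  have h2 := mul_right_cancel₀ (Complex.exp_ne_zero _) h1
  have h3 := hB.apart i j hij _ hy
  rw [sub_left_inj.1 h2, sub_self, norm_zero] at h3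
  linarith [hy.1]

theorem sector_lt {y : ℂ} (hy : ‖y - x‖ ∈ Ioo 0 R) :
    ∀ j, j ≠ sector x γ y → ang x γ (sector x γ y) y < ang x γ j y := by
  classical
  have h01 := ang_ne hB hy (show (0 : Fin 3) ≠ 1 by decide)
  have h02 := ang_ne hB hy (show (0 : Fin 3) ≠ 2 by decide)
  have h12 := ang_ne hB hy (show (1 : Fin 3) ≠ 2 by decide)
  intro j hj
  unfold sector at hj ⊢
  split_ifs at hj ⊢ with h1 h2
  · fin_cases j <;> simp_all
  · rw [not_and_or, not_lt, not_lt] at h1
    fin_cases j <;> simp_all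
    rcases h1 with h | h
    · exact lt_of_le_of_ne h (Ne.symm h01)
    · exact lt_of_lt_of_le h2 h
  · rw [not_lt] at h2
    have h2' : ang x γ 2 y < ang x γ 1 y := lt_of_le_of_ne h2 (Ne.symm h12)
    rw [not_and_or, not_lt, not_lt] at h1
    fin_cases j <;> simp_all
    rcases h1 with h | h
    · exact lt_of_lt_of_le h2' h
    · exact lt_of_le_of_ne h (Ne.symm h02)

theorem continuousAt_ang {y : ℂ} (hy : ‖y - x‖ ∈ Ioo 0 R) (hyK : y ∉ K) (i : Fin 3) :
    ContinuousAt (ang x γ i) y := by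
  have hn : ContinuousAt (fun z : ℂ => ‖z - x‖) y :=
    (continuousAt_id.sub continuousAt_const).norm
  have hg : ContinuousAt (fun z : ℂ => γ i ‖z - x‖ - x) y :=
    ((hB.deriv i _ hy).1.continuousAt.comp (f := fun z : ℂ => ‖z - x‖) hn).sub continuousAt_const
  have h0 : γ i ‖y - x‖ - x ≠ 0 := fun h0 => by
    have := hB.radial i _ hy
    rw [h0, norm_zero] at this
    exact hy.1.ne this
  exact continuousAt_const.add ((Complex.continuousAt_arg (ang_mem hB hy hyK i).1).comp
    (f := fun z : ℂ => -((z - x) / (γ i ‖z - x‖ - x)))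
    (((continuousAt_id.sub continuousAt_const).div hg h0).neg))

theorem continuousOn_sector {s : ℝ} (hs : s < R) :
    ContinuousOn (sector x γ) (closedBall x s \ K) := by
  intro y hy
  have hy0 : ‖y - x‖ ∈ Ioo 0 R := by
    refine ⟨norm_pos_iff.2 (sub_ne_zero.2 fun he => hy.2 (he ▸ hB.mem)), ?_⟩
    rw [← dist_eq_norm]
    exact lt_of_le_of_lt hy.1 hs
  refine ContinuousAt.continuousWithinAt ?_
  refine (continuousAt_const (y := sector x γ y)).congr (EventuallyEq.symm ?_)
  have hev : ∀ᶠ z in 𝓝 y, ‖z - x‖ ∈ Ioo 0 R ∧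
      ∀ j, j ≠ sector x γ y → ang x γ (sector x γ y) z < ang x γ j z := by
    refine ((continuous_id.sub continuous_const).norm.continuousAt.eventually_mem
      (isOpen_Ioo.mem_nhds hy0)).and (eventually_all.2 fun j => ?_)
    by_cases hj : j = sector x γ y
    · exact Eventually.of_forall fun z h' => absurd hj h'
    · filter_upwards [(continuousAt_ang hB hy0 hy.2 _).eventually_lt (continuousAt_ang hB hy0 hy.2 j)
        (sector_lt hB hy0 j hj)] with z hz using fun _ => hz
  filter_upwards [hev] with z hz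
  by_contra hne
  exact lt_asymm (hz.2 _ hne) (sector_lt hB hz.1 _ (Ne.symm hne))

/-- Points of one sector of a circle are joined by a free arc. -/
theorem sector_connected {s : ℝ} (hs : s ∈ Ioo 0 R) {y w : ℂ} (hy : y ∈ sphere x s \ K)
    (hw : w ∈ sphere x s \ K) (he : sector x γ y = sector x γ w) :
    w ∈ connectedComponentIn (sphere x s \ K) y := by
  have hyn : ‖y - x‖ = s := by rw [← dist_eq_norm]; exact hy.1
  have hwn : ‖w - x‖ = s := by rw [← dist_eq_norm]; exact hw.1
  have hy0 : ‖y - x‖ ∈ Ioo 0 R := hyn ▸ hs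
  have hw0 : ‖w - x‖ ∈ Ioo 0 R := hwn ▸ hs
  set i := sector x γ y with hi
  set P : ℝ → ℂ := fun θ => x + (γ i s - x) * Complex.exp (θ * Complex.I) with hP
  have hPy : P (ang x γ i y) = y := by
    have := exp_ang hB hy0 i
    rw [hyn] at this
    exact this
  have hPw : P (ang x γ i w) = w := by
    have := exp_ang hB hw0 i
    rw [hwn] at this
    exact this
  have hfree : ∀ v ∈ sphere x s \ K, ∀ θ ∈ Ioc 0 (ang x γ (sector x γ v) v),
      x + (γ (sector x γ v) s - x) * Complex.exp (θ * Complex.I) ∈ sphere x s \ K := by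
    intro v hv θ hθ
    have hvn : ‖v - x‖ = s := by rw [← dist_eq_norm]; exact hv.1
    have hv0 : ‖v - x‖ ∈ Ioo 0 R := hvn ▸ hs
    set k := sector x γ v with hk
    have hsph : x + (γ k s - x) * Complex.exp (θ * Complex.I) ∈ sphere x s := by
      rw [mem_sphere, dist_eq_norm, add_sub_cancel_left, norm_mul, hB.radial k s hs,
        Complex.norm_exp_ofReal_mul_I, mul_one]
    refine ⟨hsph, fun hK => ?_⟩
    have hmem : x + (γ k s - x) * Complex.exp (θ * Complex.I) ∈ range fun i => γ i s := by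
      rw [← crossings hB hs]; exact ⟨hK, hsph⟩
    obtain ⟨j, hj⟩ := hmem
    simp only at hj
    have hvang := ang_mem hB hv0 hv.2 k
    have hve := exp_ang hB hv0 k
    rw [hvn] at hve
    set φ := ang x γ k v - θ with hφ
    have hwj : v - x = (γ j s - x) * Complex.exp (φ * Complex.I) := by
      rw [hj, add_sub_cancel_left, mul_assoc, ← Complex.exp_add, ← add_mul, ← Complex.ofReal_add,
        hφ, add_sub_cancel]
      conv_lhs => rw [← hve]
      rw [add_sub_cancel_left]
    have hφ0 : 0 < φ := by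
      rcases (show 0 ≤ φ by rw [hφ]; linarith [hθ.2]).eq_or_lt with h0 | h0
      · exfalso
        rw [← h0, Complex.ofReal_zero, zero_mul, Complex.exp_zero, mul_one, sub_left_inj] at hwj
        refine hv.2 ?_
        have h2 : γ j s ∈ K ∩ sphere x s := by rw [crossings hB hs]; exact ⟨j, rfl⟩
        rw [← hwj] at h2
        exact h2.1
      · exact h0
    have hφ2 : φ < 2 * π := by rw [hφ]; linarith [hvang.2.2, hθ.1]
    have hjk : j ≠ k := by
      intro e
      rw [e] at hj
      have h4 : Complex.exp (θ * Complex.I) = 1 := by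
        have hne : γ k s - x ≠ 0 := fun h0 => by
          have := hB.radial k s hs
          rw [h0, norm_zero] at this
          exact hs.1.ne this
        refine mul_left_cancel₀ hne ?_
        rw [mul_one]
        linear_combination -hj
      have h5 : Real.cos θ = 1 := by
        have := congrArg Complex.re h4
        rwa [Complex.exp_ofReal_mul_I_re, Complex.one_re] at this
      obtain ⟨n, hn⟩ := (Real.cos_eq_one_iff θ).1 h5
      have h6 : (0 : ℝ) < n := by
        by_contra hn0
        rw [not_lt] at hn0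
        nlinarith [hθ.1, Real.two_pi_pos]
      have h7 : (1 : ℝ) ≤ n := by
        have : (0 : ℤ) < n := by exact_mod_cast h6
        exact_mod_cast this
      nlinarith [hθ.2, hvang.2.2, Real.two_pi_pos]
    have hfj : ang x γ j v = φ := by
      have hne : γ j s - x ≠ 0 := fun h0 => by
        have := hB.radial j s hs
        rw [h0, norm_zero] at this
        exact hs.1.ne this
      rw [ang, hvn, hwj, mul_div_cancel_left₀ _ hne]
      have : ∀ a : ℝ, -Complex.exp (a * Complex.I) =
          Complex.exp (((a - π : ℝ) : ℂ) * Complex.I) := fun a => by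
        rw [Complex.ofReal_sub, sub_mul, Complex.exp_sub, Complex.exp_pi_mul_I, div_neg, div_one]
      rw [this φ, Complex.arg_exp_mul_I, (toIocMod_eq_self _).2 ⟨by linarith, by linarith⟩]
      ring
    have := sector_lt hB hv0 j hjk
    rw [hfj, hφ] at this
    linarith [hθ.1]
  have hmemy := (ang_mem hB hy0 hy.2 i).2
  have hmemw := (ang_mem hB hw0 hw.2 i).2
  have hsub : P '' uIcc (ang x γ i y) (ang x γ i w) ⊆ sphere x s \ K := by
    rintro _ ⟨θ, hθ, rfl⟩
    rcases le_or_gt θ (ang x γ i y) with h1 | h1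
    · refine hfree y hy θ ⟨lt_of_lt_of_le (lt_min hmemy.1 hmemw.1) hθ.1, ?_⟩
      exact h1
    · have h2 : θ ≤ ang x γ i w := by
        rcases le_max_iff.1 hθ.2 with h | h
        · linarith
        · exact h
      have := hfree w hw θ ⟨hmemy.1.trans h1, by rw [← he]; exact h2⟩
      rwa [← he] at this
  have hPc : Continuous P := by rw [hP]; fun_prop
  have hy' : y ∈ P '' uIcc (ang x γ i y) (ang x γ i w) := ⟨_, left_mem_uIcc, hPy⟩
  exact (isPreconnected_uIcc.image P hPc.continuousOn).subset_connectedComponentIn hy' hsub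
    ⟨_, right_mem_uIcc, hPw⟩

/-- The three crossings spread around the circle. -/
theorem spread {s ε : ℝ} (hs : s ∈ Ioo 0 R) (hε : ε ≤ 1 / 100) (hflat : Flat K 3 x s ε) (v : ℂ)
    (hv : ‖v‖ = 1) : ∃ p ∈ K ∩ sphere x s, -(3 / 100 * s) ≤ ⟪p - x, v⟫ := by
  obtain ⟨d, hd, hnear, -⟩ := hflat
  set ω : Fin 3 → ℂ := fun k => d * Complex.exp (((2 * π * (k : ℕ) / (3 : ℕ) : ℝ) : ℂ) * Complex.I)
  have hω : ∀ k, ‖ω k‖ = 1 := fun k => by
    simp only [ω, norm_mul, hd, Complex.norm_exp_ofReal_mul_I, mul_one]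
  have hdat : ∀ i, ∃ k, ∃ t : ℝ, 0 ≤ t ∧ ‖γ i s - x - t • ω k‖ ≤ ε * s := by
    intro i
    have h1 : γ i s ∈ K ∩ sphere x s := by rw [crossings hB hs]; exact ⟨i, rfl⟩
    obtain ⟨w, hw, hdist⟩ := hnear _ ⟨h1.1, sphere_subset_closedBall h1.2⟩
    obtain ⟨k, t, ht, rfl⟩ := mem_iUnion.1 hw
    refine ⟨k, t, ht, ?_⟩
    rwa [dist_eq_norm, ← sub_sub] at hdist
  choose k t ht0 htd using hdat
  have hεs : ε * s ≤ s / 100 := by
    calc ε * s ≤ 1 / 100 * s := mul_le_mul_of_nonneg_right hε hs.1.le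
      _ = s / 100 := by ring
  have hts : ∀ i, |t i - s| ≤ s / 100 := fun i => by
    have h1 := abs_norm_sub_norm_le (γ i s - x) (t i • ω (k i))
    rw [hB.radial i s hs, norm_smul, hω, mul_one, Real.norm_of_nonneg (ht0 i)] at h1
    rw [abs_sub_comm]
    exact h1.trans ((htd i).trans hεs)
  have hinj : Function.Injective k := by
    intro i j hij
    by_contra hne
    have h1 := hB.apart i j hne s hs
    have h2 : ‖γ i s - γ j s‖ ≤ s / 100 + s / 100 + |t i - t j| := by
      have e : γ i s - γ j s = (γ i s - x - t i • ω (k i)) - (γ j s - x - t j • ω (k j)) +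
          (t i - t j) • ω (k i) := by
        rw [hij, sub_smul]; abel
      rw [e]
      refine (norm_add_le _ _).trans (add_le_add ((norm_sub_le _ _).trans
        (add_le_add ((htd i).trans hεs) ((htd j).trans hεs))) ?_)
      rw [norm_smul, hω, mul_one, Real.norm_eq_abs]
    have h3 : |t i - t j| ≤ s / 100 + s / 100 := by
      have := abs_sub_le (t i) s (t j)
      rw [abs_sub_comm s (t j)] at this
      linarith [hts i, hts j]
    linarith [hs.1]
  have hsum : ω 0 + ω 1 + ω 2 = 0 := by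
    have hc : Real.cos (2 * π / 3) = -(1 / 2) := by
      rw [show 2 * π / 3 = π - π / 3 by ring, Real.cos_pi_sub, Real.cos_pi_div_three]
    have hs' : Real.sin (2 * π * 2 / 3) = -Real.sin (2 * π / 3) := by
      rw [show 2 * π * 2 / 3 = 2 * π - 2 * π / 3 by ring, Real.sin_two_pi_sub]
    have hc' : Real.cos (2 * π * 2 / 3) = -(1 / 2) := by
      rw [show 2 * π * 2 / 3 = 2 * π - 2 * π / 3 by ring, Real.cos_two_pi_sub, hc]
    simp only [ω, ← mul_add]
    refine mul_eq_zero_of_right d ?_
    apply Complex.ext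
    · simp only [Complex.add_re, Complex.exp_ofReal_mul_I_re, Complex.zero_re]
      norm_num [hc, hc']
    · simp only [Complex.add_im, Complex.exp_ofReal_mul_I_im, Complex.zero_im]
      norm_num [hs']
  obtain ⟨k₀, hk₀⟩ : ∃ k₀, 0 ≤ ⟪ω k₀, v⟫ := by
    by_contra hcon
    simp only [not_exists, not_le] at hcon
    have h4 : ⟪ω 0, v⟫ + ⟪ω 1, v⟫ + ⟪ω 2, v⟫ = 0 := by
      rw [← inner_add_left, ← inner_add_left, hsum, inner_zero_left]
    linarith [hcon 0, hcon 1, hcon 2]
  obtain ⟨i, rfl⟩ := (Finite.injective_iff_surjective.1 hinj) k₀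
  refine ⟨γ i s, by rw [crossings hB hs]; exact ⟨i, rfl⟩, ?_⟩
  have h5 := abs_real_inner_le_norm (γ i s - x - t i • ω (k i)) v
  rw [hv, mul_one, inner_sub_left, real_inner_smul_left] at h5
  linarith [(abs_le.1 (h5.trans ((htd i).trans hεs))).1, mul_nonneg (ht0 i) hk₀, hs.1]

end StarDecay

open StarDecay in
/-- R8: energy decay at a triple point. -/
theorem starDecay : StarDecaySpec := by
  refine ⟨1 / 1000, 8, 1 / 2, by norm_num, by norm_num, by norm_num, ?_⟩
  intro U K u G A M Λ h x R γ γ' hB hsub hsmall hreg r hr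
  have hR := hB.pos
  set S := R / 2 with hS
  have hS0 : 0 < S := by positivity
  have hsubS : closedBall x S ⊆ U := (closedBall_subset_closedBall (by linarith)).trans hsub
  have hgood : ∀ᵐ s ∂volume.restrict (Ioo 0 S), 1 ≤ (fun _ : ℝ => (0 : ℝ≥0∞)) s ∨
      Sectored K x s := by
    filter_upwards [ae_restrict_mem measurableSet_Ioo] with s hs
    have hsR : s ∈ Ioo 0 R := ⟨hs.1, hs.2.trans (by linarith)⟩
    refine Or.inr ⟨by rw [crossings hB hsR]; exact Set.finite_range _, fun v hv =>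
      spread hB hsR (by norm_num) (hreg s ⟨hs.1, hsR.2.le⟩).1 v hv, sector x γ,
      continuousOn_sector hB hsR.2, fun y hy w hw he => sector_connected hB hsR hy hw he⟩
  refine (dball_decay h hS0 hsubS (fun _ => 0) (fun t _ => by simp) hgood r hr).trans
    (ENNReal.ofReal_le_ofReal ?_)
  have hDS : dirEn K G x S / S ≤ 1 := by
    rw [div_le_one hS0]
    refine (dirEn_le h hsubS (by positivity) ((hreg S ⟨hS0, by linarith⟩).2.2.1 (by norm_num))).trans
      ?_
    linarith
  have hΛ : 100 * (π * Λ) * S ≤ 1 := by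
    nlinarith [Real.pi_lt_four, h.Lambda_nonneg,
      mul_le_mul_of_nonneg_left Real.pi_lt_four.le (mul_nonneg h.Lambda_nonneg hR.le)]
  have hsq : Real.sqrt (r / S) ≤ 2 * (r / R) ^ (1 / 2 : ℝ) := by
    rw [← Real.sqrt_eq_rpow, hS, show r / (R / 2) = 2 * (r / R) by field_simp,
      Real.sqrt_mul (by norm_num)]
    refine mul_le_mul_of_nonneg_right ?_ (Real.sqrt_nonneg _)
    rw [Real.sqrt_le_iff]; norm_num
  calc 2 * (dirEn K G x S / S + 100 * (π * Λ) * S) * r * Real.sqrt (r / S)
      ≤ 2 * 2 * r * (2 * (r / R) ^ (1 / 2 : ℝ)) := by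
        refine mul_le_mul (mul_le_mul_of_nonneg_right (by linarith) hr.1.le) hsq
          (Real.sqrt_nonneg _) (by linarith [hr.1])
    _ = 8 * r * (r / R) ^ (1 / 2 : ℝ) := by ring

end Vale.Agent.P128.Regularity
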