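import Vale.Agent.P128.Regularity.Tip.Annuli

/-!
# P128 R11: the length excess at a tip decays like a power

The crack-lengthening competitor and the circle identity give `2 y ≤ 1 + (energy of the circle)`
on average, so `y - 1` contracts on halving the radius; the cap competitor turns this into a bound
for the length.
-/

open MeasureTheory Set Metric Filter
open scoped ENNReal NNReal Topology Real RealInnerProductSpace

noncomputable section

namespace Vale.Agent.P128.Regularity.Tip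

open Vale.Agent.P128.Bridge

/-- The rate. -/
def rate (R r : ℝ) : ℝ := Real.sqrt (Real.sqrt (r / R))

theorem rate_pos {R r : ℝ} (hR : 0 < R) (hr : 0 < r) : 0 < rate R r :=
  Real.sqrt_pos.2 (Real.sqrt_pos.2 (div_pos hr hR))

theorem rate_pow {R r : ℝ} (hR : 0 < R) (hr : 0 ≤ r) : rate R r ^ 4 = r / R := by
  rw [rate, show (4 : ℕ) = 2 * 2 from rfl, pow_mul, Real.sq_sqrt (Real.sqrt_nonneg _),
    Real.sq_sqrt (div_nonneg hr hR.le)]

theorem rate_le_one {R r : ℝ} (hR : 0 < R) (hrR : r ≤ R) : rate R r ≤ 1 := by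
  rw [rate]
  exact Real.sqrt_le_one.2 (Real.sqrt_le_one.2 ((div_le_one hR).2 hrR))

theorem rate_two {R r : ℝ} (hR : 0 < R) (hr : 0 < r) : rate R (2 * r) ≤ 6 / 5 * rate R r := by
  rw [← pow_le_pow_iff_left₀ (rate_pos hR (by positivity)).le
    (mul_nonneg (by norm_num) (rate_pos hR hr).le) (show (4 : ℕ) ≠ 0 by norm_num), mul_pow,
    rate_pow hR (by positivity), rate_pow hR hr.le, mul_div_assoc]
  exact mul_le_mul_of_nonneg_right (by norm_num) (div_nonneg hr.le hR.le)

variable {U K : Set ℂ} {u : ℂ → ℝ} {G : ℂ → ℂ} {A M Λ : ℝ} {x : ℂ} {R Ct δ : ℝ}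
  {γ γ' : Fin 1 → ℝ → ℂ} (h : IsAlmostMin U K u G A M Λ) (hb : Branches K 1 x R γ γ')
  (hsub : closedBall x R ⊆ U) (hΛR : Λ * R ≤ 1) (hΛδ : Λ * R ≤ δ) (hCt : 0 ≤ Ct)
  (hT : ∀ a t : ℝ, 0 < a → 0 < t → t ≤ 1 / 2 → a * (1 + t) < R → Λ * a ≤ δ →
    ∀ e : ℂ, ‖e‖ = 1 → ∫ z in (closedBall x (a * (1 + t)) \ closedBall x a) \ K, stress G x e z ≤
      a * (t + Ct * Real.sqrt (Λ * a)))
  (hup : ∀ r ∈ Ioc 0 R, den U K G x r ≤ 2 * r)
include h hb hsub hΛR hΛδ hCt hT hup

theorem Lambda_small {r : ℝ} (hr : r ∈ Ioc 0 R) : 0 ≤ Λ ∧ Λ * r ≤ rate R r ^ 4 := by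
  have hΛ : 0 ≤ Λ := (mul_nonneg h.A_nonneg h.M_nonneg).trans h.AM_le
  refine ⟨hΛ, ?_⟩
  rw [rate_pow hb.pos hr.1.le, le_div_iff₀ hb.pos]
  nlinarith [mul_le_mul_of_nonneg_right hΛR hr.1.le]

/-- **Halving the radius contracts `y - 1`.** -/
theorem halving {r : ℝ} (hr0 : 0 < r) (hr : r ≤ R / 2) :
    yr U K G x (r / 2) - 1 ≤ 2 / 3 * (yr U K G x r - 1 + (40 + 3 * Ct) * rate R r) := by
  obtain ⟨hΛ, hΛr⟩ := Lambda_small h hb hsub hΛR hΛδ hCt hT hup ⟨hr0, by linarith [hb.pos]⟩
  set F := rate R r with hF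
  have hF0 : 0 < F := rate_pos hb.pos hr0
  have hF1 : F ≤ 1 := rate_le_one hb.pos (by linarith [hb.pos])
  set N := ⌈1 / F⌉₊ + 1 with hN
  have hN2 : (2 : ℝ) ≤ N := by
    have : 1 ≤ ⌈1 / F⌉₊ := Nat.one_le_ceil_iff.2 (by positivity)
    exact_mod_cast Nat.add_le_add_right this 1
  have hNF : 1 / F ≤ N := (Nat.le_ceil _).trans (by exact_mod_cast Nat.le_succ _)
  have hN3 : (N : ℝ) * F ≤ 3 := by
    have h1 : (⌈1 / F⌉₊ : ℝ) ≤ 1 / F + 1 := (Nat.ceil_lt_add_one (by positivity)).le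
    rw [hN, Nat.cast_add, Nat.cast_one]
    have : 1 / F * F = 1 := by field_simp
    nlinarith [mul_le_mul_of_nonneg_right h1 hF0.le]
  set t := (2 : ℝ) ^ ((N : ℝ)⁻¹) - 1 with ht
  have hpowN : (1 + t) ^ N = 2 := by
    rw [ht, add_sub_cancel, Real.rpow_inv_natCast_pow (by norm_num) (by positivity)]
  have ht0 : 0 < t := by
    have := Real.one_lt_rpow (show (1 : ℝ) < 2 by norm_num) (show 0 < (N : ℝ)⁻¹ by positivity)
    linarith
  have htN : t ≤ 1 / N := by
    have hB := one_add_mul_le_pow (show (-2 : ℝ) ≤ t by linarith) N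
    rw [hpowN] at hB
    rw [le_div_iff₀ (by linarith)]
    linarith
  have ht2 : t ≤ 1 / 2 := htN.trans (by
    rw [div_le_div_iff₀ (by linarith) two_pos]; linarith)
  have htF : t ≤ F := htN.trans (by
    rw [div_le_iff₀ (by linarith)]
    rw [div_le_iff₀ hF0] at hNF
    linarith)
  set a : ℕ → ℝ := fun k => r / 2 * (1 + t) ^ k with ha
  have ha0 : ∀ k, 0 < a k := fun k => by positivity
  have har : ∀ k ≤ N, a k ≤ r := fun k hk => by
    have : (1 + t) ^ k ≤ (1 + t) ^ N := pow_le_pow_right₀ (by linarith) hk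
    rw [hpowN] at this
    simp only [ha]
    nlinarith
  have haN : a N = r := by simp only [ha, hpowN]; ring
  have hlow : ∀ k, r / 2 ≤ a k := fun k =>
    le_mul_of_one_le_right (by positivity) (one_le_pow₀ (by linarith))
  have hyc : ContinuousOn (yr U K G x) (Icc (r / 2) r) :=
    ((continuousOn_den h hb hsub).mono (Icc_subset_Icc (by positivity) (by linarith [hb.pos]))).div
      continuousOn_id fun ρ hρ => (lt_of_lt_of_le (by positivity) hρ.1).ne'
  have iy : ∀ c d, r / 2 ≤ c → c ≤ d → d ≤ r → IntervalIntegrable (yr U K G x) volume c d := by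
    intro c d hc hcd hd
    refine ContinuousOn.intervalIntegrable (hyc.mono ?_)
    rw [uIcc_of_le hcd]
    exact Icc_subset_Icc hc hd
  have hind : ∀ k ≤ N, 2 * ∫ ρ in (r / 2)..(a k), yr U K G x ρ ≤
      (a k - r / 2) * (1 + 16 * Λ * r) + k * (Ct * r * Real.sqrt (Λ * r)) +
        (1 + 3 * t) * (den U K G x (a k) - den U K G x (r / 2)) := by
    intro k hk
    induction k with
    | zero => simp [ha]
    | succ k ih =>
      have hk' : k ≤ N := Nat.le_of_succ_le hk
      have hstep : a (k + 1) = a k * (1 + t) := by simp only [ha, pow_succ]; ring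
      have hkk : a k ≤ a (k + 1) := by rw [hstep]; nlinarith [ha0 k]
      have h1 := tile h hb hsub hT (ha0 k) ht0 ht2 hstep
        (by linarith [har (k + 1) hk, hb.pos]) ((mul_le_mul_of_nonneg_left
          (by linarith [har k hk', hb.pos]) hΛ).trans hΛδ)
      rw [← intervalIntegral.integral_add_adjacent_intervals (iy _ _ le_rfl (hlow k) (har k hk'))
        (iy _ _ (hlow k) hkk (har (k + 1) hk))]
      have e : a k * t = a (k + 1) - a k := by rw [hstep]; ring
      have h2 : a k * (Ct * Real.sqrt (Λ * a k)) ≤ Ct * r * Real.sqrt (Λ * r) := by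
        have := mul_le_mul (har k hk') (mul_le_mul_of_nonneg_left
          (Real.sqrt_le_sqrt (mul_le_mul_of_nonneg_left (har k hk') hΛ)) hCt) (by positivity) hr0.le
        linarith
      have h3 : 16 * Λ * a (k + 1) * (a (k + 1) - a k) ≤ 16 * Λ * r * (a (k + 1) - a k) :=
        mul_le_mul_of_nonneg_right (mul_le_mul_of_nonneg_left (har (k + 1) hk) (by positivity))
          (by linarith)
      push_cast
      nlinarith [ih hk']
  have hmain := hind N le_rfl
  rw [haN] at hmain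
  -- lower bound of the left side
  have hL : (r / 2) * (yr U K G x (r / 2) - 8 * Λ * r) ≤ ∫ ρ in (r / 2)..r, yr U K G x ρ := by
    have h1 : ∫ _ in (r / 2)..r, (yr U K G x (r / 2) - 8 * Λ * r) ≤
        ∫ ρ in (r / 2)..r, yr U K G x ρ := by
      refine intervalIntegral.integral_mono_on (by linarith) intervalIntegrable_const
        (iy _ _ le_rfl (by linarith) le_rfl) fun ρ hρ => ?_
      have := yr_mono h hb hsub (a := r / 2) (b := ρ) (by positivity) hρ.1 (by linarith [hρ.2, hb.pos])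
      nlinarith [mul_nonneg hΛ (show 0 ≤ r / 2 by positivity), mul_le_mul_of_nonneg_left hρ.2 hΛ]
    rw [intervalIntegral.integral_const, smul_eq_mul] at h1
    linarith
  have hyr : den U K G x r = r * yr U K G x r := by rw [yr, mul_div_cancel₀ _ hr0.ne']
  have hya : den U K G x (r / 2) = r / 2 * yr U K G x (r / 2) := by
    rw [yr, mul_div_cancel₀ _ (show r / 2 ≠ 0 by positivity)]
  have hda : 0 ≤ den U K G x (r / 2) := setIntegral_nonneg measurableSet_ball fun z _ => sq_nonneg _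
  have hd2 : t * (den U K G x r - den U K G x (r / 2)) ≤ F * (2 * r) :=
    (mul_le_mul_of_nonneg_left (show den U K G x r - den U K G x (r / 2) ≤ 2 * r by
      linarith [hup r ⟨hr0, by linarith [hb.pos]⟩]) ht0.le).trans
      (mul_le_mul_of_nonneg_right htF (by positivity))
  have hsq : Real.sqrt (Λ * r) ≤ F ^ 2 := by
    rw [Real.sqrt_le_left (by positivity), ← pow_mul]
    exact hΛr
  have hNs : (N : ℝ) * (Ct * r * Real.sqrt (Λ * r)) ≤ 3 * Ct * F * r := by
    calc (N : ℝ) * (Ct * r * Real.sqrt (Λ * r)) ≤ N * (Ct * r * F ^ 2) := by gcongr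
      _ = (N * F) * (Ct * r * F) := by ring
      _ ≤ 3 * (Ct * r * F) := mul_le_mul_of_nonneg_right hN3 (by positivity)
      _ = _ := by ring
  have hF4 : Λ * r * r ≤ F * r := by
    have : F ^ 4 ≤ F := pow_le_of_le_one hF0.le hF1 (by norm_num)
    exact mul_le_mul_of_nonneg_right (hΛr.trans this) hr0.le
  have key : r * (3 / 2 * (yr U K G x (r / 2) - 1)) ≤
      r * (yr U K G x r - 1 + (40 + 3 * Ct) * F) := by
    rw [hyr, hya] at hmain hd2
    nlinarith [hL, hmain, hd2, hNs, hF4, mul_pos hF0 hr0]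
  have := le_of_mul_le_mul_left key hr0
  linarith

theorem excess_upper (h1 : ∀ r ∈ Ioc 0 R, yr U K G x r ≤ 2) :
    ∀ r, 0 < r → r ≤ R / 2 → yr U K G x r - 1 ≤ 4 * (40 + 3 * Ct) * rate R r := by
  have hR := hb.pos
  suffices hn : ∀ n : ℕ, ∀ r, R / 2 ^ (n + 2) < r → r ≤ R / 2 →
      yr U K G x r - 1 ≤ 4 * (40 + 3 * Ct) * rate R r by
    intro r hr0 hr
    obtain ⟨n, hn'⟩ := pow_unbounded_of_one_lt (R / r) one_lt_two
    refine hn n r ?_ hr
    rw [div_lt_iff₀ (by positivity)]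
    rw [div_lt_iff₀ hr0] at hn'
    have : (2 : ℝ) ^ n ≤ 2 ^ (n + 2) := pow_le_pow_right₀ one_le_two (by omega)
    nlinarith [mul_le_mul_of_nonneg_left this hr0.le]
  intro n
  induction n with
  | zero =>
    intro r h2 hr
    have hr0 : 0 < r := lt_trans (by positivity) h2
    have hF : 1 / 2 ≤ rate R r := by
      rw [← pow_le_pow_iff_left₀ (by norm_num) (rate_pos hR hr0).le (show (4 : ℕ) ≠ 0 by norm_num),
        rate_pow hR hr0.le, le_div_iff₀ hR]
      norm_num at h2 ⊢
      linarith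
    nlinarith [h1 r ⟨hr0, by linarith⟩]
  | succ n ih =>
    intro r h2 hr
    have hr0 : 0 < r := lt_trans (by positivity) h2
    rcases lt_or_ge (R / 2 ^ (n + 2)) r with hlt | hge
    · exact ih r hlt hr
    have h4 : R / 2 ^ (n + 2) ≤ R / 4 := by
      refine div_le_div_of_nonneg_left hR.le (by norm_num) ?_
      exact le_trans (by norm_num) (pow_le_pow_right₀ one_le_two (show 2 ≤ n + 2 by omega))
    have hbig : R / 2 ^ (n + 2) < 2 * r := by
      rw [pow_succ, ← div_div, div_lt_iff₀ two_pos] at h2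
      linarith
    have hhalf := halving h hb hsub hΛR hΛδ hCt hT hup (r := 2 * r) (by positivity) (by linarith)
    rw [show 2 * r / 2 = r by ring] at hhalf
    have hih := ih (2 * r) hbig (by linarith)
    have hrt := mul_le_mul_of_nonneg_left (rate_two hR hr0) (show 0 ≤ 40 + 3 * Ct by positivity)
    nlinarith

theorem excess_lower (hlim : ∀ ε > 0, ∃ R' > 0, ∀ r ∈ Ioc 0 R', (1 - ε) * r ≤ den U K G x r) :
    ∀ r ∈ Ioc 0 R, 1 - 8 * Λ * r ≤ yr U K G x r := by
  intro r hr
  refine le_of_forall_pos_le_add fun ε hε => ?_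
  obtain ⟨R', hR', hR''⟩ := hlim ε hε
  have h0 : 0 < min R' r := lt_min hR' hr.1
  have h1 := hR'' (min R' r) ⟨h0, min_le_left _ _⟩
  rw [← le_div_iff₀ h0] at h1
  have h2 := yr_mono h hb hsub h0 (min_le_right R' r) hr.2
  have hΛ := (Lambda_small h hb hsub hΛR hΛδ hCt hT hup hr).1
  simp only [yr] at h2 ⊢
  nlinarith [mul_nonneg hΛ h0.le]

/-- The length in the disc of radius `r`. -/
theorem length_bound (h1 : ∀ r ∈ Ioc 0 R, yr U K G x r ≤ 2)
    (hlim : ∀ ε > 0, ∃ R' > 0, ∀ r ∈ Ioc 0 R', (1 - ε) * r ≤ den U K G x r)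
    {r : ℝ} (hr0 : 0 < r) (hr : r ≤ R / 4) :
    μH[1] (K ∩ closedBall x r) ≤ ENNReal.ofReal
      (r + 2 * (12000 + 800 * Ct) * (r * Real.sqrt (rate R r))) := by
  have hR := hb.pos
  obtain ⟨hΛ, hΛr⟩ := Lambda_small h hb hsub hΛR hΛδ hCt hT hup ⟨hr0, by linarith⟩
  set F := rate R r with hF
  have hF0 : 0 < F := rate_pos hR hr0
  have hF1 : F ≤ 1 := rate_le_one hR (by linarith)
  have hF4 : Λ * r ≤ F := hΛr.trans (pow_le_of_le_one hF0.le hF1 (by norm_num))
  set Cp := 4 * (40 + 3 * Ct) with hCp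
  have hCp0 : 0 ≤ Cp := by positivity
  set k := 3 * Cp + 9 with hk
  obtain ⟨hi, hd⟩ := circEn_data h hb hsub
  have ii : IntervalIntegrable (circEn U K G x) volume r (2 * r) := hi.mono_set (by
    rw [uIcc_of_le (by linarith), uIcc_of_le hR.le]; exact Icc_subset_Icc hr0.le (by linarith))
  have hint : ∫ ρ in r..(2 * r), circEn U K G x ρ ≤ r * (1 + (3 * Cp + 8) * F) := by
    have e : ∫ ρ in r..(2 * r), circEn U K G x ρ = den U K G x (2 * r) - den U K G x r := by
      rw [hd r ⟨hr0.le, by linarith⟩, hd (2 * r) ⟨by linarith, by linarith⟩,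
        intervalIntegral.integral_interval_sub_left (hi.mono_set (by
          rw [uIcc_of_le (by linarith), uIcc_of_le hR.le]; exact Icc_subset_Icc le_rfl (by linarith)))
        (hi.mono_set (by
          rw [uIcc_of_le hr0.le, uIcc_of_le hR.le]; exact Icc_subset_Icc le_rfl (by linarith)))]
    have a1 := excess_upper h hb hsub hΛR hΛδ hCt hT hup h1 (2 * r) (by positivity) (by linarith)
    have a2 := excess_lower h hb hsub hΛR hΛδ hCt hT hup hlim r ⟨hr0, by linarith⟩
    have a3 := mul_le_mul_of_nonneg_left (rate_two hR hr0) hCp0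
    rw [← hCp] at a1
    simp only [yr] at a1 a2
    rw [sub_le_iff_le_add, div_le_iff₀ (by positivity)] at a1
    rw [le_div_iff₀ hr0] at a2
    rw [e]
    nlinarith [mul_le_mul_of_nonneg_left hF4 hr0.le, mul_le_mul_of_nonneg_left a3 hr0.le,
      mul_nonneg (mul_nonneg hCp0 hF0.le) hr0.le]
  obtain ⟨s, hs, hgood, hEs⟩ : ∃ s ∈ Ioo r (2 * r),
      (IntervalIntegrable (fun θ => ‖ext U K G (circleMap x s θ)‖ ^ 2) volume (-π) π ∧
        ∀ l : ℝ, 0 < l → tau U K G x s (ang x γ s) ≤ yr U K G x s + 8 * Λ * s +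
          (1 + 1 / l) * (circEn U K G x s - yr U K G x s + 8 * Λ * s) +
          l * (20 * circEn U K G x s)) ∧
      circEn U K G x s ≤ 1 + k * F := by
    by_contra hc
    push Not at hc
    have hne : ∀ᵐ ρ : ℝ, ρ ≠ r ∧ ρ ≠ 2 * r := by
      filter_upwards [show ∀ᵐ ρ : ℝ, ρ ≠ r by simp [ae_iff, measure_singleton],
        show ∀ᵐ ρ : ℝ, ρ ≠ 2 * r by simp [ae_iff, measure_singleton]] with ρ a b using ⟨a, b⟩
    have hlt : ∫ _ in r..(2 * r), (1 + k * F) ≤ ∫ ρ in r..(2 * r), circEn U K G x ρ := by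
      refine intervalIntegral.integral_mono_ae_restrict (by linarith) intervalIntegrable_const ii ?_
      filter_upwards [ae_restrict_mem measurableSet_Icc, ae_restrict_of_ae (good_radii h hb hsub),
        ae_restrict_of_ae hne] with ρ hρ hgood hne
      have hmem : ρ ∈ Ioo r (2 * r) :=
        ⟨lt_of_le_of_ne hρ.1 (Ne.symm hne.1), lt_of_le_of_ne hρ.2 hne.2⟩
      obtain ⟨g1, -, -, g4⟩ := hgood ⟨hr0.trans hmem.1, by linarith [hmem.2]⟩
      exact (hc ρ hmem ⟨g1, g4⟩).le
    rw [intervalIntegral.integral_const, smul_eq_mul] at hlt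
    nlinarith [mul_pos hr0 hF0]
  obtain ⟨hhint, htau⟩ := hgood
  have hs0 : 0 < s := hr0.trans hs.1
  have hsR : s < R := by linarith [hs.2]
  set l := Real.sqrt F with hl
  have hl0 : 0 < l := Real.sqrt_pos.2 hF0
  have hl1 : l ≤ 1 := Real.sqrt_le_one.2 hF1
  have hll : l * l = F := Real.mul_self_sqrt hF0.le
  have hFl : F ≤ l := by rw [← hll]; exact mul_le_of_le_one_left hl0.le hl1
  have htau := htau l hl0
  have hys := excess_lower h hb hsub hΛR hΛδ hCt hT hup hlim s ⟨hs0, hsR.le⟩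
  have hΛs : Λ * s ≤ 2 * F := by
    nlinarith [mul_le_mul_of_nonneg_left hs.2.le hΛ]
  have htau' : tau U K G x s (ang x γ s) ≤ yr U K G x s + (11998 + 800 * Ct) * l := by
    have h2 : circEn U K G x s - yr U K G x s + 8 * Λ * s ≤ (k + 32) * F := by linarith
    have h3 : (1 + 1 / l) * (circEn U K G x s - yr U K G x s + 8 * Λ * s) ≤
        2 * (k + 32) * l := by
      refine (mul_le_mul_of_nonneg_left h2 (by positivity)).trans ?_
      rw [← hll, show (1 + 1 / l) * ((k + 32) * (l * l)) = (k + 32) * (l * l + l) by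
        field_simp]
      nlinarith [show (0 : ℝ) ≤ k + 32 by positivity]
    have h4 : l * (20 * circEn U K G x s) ≤ 20 * (1 + k) * l := by
      nlinarith [show 0 ≤ k * (1 - F) from mul_nonneg (by positivity) (by linarith)]
    have h5 : (16 + 2 * (k + 32) + 20 * (1 + k)) * l ≤ (11998 + 800 * Ct) * l :=
      mul_le_mul_of_nonneg_right (by rw [hk, hCp]; linarith) hl0.le
    linarith
  have hcap := cap_bound h hs0 ((closedBall_subset_closedBall hsR.le).trans hsub)
    (crossing h hb hsub ⟨hs0, hsR⟩).1 hhint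
  have hsU : closedBall x s ⊆ U := (closedBall_subset_closedBall hsR.le).trans hsub
  have hys' : den U K G x s = s * yr U K G x s := by rw [yr, mul_div_cancel₀ _ hs0.ne']
  have hden : dball K G x s = ENNReal.ofReal (den U K G x s) := den_eq h hsub hsR.le
  have hd0 : 0 ≤ den U K G x s := setIntegral_nonneg measurableSet_ball fun z _ => sq_nonneg _
  set B := s + (12000 + 800 * Ct) * (s * l) with hB
  have hB0 : 0 ≤ B := by positivity
  have hHs : μH[1] (K ∩ closedBall x s) ≤ ENNReal.ofReal B := by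
    have hle : weakEnergy K G (closedBall x s) ≤
        ENNReal.ofReal (den U K G x s) + ENNReal.ofReal B := by
      rw [← ENNReal.ofReal_add hd0 hB0]
      refine hcap.trans (ENNReal.ofReal_le_ofReal ?_)
      rw [hys', hB]
      nlinarith [mul_le_mul_of_nonneg_left htau' hs0.le, mul_le_mul_of_nonneg_left hΛs hs0.le,
        mul_le_mul_of_nonneg_left hFl hs0.le]
    rw [← hden] at hle
    exact (ENNReal.add_le_add_iff_left (by show dball K G x s ≠ ⊤; rw [hden]; exact ENNReal.ofReal_ne_top)).1 hle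
  -- the annulus carries length at least `s - r`
  have hann : ENNReal.ofReal (s - r) + μH[1] (K ∩ closedBall x r) ≤ μH[1] (K ∩ closedBall x s) := by
    set An := (K ∩ closedBall x s) \ closedBall x r with hAn
    have h1 : ENNReal.ofReal (s - r) ≤ μH[1] An := by
      have himg : Ioc r s ⊆ (fun z => dist z x) '' An := fun t ht => by
        have ht' : t ∈ Ioo 0 R := ⟨hr0.trans ht.1, ht.2.trans_lt hsR⟩
        have hmem : γ 0 t ∈ K ∩ ball x R :=
          hb.cover.symm ▸ Or.inr (mem_iUnion.2 ⟨0, mem_image_of_mem _ ht'⟩)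
        have hd' : dist (γ 0 t) x = t := by rw [dist_eq_norm, hb.radial 0 t ht']
        exact ⟨γ 0 t, ⟨⟨hmem.1, mem_closedBall.2 (hd'.le.trans ht.2)⟩,
          fun hh => absurd (mem_closedBall.1 hh) (by rw [hd']; exact not_le.2 ht.1)⟩, hd'⟩
      calc ENNReal.ofReal (s - r) = volume (Ioc r s) := Real.volume_Ioc.symm
        _ ≤ volume ((fun z => dist z x) '' An) := measure_mono himg
        _ = μH[1] ((fun z => dist z x) '' An) := by rw [hausdorffMeasure_real]
        _ ≤ μH[1] An := by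
            refine ((LipschitzWith.dist_left x).hausdorffMeasure_image_le zero_le_one _).trans ?_
            rw [ENNReal.rpow_one, ENNReal.coe_one, one_mul]
    have hsplit := measure_inter_add_sdiff (μ := μH[1]) (K ∩ closedBall x s)
      (measurableSet_closedBall (x := x) (ε := r))
    rw [inter_assoc, inter_eq_right.2 (closedBall_subset_closedBall hs.1.le)] at hsplit
    rw [← hsplit, add_comm]
    exact add_le_add le_rfl h1
  have hfin := hann.trans hHs
  rw [add_comm] at hfin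
  refine (ENNReal.le_sub_of_add_le_right ENNReal.ofReal_ne_top hfin).trans ?_
  rw [← ENNReal.ofReal_sub _ (sub_nonneg.2 hs.1.le)]
  refine ENNReal.ofReal_le_ofReal ?_
  rw [hB]
  nlinarith [mul_le_mul_of_nonneg_left hs.2.le (show 0 ≤ (12000 + 800 * Ct) * l by positivity)]

end Vale.Agent.P128.Regularity.Tip

namespace Vale.Agent.P128.Regularity

open Vale.Agent.P128.Bridge Tip

theorem tipDecay (hTr : TranslateSpec) : TipDecaySpec := by
  obtain ⟨Ct, δ, hCt, hδ, htr⟩ := hTr
  refine ⟨min δ 1, 2 * (12000 + 800 * Ct), 1 / 8, lt_min hδ one_pos, by positivity, by norm_num, ?_⟩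
  intro U K u G A M Λ h x R γ γ' hb hsub hΛ hreg hlim r hr
  have hR := hb.pos
  have hΛ1 : Λ * R ≤ 1 := hΛ.trans (min_le_right _ _)
  have hΛδ : Λ * R ≤ δ := hΛ.trans (min_le_left _ _)
  have hT := htr U K u G A M Λ h x R γ γ' hb hsub
  have hup : ∀ ρ ∈ Ioc 0 R, den U K G x ρ ≤ 2 * ρ := fun ρ hρ => by
    have h2 := ((hreg ρ hρ).2.2.2 rfl).2
    rw [den_eq h hsub hρ.2, ENNReal.ofReal_le_ofReal_iff
      (mul_nonneg (add_nonneg zero_le_one (le_min hδ.le zero_le_one)) hρ.1.le)] at h2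
    nlinarith [min_le_right δ 1, hρ.1]
  have h1 : ∀ ρ ∈ Ioc 0 R, yr U K G x ρ ≤ 2 := fun ρ hρ => (div_le_iff₀ hρ.1).2 (hup ρ hρ)
  have hlim' : ∀ ε > 0, ∃ R' > 0, ∀ ρ ∈ Ioc 0 R', (1 - ε) * ρ ≤ den U K G x ρ := by
    intro ε hε
    obtain ⟨R', hR', hreg'⟩ := hlim ε hε
    refine ⟨min R' R, lt_min hR' hR, fun ρ hρ => ?_⟩
    have h2 := ((hreg' ρ ⟨hρ.1, hρ.2.trans (min_le_left _ _)⟩).2.2.2 rfl).1
    rw [den_eq h hsub (hρ.2.trans (min_le_right _ _))] at h2
    exact (ENNReal.ofReal_le_ofReal_iff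
      (setIntegral_nonneg measurableSet_ball fun z _ => sq_nonneg _)).1 h2
  have hbound := length_bound h hb hsub hΛ1 hΛδ hCt hT hup h1 hlim' hr.1 hr.2
  have e : Real.sqrt (rate R r) = (r / R) ^ (1 / 8 : ℝ) := by
    rw [rate, Real.sqrt_eq_rpow, Real.sqrt_eq_rpow, Real.sqrt_eq_rpow,
      ← Real.rpow_mul (div_nonneg hr.1.le hR.le), ← Real.rpow_mul (div_nonneg hr.1.le hR.le)]
    norm_num
  rw [e] at hbound
  rwa [mul_assoc (2 * (12000 + 800 * Ct))]

end Vale.Agent.P128.Regularity
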