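import Vale.Agent.P128.Regularity.Spec

/-!
# P128 regularity: monotonicity of the hypotheses, and interior points from graphs
-/

open MeasureTheory Set Metric Filter
open scoped ENNReal NNReal Topology Real RealInnerProductSpace

noncomputable section

namespace Vale.Agent.P128.Regularity

open Vale.Agent.P128.Bridge

variable {U K : Set ℂ} {G : ℂ → ℂ} {x : ℂ} {n : ℕ} {r R R' ε ε' Λ : ℝ}

theorem flat_mono (h : Flat K n x r ε) (hε : ε ≤ ε') (hr : 0 ≤ r) : Flat K n x r ε' := by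
  obtain ⟨d, hd, h1, h2⟩ := h
  have := mul_le_mul_of_nonneg_right hε hr
  exact ⟨d, hd, fun z hz => (h1 z hz).imp fun w hw => ⟨hw.1, hw.2.trans this⟩,
    fun w hw => (h2 w hw).imp fun z hz => ⟨hz.1, hz.2.trans this⟩⟩

theorem regime_mono (h : Regime K G n x R ε) (hR : R' ≤ R) (hε : ε ≤ ε') :
    Regime K G n x R' ε' := by
  intro r hr
  obtain ⟨h1, h2, h3, h4⟩ := h r ⟨hr.1, hr.2.trans hR⟩
  have hr0 := hr.1.le
  refine ⟨flat_mono h1 hε hr0, h2.trans (ENNReal.ofReal_le_ofReal (by gcongr)),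
    fun hn => (h3 hn).trans (ENNReal.ofReal_le_ofReal (by gcongr)), fun hn => ⟨?_, ?_⟩⟩
  · exact le_trans (ENNReal.ofReal_le_ofReal (by gcongr)) (h4 hn).1
  · exact (h4 hn).2.trans (ENNReal.ofReal_le_ofReal (by gcongr))

theorem lineHyp_mono (h : LineHyp U K G Λ x R ε) (hε : ε ≤ ε') : LineHyp U K G Λ x R ε' :=
  ⟨h.pos, h.mem, h.ball_subset, h.small.trans hε, fun z hz => regime_mono (h.regime z hz) le_rfl hε⟩

theorem branches_mono {γ γ' : Fin n → ℝ → ℂ} (h : Branches K n x R γ γ') (h0 : 0 < R')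
    (hR : R' ≤ R) : Branches K n x R' γ γ' where
  pos := h0
  mem := h.mem
  radial i t ht := h.radial i t ⟨ht.1, ht.2.trans_le hR⟩
  deriv i t ht := h.deriv i t ⟨ht.1, ht.2.trans_le hR⟩
  cont i := (h.cont i).mono (Ioo_subset_Ioo_right hR)
  cover := by
    ext z
    constructor
    · rintro ⟨hz, hzb⟩
      have : z ∈ K ∩ ball x R := ⟨hz, ball_subset_ball hR hzb⟩
      rw [h.cover] at this
      rcases this with rfl | hz'
      · exact Or.inl rfl
      · obtain ⟨i, t, ht, rfl⟩ := mem_iUnion.1 hz'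
        refine Or.inr (mem_iUnion.2 ⟨i, t, ⟨ht.1, ?_⟩, rfl⟩)
        rw [mem_ball, dist_eq_norm, h.radial i t ht] at hzb
        exact hzb
    · rintro (rfl | hz)
      · exact ⟨h.mem, mem_ball_self h0⟩
      · obtain ⟨i, t, ht, rfl⟩ := mem_iUnion.1 hz
        have ht' : t ∈ Ioo (0 : ℝ) R := ⟨ht.1, ht.2.trans_le hR⟩
        have : γ i t ∈ K ∩ ball x R := by
          rw [h.cover]; exact Or.inr (mem_iUnion.2 ⟨i, t, ht', rfl⟩)
        refine ⟨this.1, ?_⟩
        rw [mem_ball, dist_eq_norm, h.radial i t ht']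
        exact ht.2
  apart i j hij t ht := h.apart i j hij t ⟨ht.1, ht.2.trans_le hR⟩

theorem graphAt_mono {d : ℂ} {ρ β β' C C' : ℝ} {f f' : ℝ → ℝ} (h : GraphAt K x d ρ β C f f')
    (hC : 0 ≤ C) (hβ : 0 < β') (hβ' : β' ≤ β) (hβ1 : β ≤ 1) (hCC : 2 * C ≤ C') :
    GraphAt K x d ρ β' C' f f' := by
  refine ⟨h.unit, h.pos, h.zero, h.deriv, h.small, fun s hs t ht => (h.holder s hs t ht).trans ?_,
    h.graph⟩
  set q := |s - t| / ρ with hq
  have hq0 : 0 ≤ q := div_nonneg (abs_nonneg _) h.pos.le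
  have hq2 : q ≤ 2 := by
    rw [hq, div_le_iff₀ h.pos, abs_le]
    constructor <;> linarith [hs.1, hs.2, ht.1, ht.2]
  rcases hq0.eq_or_lt with h0 | h0
  · rw [← h0, Real.zero_rpow (ne_of_gt (lt_of_lt_of_le hβ hβ')), Real.zero_rpow hβ.ne']; simp
  have h1 : q ^ β = q ^ (β - β') * q ^ β' := by rw [← Real.rpow_add h0]; congr 1; ring
  have h2 : q ^ (β - β') ≤ 2 := by
    calc q ^ (β - β') ≤ (2 : ℝ) ^ (β - β') := Real.rpow_le_rpow hq0 hq2 (by linarith)
      _ ≤ (2 : ℝ) ^ (1 : ℝ) := Real.rpow_le_rpow_of_exponent_le (by norm_num) (by linarith)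
      _ = 2 := Real.rpow_one 2
  calc C * q ^ β ≤ C * (2 * q ^ β') := by rw [h1]; gcongr
    _ ≤ C' * q ^ β' := by
        rw [← mul_assoc]
        exact mul_le_mul_of_nonneg_right (by linarith) (by positivity)

theorem coords {d : ℂ} (hd : ‖d‖ = 1) (z : ℂ) :
    z = ⟪z, d⟫ • d + ⟪z, Complex.I * d⟫ • (Complex.I * d) := by
  have hn : d.re * d.re + d.im * d.im = 1 := by
    have := Complex.sq_norm d
    rw [hd, Complex.normSq_apply] at this
    linarith
  apply Complex.ext <;> simp [Complex.inner, Complex.real_smul]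
  · linear_combination (-z.re) * hn
  · linear_combination (-z.im) * hn

/-- A graph at `x` makes `x` an interior point. -/
theorem interior_of_graphAt {d : ℂ} {ρ β C : ℝ} {f f' : ℝ → ℝ} (h : GraphAt K x d ρ β C f f') :
    ∃ N : Set ℂ, IsOpen N ∧ x ∈ N ∧ N ⊆ closedBall x (2 * ρ) ∧ IsInteriorPoint K N x β := by
  set e := Complex.I * d with he
  have hed : ⟪d, e⟫ = 0 := by simp [he, Complex.inner]; ring
  have hdd : ⟪d, d⟫ = 1 := by rw [real_inner_self_eq_norm_sq, h.unit]; norm_num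
  have hee : ⟪e, e⟫ = 1 := by rw [real_inner_self_eq_norm_sq, he, norm_mul, h.unit]; simp
  have hρ := h.pos
  set N := {z : ℂ | |⟪z - x, d⟫| < ρ ∧ |⟪z - x, e⟫| < ρ} with hN
  have hNopen : IsOpen N :=
    (isOpen_lt (f := fun z : ℂ => |⟪z - x, d⟫|) (by fun_prop) continuous_const).inter
      (isOpen_lt (f := fun z : ℂ => |⟪z - x, e⟫|) (by fun_prop) continuous_const)
  have hNsub : N ⊆ closedBall x (2 * ρ) := fun z hz => by
    rw [mem_closedBall, dist_eq_norm, coords h.unit (z - x), ← he]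
    calc _ ≤ ‖⟪z - x, d⟫ • d‖ + ‖⟪z - x, e⟫ • e‖ := norm_add_le _ _
      _ ≤ 2 * ρ := by
          have : ‖e‖ = 1 := by rw [he, norm_mul, h.unit]; simp
          simp only [norm_smul, Real.norm_eq_abs, h.unit, this, mul_one]
          linarith [hz.1, hz.2]
  have hf : ∀ t ∈ Icc (-ρ) ρ, |f t| ≤ ρ / 10 := fun t ht => by
    have := (convex_Icc (-ρ) ρ).norm_image_sub_le_of_norm_hasDerivWithin_le h.deriv
      (fun s hs => by simpa using h.small s hs) (show (0 : ℝ) ∈ Icc (-ρ) ρ from ⟨by linarith, hρ.le⟩) ht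
    simp only [h.zero, sub_zero, Real.norm_eq_abs] at this
    have habs : |t| ≤ ρ := abs_le.2 ht
    linarith [mul_le_mul_of_nonneg_left habs (show (0 : ℝ) ≤ 1 / 10 by norm_num)]
  set γ : ℝ → ℂ := fun t => x + (ρ * t) • d + f (ρ * t) • e with hγ
  set γ' : ℝ → ℂ := fun t => ρ • d + (ρ * f' (ρ * t)) • e with hγ'
  have hmem : ∀ t ∈ Icc (-1 : ℝ) 1, ρ * t ∈ Icc (-ρ) ρ := fun t ht => by
    constructor <;> nlinarith [ht.1, ht.2]
  have hcd : ∀ a b : ℝ, ⟪a • d + b • e, d⟫ = a ∧ ⟪a • d + b • e, e⟫ = b := fun a b => by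
    have hde : ⟪e, d⟫ = 0 := by rw [real_inner_comm]; exact hed
    constructor <;> rw [inner_add_left, real_inner_smul_left, real_inner_smul_left]
    · rw [hdd, hde]; ring
    · rw [hed, hee]; ring
  refine ⟨N, hNopen, ?_, hNsub, γ, γ', ⟨by norm_num, ?_, ?_, C * ρ, ?_⟩, ?_, ?_⟩
  · simp [hN, hρ]
  · intro s hs t ht hst
    have := congrArg (fun z => ⟪z - x, d⟫) hst
    simp only [hγ, add_assoc, add_sub_cancel_left, (hcd _ _).1] at this
    exact mul_left_cancel₀ hρ.ne' this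
  · intro t ht
    have hlin : HasDerivWithinAt (fun t : ℝ => ρ * t) ρ (Icc (-1) 1) t := by
      simpa using ((hasDerivAt_id t).const_mul ρ).hasDerivWithinAt
    have hf1 := (h.deriv _ (hmem t ht)).comp t hlin hmem
    refine ⟨?_, fun h0 => ?_⟩
    · have := ((hlin.smul_const d).const_add x).add (hf1.smul_const e)
      refine (this.congr_deriv ?_).congr (fun y _ => rfl) rfl
      simp only [hγ', mul_comm]
    · have := congrArg (fun z => ⟪z, d⟫) h0
      simp only [hγ', (hcd _ _).1, inner_zero_left] at this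
      exact hρ.ne' this
  · intro s hs t ht
    have hh := h.holder _ (hmem s hs) _ (hmem t ht)
    rw [show |ρ * s - ρ * t| / ρ = |s - t| by
      rw [← mul_sub, abs_mul, abs_of_pos hρ, mul_div_cancel_left₀ _ hρ.ne']] at hh
    simp only [hγ', add_sub_add_left_eq_sub, ← sub_smul, norm_smul, ← mul_sub]
    rw [he, norm_mul Complex.I d, h.unit, Real.norm_eq_abs, abs_mul, abs_of_pos hρ]
    simp only [Complex.norm_I, mul_one]
    nlinarith
  · simp [hγ, h.zero]
  · ext z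
    constructor
    · rintro ⟨hz, hz1, hz2⟩
      have hg := (h.graph z hz1.le hz2.le).1 hz
      obtain ⟨ha, hb⟩ := abs_lt.1 hz1
      refine ⟨⟪z - x, d⟫ / ρ, ⟨by rw [lt_div_iff₀ hρ]; linarith, by rw [div_lt_iff₀ hρ]; linarith⟩, ?_⟩
      simp only [hγ, mul_div_cancel₀ _ hρ.ne', ← hg]
      rw [add_assoc, ← coords h.unit (z - x), add_sub_cancel]
    · rintro ⟨t, ht, rfl⟩
      have h1 : ρ * t ∈ Icc (-ρ) ρ := hmem t (Ioo_subset_Icc_self ht)
      have e1 : ⟪γ t - x, d⟫ = ρ * t ∧ ⟪γ t - x, e⟫ = f (ρ * t) := by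
        simp only [hγ, add_assoc, add_sub_cancel_left]; exact hcd _ _
      have l1 : |ρ * t| < ρ := by
        rw [abs_mul, abs_of_pos hρ]; nlinarith [abs_lt.2 ht]
      have l2 : |f (ρ * t)| < ρ := lt_of_le_of_lt (hf _ h1) (by linarith)
      refine ⟨(h.graph _ (by rw [e1.1]; exact l1.le) (by rw [e1.2]; exact l2.le)).2
        (by rw [e1.2, e1.1]), ?_, ?_⟩
      · rw [e1.1]; exact l1
      · rw [e1.2]; exact l2

end Vale.Agent.P128.Regularity
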