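import Vale.Agent.P128.Bridge.Decay
import Vale.Agent.P128.Bridge.Polar
import Vale.Agent.P128.Circle.Eilenberg
import Vale.Agent.P128.Regularity.Spec

/-!
# P128 regularity: radii with few crossings and small circle energy
-/

open MeasureTheory Set Metric Filter
open scoped ENNReal Topology Real

noncomputable section

namespace Vale.Agent.P128.Regularity.Radius

open Vale.Agent.P128.Bridge

variable {U K : Set ℂ} {u : ℂ → ℝ} {G : ℂ → ℂ} {A M Λ : ℝ} {z : ℂ}

/-- The circle energy of the part of `G` off `K`. -/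
def offEnergy (U K : Set ℂ) (G : ℂ → ℂ) (z : ℂ) (s : ℝ) : ℝ≥0∞ :=
  ENNReal.ofReal s *
    ∫⁻ θ in Ioo (-π) π, ‖(U \ K).indicator G (circleMap z s θ)‖ₑ ^ 2

theorem measurable_indicator (h : IsAlmostMin U K u G A M Λ) :
    Measurable ((U \ K).indicator G) := by
  classical
  rw [← piecewise_eq_indicator]
  exact h.contGrad.measurable_piecewise continuousOn_const h.isOpen_compl.measurableSet

theorem measurable_offEnergy (h : IsAlmostMin U K u G A M Λ) (z : ℂ) :
    Measurable (offEnergy U K G z) := by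
  refine ENNReal.measurable_ofReal.mul ?_
  exact Measurable.lintegral_prod_right'
    (f := fun p : ℝ × ℝ => ‖(U \ K).indicator G (circleMap z p.1 p.2)‖ₑ ^ 2)
    (((measurable_indicator h).comp
      (continuous_circleMap_uncurry z).measurable).enorm.pow_const (2 : ℕ))

theorem lintegral_offEnergy_le (h : IsAlmostMin U K u G A M Λ) {T : ℝ}
    (hsub : closedBall z T ⊆ U) :
    ∫⁻ s in Ioo (0 : ℝ) T, offEnergy U K G z s ≤ dball K G z T := by
  have hm : Measurable fun y => ‖(U \ K).indicator G y‖ₑ ^ 2 :=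
    (measurable_indicator h).enorm.pow_const (2 : ℕ)
  rw [show (∫⁻ s in Ioo (0 : ℝ) T, offEnergy U K G z s) =
    ∫⁻ y in ball z T, ‖(U \ K).indicator G y‖ₑ ^ 2 from
    (lintegral_ball_polar hm.aemeasurable.restrict).symm]
  rw [dball, ← lintegral_indicator measurableSet_ball,
    ← lintegral_indicator (measurableSet_closedBall.diff h.measurableSet)]
  refine lintegral_mono fun y => ?_
  by_cases hy : y ∈ ball z T
  · rw [indicator_of_mem hy]
    by_cases hK : y ∈ K
    · simp [indicator_of_notMem (fun h' : y ∈ U \ K => h'.2 hK)]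
    · rw [indicator_of_mem (show y ∈ U \ K from ⟨hsub (ball_subset_closedBall hy), hK⟩),
        indicator_of_mem (show y ∈ closedBall z T \ K from ⟨ball_subset_closedBall hy, hK⟩)]
  · rw [indicator_of_notMem hy]
    exact zero_le

theorem offEnergy_eq (h : IsAlmostMin U K u G A M Λ) {s : ℝ} (hs : 0 < s)
    (hsub : closedBall z s ⊆ U) (hfin : (K ∩ sphere z s).Finite) :
    circleEnergy G z s = offEnergy U K G z s := by
  unfold circleEnergy offEnergy
  congr 1
  have hinj : InjOn (circleMap z s) (Ioo (-π) π) := (injOn_circleMap_of_abs_sub_le' (a := -π) (b := π) hs.ne'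
    (by linarith)).mono Ioo_subset_Ico_self
  have hfinθ : ({θ | θ ∈ Ioo (-π) π ∧ circleMap z s θ ∈ K} : Set ℝ).Finite := by
    refine Set.Finite.of_finite_image (f := circleMap z s) (hfin.subset ?_)
      (hinj.mono fun θ hθ => hθ.1)
    rintro _ ⟨θ, hθ, rfl⟩
    exact ⟨hθ.2, circleMap_mem_sphere z hs.le θ⟩
  refine lintegral_congr_ae ?_
  filter_upwards [ae_restrict_mem measurableSet_Ioo,
    ae_restrict_of_ae (hfinθ.countable.ae_notMem volume)] with θ hθ hn
  rw [indicator_of_mem (show circleMap z s θ ∈ U \ K from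
    ⟨hsub (sphere_subset_closedBall (circleMap_mem_sphere z hs.le θ)), fun h' => hn ⟨hθ, h'⟩⟩)]

/-- A radius in `(a, b)` with small circle energy, when all these circles meet `K` finitely. -/
theorem exists_small_energy (h : IsAlmostMin U K u G A M Λ) {a b D : ℝ} (ha : 0 ≤ a) (hab : a < b)
    (hsub : closedBall z b ⊆ U) (hD0 : 0 < D) (hD : dball K G z b ≤ ENNReal.ofReal D)
    (hfin : ∀ s ∈ Ioo a b, (K ∩ sphere z s).Finite) :
    ∃ s ∈ Ioo a b, circleEnergy G z s ≤ ENNReal.ofReal (2 * D / (b - a)) := by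
  by_contra hcon
  simp only [not_exists, not_and, not_le] at hcon
  have hd : 0 < b - a := sub_pos.2 hab
  have h1 : ∫⁻ _ in Ioo a b, ENNReal.ofReal (2 * D / (b - a)) ≤ ENNReal.ofReal D := by
    refine le_trans ?_ ((lintegral_mono_set (Ioo_subset_Ioo_left ha)).trans
      ((lintegral_offEnergy_le h hsub).trans hD))
    refine setLIntegral_mono (measurable_offEnergy h z) fun s hs => ?_
    rw [← offEnergy_eq h (ha.trans_lt hs.1)
      ((closedBall_subset_closedBall hs.2.le).trans hsub) (hfin s hs)]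
    exact (hcon s hs).le
  rw [setLIntegral_const, Real.volume_Ioo, ← ENNReal.ofReal_mul (by positivity),
    ENNReal.ofReal_le_ofReal_iff hD0.le, div_mul_cancel₀ _ hd.ne'] at h1
  linarith

/-- In a disc where every circle is crossed twice and the length is little more than the radius
times two, some radius has exactly two crossings and small circle energy. -/
theorem exists_two_crossings (h : IsAlmostMin U K u G A M Λ) {r D : ℝ} (hr : 0 < r)
    (hsub : closedBall z (4 * r) ⊆ U) (hD0 : 0 < D) (hD : dball K G z (4 * r) ≤ ENNReal.ofReal D)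
    (hH : μH[1] (K ∩ closedBall z (4 * r)) ≤ ENNReal.ofReal (17 / 2 * r))
    (htwo : ∀ s ∈ Ioo (0 : ℝ) (4 * r), 2 ≤ (K ∩ sphere z s).encard) :
    ∃ s ∈ Ioo (2 * r) (4 * r), (K ∩ sphere z s).encard = 2 ∧
      circleEnergy G z s ≤ ENNReal.ofReal (2 * D / r) := by
  by_contra hcon
  simp only [not_exists, not_and, not_le] at hcon
  set c := ENNReal.ofReal (r / (2 * D)) with hc
  set N := fun s => ((K ∩ closedBall z (4 * r) ∩ {y | dist y z = s}).encard : ℝ≥0∞) with hNdef
  set Φ := fun s => offEnergy U K G z s * c with hΦ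
  have hΦm : Measurable Φ := (measurable_offEnergy h z).mul_const _
  have hΦle : ∫⁻ s in Ioo (0 : ℝ) (4 * r), Φ s ≤ ENNReal.ofReal (r / 2) := by
    rw [lintegral_mul_const _ (measurable_offEnergy h z)]
    refine (mul_le_mul_left ((lintegral_offEnergy_le h hsub).trans hD) c).trans (le_of_eq ?_)
    rw [hc, ← ENNReal.ofReal_mul hD0.le]
    congr 1
    field_simp
  have hNle : ∫⁻ s in Ioo (0 : ℝ) (4 * r), N s ≤ ENNReal.ofReal (17 / 2 * r) :=
    (setLIntegral_le_lintegral _ _).trans ((eilenberg_dist z _).trans hH)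
  have hNeq : ∀ s ∈ Ioo (0 : ℝ) (4 * r), K ∩ closedBall z (4 * r) ∩ {y | dist y z = s} =
      K ∩ sphere z s := fun s hs => by
    ext y
    simp only [mem_inter_iff, mem_closedBall, mem_ofPred_eq, mem_sphere]
    exact ⟨fun hy => ⟨hy.1.1, hy.2⟩, fun hy => ⟨⟨hy.1, hy.2 ▸ hs.2.le⟩, hy.2⟩⟩
  have hlow1 : ENNReal.ofReal (4 * r) ≤ ∫⁻ s in Ioo (0 : ℝ) (2 * r), (N s + Φ s) := by
    refine le_trans (le_of_eq ?_) (setLIntegral_mono' measurableSet_Ioo (f := fun _ => (2 : ℝ≥0∞))
      fun s hs => le_add_right ?_)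
    · rw [setLIntegral_const, Real.volume_Ioo, ← ENNReal.ofReal_ofNat 2,
        ← ENNReal.ofReal_mul (by norm_num)]
      ring_nf
    · have hs' : s ∈ Ioo (0 : ℝ) (4 * r) := ⟨hs.1, hs.2.trans (by linarith)⟩
      simp only [hNdef, hNeq s hs']
      exact_mod_cast htwo s hs'
  have hlow2 : ENNReal.ofReal (6 * r) ≤ ∫⁻ s in Ioo (2 * r) (4 * r), (N s + Φ s) := by
    refine le_trans (le_of_eq ?_) (setLIntegral_mono' measurableSet_Ioo (f := fun _ => (3 : ℝ≥0∞))
      fun s hs => ?_)
    · rw [setLIntegral_const, Real.volume_Ioo, ← ENNReal.ofReal_ofNat 3,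
        ← ENNReal.ofReal_mul (by norm_num)]
      ring_nf
    · have hs0 : s ∈ Ioo (0 : ℝ) (4 * r) := ⟨lt_trans (by linarith) hs.1, hs.2⟩
      simp only [hNdef, hNeq s hs0]
      rcases eq_or_lt_of_le (htwo s hs0) with h2 | h2
      · have hfin : (K ∩ sphere z s).Finite := finite_of_encard_eq_coe (k := 2) h2.symm
        have hbig := hcon s hs h2.symm
        rw [offEnergy_eq h hs0.1 ((closedBall_subset_closedBall hs.2.le).trans hsub) hfin] at hbig
        rw [← h2]
        have hone : 1 ≤ Φ s := by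
          refine le_trans (le_of_eq ?_) (mul_le_mul_left hbig.le c)
          rw [hc, ← ENNReal.ofReal_mul (by positivity), ← ENNReal.ofReal_one]
          congr 1
          field_simp
        calc (3 : ℝ≥0∞) = ((2 : ℕ∞) : ℝ≥0∞) + 1 := by norm_num
          _ ≤ _ := add_le_add le_rfl hone
      · refine le_add_right ?_
        have h3 : (3 : ℕ∞) ≤ (K ∩ sphere z s).encard := by
          have := Order.add_one_le_of_lt h2
          simpa [show (2 : ℕ∞) + 1 = 3 from rfl] using this
        exact_mod_cast h3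
  have hsum : ∫⁻ s in Ioo (0 : ℝ) (4 * r), (N s + Φ s) ≤ ENNReal.ofReal (9 * r) := by
    rw [lintegral_add_right _ hΦm]
    refine (add_le_add hNle hΦle).trans (le_of_eq ?_)
    rw [← ENNReal.ofReal_add (by positivity) (by positivity)]
    ring_nf
  have hdis : Disjoint (Ioo (0 : ℝ) (2 * r)) (Ioo (2 * r) (4 * r)) :=
    disjoint_left.2 fun s h1 h2 => absurd h1.2 h2.1.le.not_gt
  have := (add_le_add hlow1 hlow2).trans_eq (lintegral_union measurableSet_Ioo hdis).symm
  have h10 := this.trans ((lintegral_mono_set (union_subset (Ioo_subset_Ioo_right (by linarith))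
    (Ioo_subset_Ioo_left (by positivity)))).trans hsum)
  rw [← ENNReal.ofReal_add (by positivity) (by positivity),
    ENNReal.ofReal_le_ofReal_iff (by positivity)] at h10
  linarith

end Vale.Agent.P128.Regularity.Radius
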