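import Vale.Agent.P128.Regularity.Spec

/-!
# P128 R10: the identity on a circle with one crossing

With `T = tan (t/2)`, `a = p - V/2`, `m = q + T V/2` every quantity is a square plus the derivative
of `T V²/2`, which integrates to zero because `V π = 0`.
-/

open MeasureTheory Set Metric Filter
open scoped ENNReal Topology Real

noncomputable section

namespace Vale.Agent.P128.Regularity

/-- The antiderivative `T V²/2`. -/
def tanFlux (V : ℝ → ℝ) (t : ℝ) : ℝ := Real.tan (t / 2) * V t ^ 2 / 2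

/-- Energy defect of the circle. -/
def defect (V p q : ℝ → ℝ) (t : ℝ) : ℝ := p t ^ 2 + q t ^ 2 - p t * V t

/-- Stress minus energy. -/
def stressGap (V p q : ℝ → ℝ) (t : ℝ) : ℝ :=
  (p t ^ 2 - q t ^ 2) * Real.cos t - 2 * (p t * q t) * Real.sin t - p t * V t

/-- Energy of the degree one half extension minus energy. -/
def capGap (V p q : ℝ → ℝ) (t : ℝ) : ℝ := V t ^ 2 / 4 + q t ^ 2 - p t * V t

/-- The derivative of `T V²/2`. -/
def fluxDeriv (V q : ℝ → ℝ) (t : ℝ) : ℝ :=
  (1 + Real.tan (t / 2) ^ 2) * V t ^ 2 / 4 + Real.tan (t / 2) * V t * q t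

theorem quad_le {c s a m : ℝ} (h : c ^ 2 + s ^ 2 = 1) :
    |c * (a ^ 2 - m ^ 2) - 2 * s * a * m| ≤ a ^ 2 + m ^ 2 := by
  refine abs_le_of_sq_le_sq ?_ (by positivity)
  nlinarith [sq_nonneg (c * (2 * a * m) + s * (a ^ 2 - m ^ 2))]

theorem pointwise (V p q : ℝ → ℝ) {t l : ℝ} (ht : Real.cos (t / 2) ≠ 0) (hl : 0 < l) :
    0 ≤ defect V p q t + fluxDeriv V q t ∧
      |stressGap V p q t + fluxDeriv V q t| ≤ defect V p q t + fluxDeriv V q t ∧
      capGap V p q t + fluxDeriv V q t ≤
        (1 + 1 / l) * (defect V p q t + fluxDeriv V q t) + l * V t ^ 2 := by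
  set τ := Real.tan (t / 2) with hτ
  set a := p t - V t / 2 with ha
  set m := q t + τ * V t / 2 with hm
  have e : defect V p q t + fluxDeriv V q t = a ^ 2 + m ^ 2 := by
    simp only [defect, fluxDeriv, ← hτ, ha, hm]; ring
  have hsq : (1 + τ ^ 2) * Real.cos (t / 2) ^ 2 = 1 := by
    rw [add_mul, one_mul, ← mul_pow, hτ, Real.tan_mul_cos ht]
    exact Real.cos_sq_add_sin_sq _
  have hc : Real.cos t * (1 + τ ^ 2) = 1 - τ ^ 2 := by
    have : Real.cos t = 2 * Real.cos (t / 2) ^ 2 - 1 := by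
      rw [← Real.cos_two_mul]; ring_nf
    rw [this]
    linear_combination 2 * hsq
  have hs : Real.sin t * (1 + τ ^ 2) = 2 * τ := by
    have : Real.sin t = 2 * τ * Real.cos (t / 2) ^ 2 := by
      rw [sq, ← mul_assoc, mul_assoc 2 τ, hτ, Real.tan_mul_cos ht, ← Real.sin_two_mul]
      ring_nf
    rw [this]
    linear_combination 2 * τ * hsq
  have e2 : stressGap V p q t + fluxDeriv V q t =
      Real.cos t * (a ^ 2 - m ^ 2) - 2 * Real.sin t * a * m := by
    have h0 : (0 : ℝ) < 1 + τ ^ 2 := by positivity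
    rw [← sub_eq_zero]
    refine (mul_eq_zero.1 ?_).resolve_right h0.ne'
    simp only [stressGap, fluxDeriv, ← hτ, ha, hm]
    linear_combination ((p t ^ 2 - q t ^ 2) - (p t - V t / 2) ^ 2 + (q t + τ * V t / 2) ^ 2) * hc +
      (2 * (p t - V t / 2) * (q t + τ * V t / 2) - 2 * (p t * q t)) * hs
  refine ⟨e ▸ by positivity, ?_, ?_⟩
  · rw [e, e2]
    exact quad_le (Real.cos_sq_add_sin_sq t)
  · have e3 : capGap V p q t + fluxDeriv V q t = m ^ 2 - a * V t := by
      simp only [capGap, fluxDeriv, ← hτ, ha, hm]; ring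
    rw [e, e3, add_mul, one_mul, div_mul_eq_mul_div, one_mul]
    have h1 : -(a * V t) ≤ (a ^ 2 + m ^ 2) / l + l * V t ^ 2 := by
      rw [div_add' _ _ _ hl.ne', le_div_iff₀ hl]
      nlinarith [sq_nonneg (a + l * V t / 2), sq_nonneg m, sq_nonneg (l * V t)]
    nlinarith [sq_nonneg a]

variable {V p q : ℝ → ℝ}
  (hV : ContinuousOn V (Icc 0 (2 * π))) (hVd : ∀ t ∈ Ioo 0 (2 * π), HasDerivAt V (q t) t)
  (hp : IntervalIntegrable p volume 0 (2 * π))
  (hp2 : IntervalIntegrable (fun t => p t ^ 2) volume 0 (2 * π))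
  (hq2 : IntervalIntegrable (fun t => q t ^ 2) volume 0 (2 * π))
include hV hVd hp hp2 hq2

theorem aesm_q : AEStronglyMeasurable q (volume.restrict (Ioc 0 (2 * π))) := by
  rw [← Measure.restrict_congr_set Ioo_ae_eq_Ioc]
  refine (measurable_deriv V).aestronglyMeasurable.congr ?_
  filter_upwards [ae_restrict_mem measurableSet_Ioo] with t ht using (hVd t ht).deriv

theorem intervalIntegrable_q : IntervalIntegrable q volume 0 (2 * π) := by
  have h0 : (0 : ℝ) ≤ 2 * π := by positivity
  have hm := aesm_q hV hVd hp hp2 hq2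
  rw [intervalIntegrable_iff_integrableOn_Ioc_of_le h0] at hq2 ⊢
  refine Integrable.mono' (hq2.add (integrableOn_const (C := (1 : ℝ)) measure_Ioc_lt_top.ne))
    hm (Eventually.of_forall fun t => ?_)
  simp only [Pi.add_apply, Real.norm_eq_abs]
  nlinarith [sq_nonneg (|q t| - 1), sq_abs (q t)]

theorem intervalIntegrable_parts :
    IntervalIntegrable (defect V p q) volume 0 (2 * π) ∧
      IntervalIntegrable (stressGap V p q) volume 0 (2 * π) ∧
      IntervalIntegrable (capGap V p q) volume 0 (2 * π) ∧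
      IntervalIntegrable (fun t => V t ^ 2) volume 0 (2 * π) := by
  have h0 : (0 : ℝ) ≤ 2 * π := by positivity
  have hV' : ContinuousOn V (uIcc 0 (2 * π)) := by rwa [uIcc_of_le h0]
  have hpV : IntervalIntegrable (fun t => p t * V t) volume 0 (2 * π) := hp.mul_continuousOn hV'
  have hpq : IntervalIntegrable (fun t => p t * q t) volume 0 (2 * π) := by
    refine (hp2.add hq2).mono_fun ?_ (Eventually.of_forall fun t => ?_)
    · rw [uIoc_of_le h0]
      exact (hp.1.aestronglyMeasurable).mul (aesm_q hV hVd hp hp2 hq2)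
    · simp only [Real.norm_eq_abs, abs_mul]
      rw [abs_of_nonneg (show 0 ≤ p t ^ 2 + q t ^ 2 by positivity)]
      nlinarith [sq_nonneg (|p t| - |q t|), sq_abs (p t), sq_abs (q t)]
  have hV2 : IntervalIntegrable (fun t => V t ^ 2) volume 0 (2 * π) :=
    (hV'.pow 2).intervalIntegrable
  refine ⟨(hp2.add hq2).sub hpV, ?_, ((hV2.div_const 4).add hq2).sub hpV, hV2⟩
  exact (((hp2.sub hq2).mul_continuousOn Real.continuous_cos.continuousOn).sub
    ((hpq.const_mul 2).mul_continuousOn Real.continuous_sin.continuousOn)).sub hpV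

/-- The three inequalities away from `π`, with the boundary term. -/
theorem core {a b l : ℝ} (ha : 0 ≤ a) (hab : a ≤ b) (hb : b ≤ 2 * π)
    (hcos : ∀ t ∈ Icc a b, Real.cos (t / 2) ≠ 0) (hl : 0 < l) :
    0 ≤ (∫ t in a..b, defect V p q t) + (tanFlux V b - tanFlux V a) ∧
      |(∫ t in a..b, stressGap V p q t) + (tanFlux V b - tanFlux V a)| ≤
        (∫ t in a..b, defect V p q t) + (tanFlux V b - tanFlux V a) ∧
      (∫ t in a..b, capGap V p q t) + (tanFlux V b - tanFlux V a) ≤
        (1 + 1 / l) * ((∫ t in a..b, defect V p q t) + (tanFlux V b - tanFlux V a)) +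
          l * ∫ t in a..b, V t ^ 2 := by
  have h0 : (0 : ℝ) ≤ 2 * π := by positivity
  have hsub : uIcc a b ⊆ uIcc 0 (2 * π) := by
    rw [uIcc_of_le hab, uIcc_of_le h0]; exact Icc_subset_Icc ha hb
  obtain ⟨i1, i2, i3, i4⟩ := intervalIntegrable_parts hV hVd hp hp2 hq2
  have hT : ContinuousOn (fun t : ℝ => Real.tan (t / 2)) (Icc a b) :=
    Real.continuousOn_tan.comp (continuous_id.div_const 2).continuousOn hcos
  have hVab : ContinuousOn V (Icc a b) := hV.mono (Icc_subset_Icc ha hb)
  have hW : IntervalIntegrable (fluxDeriv V q) volume a b := by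
    refine IntervalIntegrable.add ?_ ?_
    · refine ContinuousOn.intervalIntegrable ?_
      rw [uIcc_of_le hab]
      exact ((continuousOn_const.add (hT.pow 2)).mul (hVab.pow 2)).div_const 4
    · refine ((intervalIntegrable_q hV hVd hp hp2 hq2).mono_set hsub).continuousOn_mul ?_
      rw [uIcc_of_le hab]
      exact hT.mul hVab
  have hFTC : ∫ t in a..b, fluxDeriv V q t = tanFlux V b - tanFlux V a := by
    refine intervalIntegral.integral_eq_sub_of_hasDerivAt_of_le hab ?_ (fun t ht => ?_) hW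
    · exact (hT.mul (hVab.pow 2)).div_const 2
    · have hc := hcos t (Ioo_subset_Icc_self ht)
      have h1 := ((Real.hasDerivAt_tan hc).comp t ((hasDerivAt_id t).div_const 2)).mul
        ((hVd t ⟨ha.trans_lt ht.1, ht.2.trans_le hb⟩).pow 2)
      refine (h1.div_const 2).congr_deriv ?_
      simp only [fluxDeriv, Function.comp_apply, id, Pi.pow_apply]
      rw [one_div (Real.cos (t / 2) ^ 2), Real.inv_one_add_tan_sq hc |>.symm, inv_inv]
      ring
  have j1 := i1.mono_set hsub
  have j2 := i2.mono_set hsub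
  have j3 := i3.mono_set hsub
  have j4 := i4.mono_set hsub
  rw [← hFTC, ← intervalIntegral.integral_add j1 hW, ← intervalIntegral.integral_add j2 hW,
    ← intervalIntegral.integral_add j3 hW, ← intervalIntegral.integral_const_mul,
    ← intervalIntegral.integral_const_mul,
    ← intervalIntegral.integral_add ((j1.add hW).const_mul _) (j4.const_mul l)]
  refine ⟨intervalIntegral.integral_nonneg hab fun t ht => (pointwise V p q (hcos t ht) hl).1,
    (intervalIntegral.abs_integral_le_integral_abs hab).trans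
      (intervalIntegral.integral_mono_on hab (j2.add hW).abs (j1.add hW) fun t ht =>
        (pointwise V p q (hcos t ht) hl).2.1),
    intervalIntegral.integral_mono_on hab (j3.add hW) (((j1.add hW).const_mul _).add
      (j4.const_mul l)) fun t ht => (pointwise V p q (hcos t ht) hl).2.2⟩

variable (hπ : V π = 0)
include hπ

/-- The boundary term near `π`. -/
theorem tanFlux_small {η : ℝ} (hη : 0 < η) (hηπ : η < π) :
    |tanFlux V (π - η)| ≤ (∫ t in (π - η)..π, q t ^ 2) ∧
      |tanFlux V (π + η)| ≤ ∫ t in π..(π + η), q t ^ 2 := by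
  have h0 : (0 : ℝ) ≤ 2 * π := by positivity
  have hqi := intervalIntegrable_q hV hVd hp hp2 hq2
  have key : ∀ a b : ℝ, 0 ≤ a → a ≤ b → b ≤ 2 * π →
      (V b - V a) ^ 2 ≤ (b - a) * ∫ t in a..b, q t ^ 2 := by
    intro a b ha hab hb
    have hsub : uIcc a b ⊆ uIcc 0 (2 * π) := by
      rw [uIcc_of_le hab, uIcc_of_le h0]; exact Icc_subset_Icc ha hb
    have hi := hqi.mono_set hsub
    have hi2 := hq2.mono_set hsub
    have hF := intervalIntegral.integral_eq_sub_of_hasDerivAt_of_le hab
      (hV.mono (Icc_subset_Icc ha hb))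
      (fun t ht => hVd t ⟨ha.trans_lt ht.1, ht.2.trans_le hb⟩) hi
    rcases hab.eq_or_lt with rfl | hlt
    · simp
    set c := (V b - V a) / (b - a) with hc
    have h1 : 0 ≤ ∫ t in a..b, (q t ^ 2 - 2 * c * q t + c ^ 2) :=
      intervalIntegral.integral_nonneg hab fun t _ => by nlinarith [sq_nonneg (q t - c)]
    rw [intervalIntegral.integral_add (hi2.sub (hi.const_mul _)) intervalIntegrable_const,
      intervalIntegral.integral_sub hi2 (hi.const_mul _), intervalIntegral.integral_const_mul, hF,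
      intervalIntegral.integral_const, smul_eq_mul] at h1
    have e : V b - V a = c * (b - a) := by rw [hc, div_mul_cancel₀ _ (sub_pos.2 hlt).ne']
    rw [e] at h1 ⊢
    nlinarith [sub_pos.2 hlt]
  have htan : |(Real.tan (η / 2))⁻¹| ≤ 2 / η := by
    have h1 : η / 2 ≤ Real.tan (η / 2) := Real.le_tan (by positivity) (by linarith)
    rw [abs_inv, abs_of_pos (lt_of_lt_of_le (by positivity) h1), inv_le_iff_one_le_mul₀
      (lt_of_lt_of_le (by positivity) h1), div_mul_eq_mul_div, le_div_iff₀ hη]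
    linarith
  constructor
  · have hk := key (π - η) π (by linarith) (by linarith) (by linarith)
    rw [hπ, zero_sub, neg_sq, show π - (π - η) = η by ring] at hk
    rw [tanFlux, show (π - η) / 2 = π / 2 - η / 2 by ring, Real.tan_pi_div_two_sub, abs_div,
      abs_mul, abs_of_nonneg (sq_nonneg (V (π - η))), abs_of_pos (show (0 : ℝ) < 2 by norm_num),
      div_le_iff₀ two_pos]
    refine (mul_le_mul htan hk (sq_nonneg _) (by positivity)).trans (le_of_eq ?_)
    field_simp
  · have hk := key π (π + η) (by linarith) (by linarith) (by linarith)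
    rw [hπ, sub_zero, add_sub_cancel_left] at hk
    rw [tanFlux, show (π + η) / 2 = -(π / 2 - η / 2) + π by ring, Real.tan_add_pi, Real.tan_neg,
      Real.tan_pi_div_two_sub, abs_div, abs_mul, abs_neg,
      abs_of_nonneg (sq_nonneg (V (π + η))), abs_of_pos (show (0 : ℝ) < 2 by norm_num),
      div_le_iff₀ two_pos]
    refine (mul_le_mul htan hk (sq_nonneg _) (by positivity)).trans (le_of_eq ?_)
    field_simp

/-- **The identity**: energy defect, stress and cap on one circle. -/
theorem tip_identity {l : ℝ} (hl : 0 < l) :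
    0 ≤ (∫ t in (0 : ℝ)..2 * π, defect V p q t) ∧
      |∫ t in (0 : ℝ)..2 * π, stressGap V p q t| ≤ (∫ t in (0 : ℝ)..2 * π, defect V p q t) ∧
      (∫ t in (0 : ℝ)..2 * π, capGap V p q t) ≤
        (1 + 1 / l) * (∫ t in (0 : ℝ)..2 * π, defect V p q t) +
          l * ∫ t in (0 : ℝ)..2 * π, V t ^ 2 := by
  have hp0 := Real.pi_pos
  have h0 : (0 : ℝ) ≤ 2 * π := by positivity
  obtain ⟨i1, i2, i3, i4⟩ := intervalIntegrable_parts hV hVd hp hp2 hq2
  have hlim : ∀ {f : ℝ → ℝ}, IntervalIntegrable f volume 0 (2 * π) →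
      Tendsto (fun η => (∫ t in (0 : ℝ)..(π - η), f t) + ∫ t in (π + η)..2 * π, f t)
        (𝓝[>] 0) (𝓝 (∫ t in (0 : ℝ)..2 * π, f t)) := by
    intro f hf
    have hc := intervalIntegral.continuousOn_primitive_interval' hf (a := 0)
      (by rw [uIcc_of_le h0]; exact left_mem_Icc.2 h0)
    rw [uIcc_of_le h0] at hc
    have hev : ∀ᶠ η in 𝓝[>] (0 : ℝ), π - η ∈ Icc 0 (2 * π) ∧ π + η ∈ Icc 0 (2 * π) := by
      filter_upwards [Ioo_mem_nhdsGT hp0] with η hη
      exact ⟨⟨by linarith [hη.2], by linarith [hη.1]⟩, ⟨by linarith [hη.1], by linarith [hη.2]⟩⟩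
    have hat := hc π ⟨hp0.le, by linarith⟩
    have l1 := hat.tendsto.comp (tendsto_nhdsWithin_iff.2
      ⟨((continuous_const (y := π)).sub continuous_id).tendsto' 0 π (by simp) |>.mono_left
        nhdsWithin_le_nhds, hev.mono fun η h => h.1⟩)
    have l2 := hat.tendsto.comp (tendsto_nhdsWithin_iff.2
      ⟨((continuous_const (y := π)).add continuous_id).tendsto' 0 π (by simp) |>.mono_left
        nhdsWithin_le_nhds, hev.mono fun η h => h.2⟩)
    have l3 := (l1.add (tendsto_const_nhds (x := ∫ t in (0 : ℝ)..2 * π, f t))).sub l2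
    rw [add_sub_cancel_left] at l3
    refine l3.congr' ?_
    filter_upwards [hev] with η hη
    have := intervalIntegral.integral_add_adjacent_intervals
      (hf.mono_set (show uIcc 0 (π + η) ⊆ uIcc 0 (2 * π) by
        rw [uIcc_of_le hη.2.1, uIcc_of_le h0]; exact Icc_subset_Icc le_rfl hη.2.2))
      (hf.mono_set (show uIcc (π + η) (2 * π) ⊆ uIcc 0 (2 * π) by
        rw [uIcc_of_le hη.2.2, uIcc_of_le h0]; exact Icc_subset_Icc hη.2.1 le_rfl))
    simp only [Function.comp_apply, Pi.sub_apply, Pi.add_apply, id]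
    linarith
  set B := fun η : ℝ => (tanFlux V (π - η) - tanFlux V 0) + (tanFlux V (2 * π) - tanFlux V (π + η))
  have hB : Tendsto B (𝓝[>] 0) (𝓝 0) := by
    have hq2' := hlim hq2
    refine squeeze_zero_norm' (a := fun η => (∫ t in (0 : ℝ)..2 * π, q t ^ 2) -
      ((∫ t in (0 : ℝ)..(π - η), q t ^ 2) + ∫ t in (π + η)..2 * π, q t ^ 2)) ?_ ?_
    · filter_upwards [Ioo_mem_nhdsGT hp0] with η hη
      obtain ⟨b1, b2⟩ := tanFlux_small hV hVd hp hp2 hq2 hπ hη.1 hη.2
      have e1 : tanFlux V 0 = 0 := by simp [tanFlux]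
      have e2 : tanFlux V (2 * π) = 0 := by
        simp [tanFlux, show 2 * π / 2 = π by ring]
      have hs : ∀ a b : ℝ, 0 ≤ a → a ≤ b → b ≤ 2 * π →
          IntervalIntegrable (fun t => q t ^ 2) volume a b := fun a b ha hab hb =>
        hq2.mono_set (by rw [uIcc_of_le hab, uIcc_of_le h0]; exact Icc_subset_Icc ha hb)
      have k1 := intervalIntegral.integral_add_adjacent_intervals
        (hs 0 (π - η) le_rfl (by linarith [hη.2]) (by linarith [hη.1]))
        (hs (π - η) π (by linarith [hη.2]) (by linarith [hη.1]) (by linarith))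
      have k2 := intervalIntegral.integral_add_adjacent_intervals
        (hs π (π + η) hp0.le (by linarith [hη.1]) (by linarith [hη.2]))
        (hs (π + η) (2 * π) (by linarith [hη.1]) (by linarith [hη.2]) le_rfl)
      have k3 := intervalIntegral.integral_add_adjacent_intervals
        (hs 0 π le_rfl hp0.le (by linarith)) (hs π (2 * π) hp0.le (by linarith) le_rfl)
      simp only [B, e1, e2, sub_zero, zero_sub, Real.norm_eq_abs]
      refine (abs_add_le _ _).trans ?_
      rw [abs_neg]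
      linarith
    · have h3 := (tendsto_const_nhds (x := ∫ t in (0 : ℝ)..2 * π, q t ^ 2)).sub hq2'
      rw [sub_self] at h3
      exact h3
  have t1 := (hlim i1).add hB
  have t2 := (hlim i2).add hB
  have t3 := (hlim i3).add hB
  rw [add_zero] at t1 t2 t3
  have hcore : ∀ᶠ η in 𝓝[>] (0 : ℝ),
      0 ≤ (∫ t in (0 : ℝ)..(π - η), defect V p q t) + (∫ t in (π + η)..2 * π, defect V p q t) + B η ∧
      |(∫ t in (0 : ℝ)..(π - η), stressGap V p q t) +
          (∫ t in (π + η)..2 * π, stressGap V p q t) + B η| ≤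
        (∫ t in (0 : ℝ)..(π - η), defect V p q t) + (∫ t in (π + η)..2 * π, defect V p q t) + B η ∧
      (∫ t in (0 : ℝ)..(π - η), capGap V p q t) + (∫ t in (π + η)..2 * π, capGap V p q t) + B η ≤
        (1 + 1 / l) * ((∫ t in (0 : ℝ)..(π - η), defect V p q t) +
            (∫ t in (π + η)..2 * π, defect V p q t) + B η) +
          l * ((∫ t in (0 : ℝ)..(π - η), V t ^ 2) + ∫ t in (π + η)..2 * π, V t ^ 2) := by
    filter_upwards [Ioo_mem_nhdsGT hp0] with η hη
    obtain ⟨a1, a2, a3⟩ := core hV hVd hp hp2 hq2 le_rfl (show (0 : ℝ) ≤ π - η by linarith [hη.2])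
      (by linarith [hη.1]) (fun t ht => (Real.cos_pos_of_mem_Ioo
        ⟨by linarith [ht.1], by linarith [ht.2, hη.1]⟩).ne') hl
    obtain ⟨b1, b2, b3⟩ := core hV hVd hp hp2 hq2 (show (0 : ℝ) ≤ π + η by linarith [hη.1])
      (show π + η ≤ 2 * π by linarith [hη.2]) le_rfl (fun t ht => (Real.cos_neg_of_pi_div_two_lt_of_lt
        (by linarith [ht.1, hη.1]) (by linarith [ht.2])).ne) hl
    simp only [B]
    rw [abs_le] at a2 b2 ⊢
    exact ⟨by linarith, ⟨by linarith, by linarith⟩, by linarith⟩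
  exact ⟨ge_of_tendsto t1 (hcore.mono fun η h => h.1),
    le_of_tendsto_of_tendsto t2.abs t1 (hcore.mono fun η h => h.2.1),
    le_of_tendsto_of_tendsto t3 ((t1.const_mul _).add ((hlim i4).const_mul l))
      (hcore.mono fun η h => h.2.2)⟩

end Vale.Agent.P128.Regularity

namespace Vale.Agent.P128.Regularity

theorem tipAlgebra : TipAlgebraSpec := by
  intro V p q hV hVd hp hp2 hq2 hπ
  have h0 : (0 : ℝ) ≤ 2 * π := by positivity
  obtain ⟨h1, h2, -⟩ := tip_identity hV hVd hp hp2 hq2 hπ one_pos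
  obtain ⟨i1, i2, -, -⟩ := intervalIntegrable_parts hV hVd hp hp2 hq2
  have hpV : IntervalIntegrable (fun t => p t * V t) volume 0 (2 * π) :=
    hp.mul_continuousOn (by rwa [uIcc_of_le h0])
  have e1 : ∫ t in (0 : ℝ)..2 * π, defect V p q t =
      (∫ t in (0 : ℝ)..2 * π, p t ^ 2 + q t ^ 2) - ∫ t in (0 : ℝ)..2 * π, p t * V t :=
    intervalIntegral.integral_sub (hp2.add hq2) hpV
  have e2 : ∫ t in (0 : ℝ)..2 * π, stressGap V p q t =
      (∫ t in (0 : ℝ)..2 * π, (p t ^ 2 - q t ^ 2) * Real.cos t - 2 * (p t * q t) * Real.sin t) -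
        ∫ t in (0 : ℝ)..2 * π, p t * V t := by
    rw [← intervalIntegral.integral_sub ((i2.add hpV).congr fun t _ => by simp [stressGap]) hpV]
    rfl
  rw [e1] at h1 h2
  rw [e2] at h2
  exact ⟨h1, h2⟩

end Vale.Agent.P128.Regularity
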